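import Crest.Agent.N265.N.Fn

/-!
# Row 265, layer N, task N-LOCEX: graded submodules of `⊕ O(a i)`, local implies eventual
-/

set_option autoImplicit false
set_option linter.unusedSectionVars false
noncomputable section
open MvPolynomial Module

namespace Crest.Agent.N265.N
open Alg
variable {S : Spc} {b : ℕ} {ι κ : Type} [Fintype ι] [Fintype κ] {a : ι → ℤ} {c : κ → ℤ}

/-- graded submodules -/
structure GSub (S : Spc) (b : ℕ) (a : ι → ℤ) (N : ℤ → Submodule ℂ (S.pts → ι → ℂ)) : Prop where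
  le : ∀ j, N j ≤ Amb S b a j
  mul : ∀ j m, ∀ f ∈ Fn S b m, ∀ σ ∈ N j, f • σ ∈ N (j + m)

variable {N N' : ℤ → Submodule ℂ (S.pts → ι → ℂ)}
lemma gsub_Amb : GSub S b a (Amb S b a) := ⟨fun _ => le_rfl, fun _ _ _ hf _ h => smul_mem_Amb hf h⟩
lemma GSub.inf_secs (h : GSub S b a N) (L : Pt → Submodule ℂ (ι → ℂ)) :
    GSub S b a fun j => N j ⊓ secs S L :=
  ⟨fun j => inf_le_left.trans (h.le j), fun j m f hf σ hσ =>
    ⟨h.mul j m f hf σ hσ.1, fun z => (L z.1).smul_mem (f z) (hσ.2 z)⟩⟩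
lemma GSub.inf (h : GSub S b a N) (h' : GSub S b a N') : GSub S b a fun j => N j ⊓ N' j :=
  ⟨fun j => inf_le_left.trans (h.le j), fun j m f hf σ hσ =>
    ⟨h.mul j m f hf σ hσ.1, h'.mul j m f hf σ hσ.2⟩⟩
lemma GSub.sup (h : GSub S b a N) (h' : GSub S b a N') : GSub S b a fun j => N j ⊔ N' j :=
  ⟨fun j => sup_le (h.le j) (h'.le j), fun j m f hf σ hσ => by
    obtain ⟨u, hu, v, hv, rfl⟩ := Submodule.mem_sup.1 hσ
    rw [smul_add]
    exact Submodule.add_mem_sup (h.mul j m f hf u hu) (h'.mul j m f hf v hv)⟩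
/-- a submodule cut out by a condition that is stable under multiplication by functions -/
lemma GSub.inf_const (h : GSub S b a N) (P : Submodule ℂ (S.pts → ι → ℂ))
    (hP : ∀ f ∈ S.fn, ∀ σ ∈ P, f • σ ∈ P) : GSub S b a fun j => N j ⊓ P :=
  ⟨fun j => inf_le_left.trans (h.le j), fun j m f hf σ hσ =>
    ⟨h.mul j m f hf σ hσ.1, hP f (Fn_le hf) σ hσ.2⟩⟩
lemma GSub.map (h : GSub S b a N) (φ : (S.pts → ι → ℂ) →ₗ[ℂ] (S.pts → κ → ℂ))
    (h1 : ∀ (f : S.pts → ℂ) σ, φ (f • σ) = f • φ σ)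
    (h2 : ∀ j, ∀ σ ∈ Amb S b a j, φ σ ∈ Amb S b c j) : GSub S b c fun j => (N j).map φ :=
  ⟨fun j => by rintro _ ⟨σ, hσ, rfl⟩; exact h2 j σ (h.le j hσ), fun j m f hf => by
    rintro _ ⟨σ, hσ, rfl⟩
    exact ⟨f • σ, h.mul j m f hf σ hσ, h1 f σ⟩⟩
lemma GSub.comap {P : ℤ → Submodule ℂ (S.pts → κ → ℂ)} (h : GSub S b a N) (hP : GSub S b c P)
    (φ : (S.pts → ι → ℂ) →ₗ[ℂ] (S.pts → κ → ℂ))
    (h1 : ∀ (f : S.pts → ℂ) σ, φ (f • σ) = f • φ σ) :
    GSub S b a fun j => N j ⊓ (P j).comap φ :=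
  ⟨fun j => inf_le_left.trans (h.le j), fun j m f hf σ hσ => ⟨h.mul j m f hf σ hσ.1, by
    change φ (f • σ) ∈ P (j + m)
    rw [h1]; exact hP.mul j m f hf _ hσ.2⟩⟩
/-- extraction of a homogeneous component -/
lemma comp_mem (hS : Base S b) (h : ∀ j, N j ≤ Amb S b a j) {j : ℤ} {σ ρ : S.pts → ι → ℂ}
    (hσ : σ ∈ Amb S b a j) (hρ : ρ ∈ ⨆ k, ⨆ _ : k ≠ j, Amb S b a k) (hm : σ + ρ ∈ ⨆ j, N j) :
    σ ∈ N j := by
  have h1 : ⨆ k, N k ≤ N j ⊔ ⨆ k, ⨆ _ : k ≠ j, Amb S b a k := iSup_le fun k => by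
    by_cases hk : k = j
    · subst hk; exact le_sup_left
    · exact le_sup_of_le_right ((h k).trans (le_iSup₂_of_le k hk le_rfl))
  obtain ⟨u, hu, v, hv, e⟩ := Submodule.mem_sup.1 (h1 hm)
  have h2 : σ - u = v - ρ := by rw [sub_eq_sub_iff_add_eq_add, ← e, add_comm]
  have h3 := Submodule.disjoint_def.1 (iSupIndep_Amb hS a j) (σ - u) (sub_mem hσ (h j hu))
    (h2 ▸ sub_mem hv hρ)
  rwa [sub_eq_zero.1 h3]
omit [Fintype ι] in
lemma smul_mem_of_span {P : Submodule ℂ (S.pts → ι → ℂ)} {s : Set (S.pts → ℂ)} {f : S.pts → ℂ}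
    {σ : S.pts → ι → ℂ} (hf : f ∈ Submodule.span ℂ s) (h : ∀ g ∈ s, g • σ ∈ P) : f • σ ∈ P := by
  induction hf using Submodule.span_induction with
  | mem g hg => exact h g hg
  | zero => rw [zero_smul]; exact zero_mem _
  | add f g _ _ hf hg => rw [add_smul]; exact add_mem hf hg
  | smul c f _ hf => rw [smul_assoc]; exact P.smul_mem c hf
/-- evaluation of polynomials on the points -/
def evFn (S : Spc) : R →+* S.fn where
  toFun r := ⟨fun z => eval z.1 r, S.eval_mem_fn r⟩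
  map_one' := Subtype.ext (funext fun _ => map_one _)
  map_mul' _ _ := Subtype.ext (funext fun _ => map_mul _ _ _)
  map_zero' := Subtype.ext (funext fun _ => map_zero _)
  map_add' _ _ := Subtype.ext (funext fun _ => map_add _ _ _)
lemma evFn_surj (S : Spc) : Function.Surjective (evFn S) := by
  rintro ⟨f, r, hr⟩
  obtain rfl : f = fun z => eval z.1 r := funext hr
  exact ⟨r, rfl⟩
instance noeth_fn (S : Spc) : IsNoetherianRing S.fn :=
  isNoetherianRing_of_surjective (R ⧸ S.I) S.fn _ (Ideal.Quotient.lift_surjective_of_surjective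
    S.I (fun _ hr => Subtype.ext (funext fun z => hr z.1 z.2)) (evFn_surj S))
/-- a local denominator may be taken homogeneous -/
lemma GSub.exists_hom (hS : Base S b) (h : GSub S b a N) {j : ℤ} {σ : S.pts → ι → ℂ}
    (hσ : σ ∈ Amb S b a j) {z : S.pts} {f : S.pts → ℂ} (hf : f ∈ S.fn) (h0 : f z ≠ 0)
    (hm : f • σ ∈ ⨆ j, N j) : ∃ m, ∃ g ∈ Fn S b m, g z ≠ 0 ∧ g • σ ∈ N (j + m) := by
  obtain ⟨s, g, hg, rfl⟩ := exists_sum_Fn hS hf
  rw [Finset.sum_apply] at h0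
  obtain ⟨m, hm', h1⟩ := Finset.exists_ne_zero_of_sum_ne_zero h0
  refine ⟨m, g m, hg m, h1, comp_mem hS h.le (smul_mem_Amb (hg m) hσ)
    (ρ := ∑ k ∈ s.erase m, g k • σ) (sum_mem fun k hk => ?_) ?_⟩
  · exact Submodule.mem_iSup_of_mem (j + k) (Submodule.mem_iSup_of_mem
      (fun e => Finset.ne_of_mem_erase hk (add_left_cancel e)) (smul_mem_Amb (hg k) hσ))
  · rwa [Finset.add_sum_erase s (fun k => g k • σ) hm', ← Finset.sum_smul]
/-- finite generation (`S.pts → ι → ℂ` is a module over the noetherian ring `R ⧸ S.I ≃ S.fn`) -/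
theorem GSub.fg (hS : Base S b) (h : GSub S b a N) : ∃ (n : ℕ) (d : Fin n → ℤ)
    (σ : Fin n → S.pts → ι → ℂ), (∀ i, σ i ∈ N (d i)) ∧ ∀ j,
      N j ≤ Submodule.span ℂ {τ | ∃ i, ∃ f ∈ Fn S b (j - d i), τ = f • σ i} := by
  let T : (ι → S.fn) → S.pts → ι → ℂ := fun u z i => (u i).1 z
  obtain ⟨t, ht, e⟩ := (Submodule.fg_span_iff_fg_span_finset_subset {u | ∃ j, T u ∈ N j}).1
    (IsNoetherian.noetherian (R := S.fn) _)
  obtain ⟨n, u, hu⟩ : ∃ (n : ℕ) (u : Fin n → ι → S.fn), Set.range u = t :=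
    ⟨_, Subtype.val ∘ t.equivFin.symm, by
      rw [t.equivFin.symm.surjective.range_comp, Subtype.range_coe_subtype]; rfl⟩
  rw [← hu] at ht e
  choose d hd using fun i => ht ⟨i, rfl⟩
  refine ⟨n, d, fun i => T (u i), hd, fun j σ hσ => ?_⟩
  refine comp_mem (N := fun j => Submodule.span ℂ {τ | ∃ i, ∃ f ∈ Fn S b (j - d i),
    τ = f • T (u i)}) hS (fun k => ?_) (h.le j hσ) (zero_mem _) ?_
  · refine Submodule.span_le.2 ?_
    rintro _ ⟨i, f, hf, rfl⟩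
    have := smul_mem_Amb hf (h.le _ (hd i))
    rwa [add_sub_cancel] at this
  · have h1 : (fun i => ⟨fun z => σ z i, Fn_le (h.le j hσ i)⟩ : ι → S.fn) ∈
        Submodule.span S.fn (Set.range u) := e ▸ Submodule.subset_span ⟨j, hσ⟩
    obtain ⟨c, hc⟩ := (Submodule.mem_span_range_iff_exists_fun _).1 h1
    have h2 : σ = ∑ k, (c k).1 • T (u k) := by
      funext z i
      have := congrArg (fun w : ι → S.fn => (w i).1 z) hc
      simpa [T] using this.symm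
    rw [add_zero, h2]
    refine sum_mem fun k _ => ?_
    obtain ⟨s, g, hg, e⟩ := exists_sum_Fn hS (c k).2
    rw [← e, Finset.sum_smul]
    exact sum_mem fun m _ => Submodule.mem_iSup_of_mem (d k + m) (Submodule.subset_span
      ⟨k, g m, by rw [add_sub_cancel_left]; exact hg m, rfl⟩)
/-- generation by the previous degree -/
theorem GSub.gen (hS : Base S b) (h : GSub S b a N) : ∃ j₀ : ℤ, ∀ j ≥ j₀,
    N (j + 1) ≤ Submodule.span ℂ {τ | ∃ f ∈ Fn S b 1, ∃ σ ∈ N j, τ = f • σ} := by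
  obtain ⟨n, d, σ, hσ, hN⟩ := h.fg hS
  obtain ⟨j₀, hj⟩ := (Set.finite_range d).bddAbove
  refine ⟨j₀, fun j hj' => (hN _).trans (Submodule.span_le.2 ?_)⟩
  rintro _ ⟨i, f, hf, rfl⟩
  have h1 : 0 ≤ j - d i := sub_nonneg.2 ((hj ⟨i, rfl⟩).trans hj')
  rw [show j + 1 - d i = j - d i + 1 by ring] at hf
  refine smul_mem_of_span (Fn_succ hS h1 hf) ?_
  rintro _ ⟨g, hg, k, hk, rfl⟩
  refine Submodule.subset_span ⟨g, hg, k • σ i, ?_, mul_smul _ _ _⟩
  simpa using h.mul _ _ k hk _ (hσ i)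
/-- **local implies eventual** (`fg`, `exists_hom`, `Fn_nss` for every generator) -/
theorem GSub.le_of_local (hS : Base S b) (h : GSub S b a N) (h' : GSub S b a N')
    (hl : ∀ j, ∀ σ ∈ N j, ∀ z : S.pts, ∃ f ∈ S.fn, f z ≠ 0 ∧ f • σ ∈ ⨆ j, N' j) :
    ∃ j₀ : ℤ, ∀ j ≥ j₀, N j ≤ N' j := by
  obtain ⟨n, d, σ, hσ, hN⟩ := h.fg hS
  have key : ∀ i, ∃ m₀ : ℤ, ∀ m ≥ m₀, ∀ f ∈ Fn S b m, f • σ i ∈ N' (d i + m) := fun i => by
    have h1 : ∀ z : S.pts, ∃ m, ∃ g ∈ Fn S b m, g z ≠ 0 ∧ g • σ i ∈ N' (d i + m) := fun z => by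
      obtain ⟨f, hf, h0, hm⟩ := hl _ _ (hσ i) z
      exact h'.exists_hom hS (h.le _ (hσ i)) hf h0 hm
    choose m g hg h0 hm using h1
    obtain ⟨m₀, H⟩ := Fn_nss hS m g hg fun z => ⟨z, h0 z⟩
    refine ⟨m₀, fun k hk f hf => smul_mem_of_span (H k hk hf) ?_⟩
    rintro _ ⟨z, u, hu, rfl⟩
    have := h'.mul _ _ u hu _ (hm z)
    rwa [show d i + m z + (k - m z) = d i + k by ring, ← mul_smul] at this
  choose m₀ hm using key
  obtain ⟨j₀, hj⟩ := (Set.finite_range fun i => d i + m₀ i).bddAbove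
  refine ⟨j₀, fun j hj' => (hN _).trans (Submodule.span_le.2 ?_)⟩
  rintro _ ⟨i, f, hf, rfl⟩
  have h1 : d i + m₀ i ≤ j := (hj ⟨i, rfl⟩).trans hj'
  simpa using hm i (j - d i) (by linarith) f hf

end Crest.Agent.N265.N
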