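import Crest.Agent.N265.N.Gam
import Crest.Agent.N265.Top.Model
import Crest.Agent.N265.N.Locex
import Crest.Agent.N265.K.AB3
import Crest.Agent.N265.Sp.Dim
import Crest.Agent.N265.Jac.Jac
import Crest.Agent.N265.K.Wt
import Crest.Agent.N265.Br.Surf

-- ▼ part N265/N/Push
section

/-!
# Row 265, layer N, task N-PUSH: the push-forward `piK : K (X × S) →+ K X`
-/

set_option autoImplicit false
noncomputable section
open MvPolynomial Module TensorProduct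

namespace Crest.Agent.N265.N
open Alg GV
variable {S X Y : Spc} {b : ℕ}

open Matrix in
/-- exactness of the Koszul complex of a non-zero vector of `ℂ³` -/
lemma kos_lin {a : Fin 3 → ℂ} {i : Fin 3} (hi : a i ≠ 0) {f : (Unit → ℂ) →ₗ[ℂ] (Fin 3 → ℂ)}
    {p : (Fin 3 → ℂ) →ₗ[ℂ] (Fin 3 → ℂ)} {q : (Fin 3 → ℂ) →ₗ[ℂ] (Unit → ℂ)}
    (hf : ∀ t, f t = t () • a) (hp : ∀ v, p v = a ⨯₃ v) (hq : ∀ w, q w = fun _ => a ⬝ᵥ w) :
    ⊤ ⊓ LinearMap.ker f = ⊥ ∧ (⊤ : Submodule ℂ _).map f = ⊤ ⊓ LinearMap.ker p ∧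
      (⊤ : Submodule ℂ _).map p = ⊤ ⊓ LinearMap.ker q ∧ (⊤ : Submodule ℂ _).map q = ⊤ := by
  obtain ⟨u, hu⟩ : ∃ u : Fin 3 → ℂ, a ⬝ᵥ u = 1 :=
    ⟨Pi.single i (a i)⁻¹, by rw [dotProduct_single, mul_inv_cancel₀ hi]⟩
  simp only [top_inf_eq]
  refine ⟨eq_bot_iff.2 fun t ht => ?_, le_antisymm ?_ fun v hv => ?_, le_antisymm ?_ fun w hw => ?_,
    eq_top_iff.2 fun t _ => ⟨t () • u, trivial, ?_⟩⟩
  · have := congrFun ((hf t).symm.trans ht) i
    exact funext fun _ => (mul_eq_zero.1 this).resolve_right hi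
  · rintro _ ⟨t, -, rfl⟩
    rw [LinearMap.mem_ker, hf, hp, map_smul, cross_self, smul_zero]
  · have := cross_cross_eq_smul_sub_smul' u a v
    rw [← hp v, LinearMap.mem_ker.1 hv, map_zero, hu, one_smul] at this
    exact ⟨fun _ => u ⬝ᵥ v, trivial, (hf _).trans (sub_eq_zero.1 this.symm)⟩
  · rintro _ ⟨v, -, rfl⟩
    rw [LinearMap.mem_ker, hp, hq, dot_self_cross]; rfl
  · have h0 : a ⬝ᵥ w = 0 := congrFun ((hq w).symm.trans hw) ()
    refine ⟨w ⨯₃ u, trivial, ?_⟩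
    rw [hp, cross_cross_eq_smul_sub_smul', hu, one_smul, dotProduct_comm, h0, zero_smul, sub_zero]
  · rw [hq, dotProduct_smul, hu, smul_eq_mul, mul_one]

/-- Koszul complex of three forms without common zero (`kl_four`, cross product matrix) -/
theorem kos_three {d : D} (hd : d ∈ DS X.B) (l : Fin 3 → R) (hl : ∀ i, Hmg d (l i))
    (h : ∀ x ∈ X.pts, ∃ i, eval x (l i) ≠ 0) : (1 - lbK X (-d)) ^ 3 = 0 := by
  have h1 := neg_mem hd
  let f : Matrix (Fin 3) Unit R := fun j _ => l j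
  let p : Matrix (Fin 3) (Fin 3) R := !![0, -l 2, l 1; l 2, 0, -l 0; -l 1, l 0, 0]
  let q : Matrix Unit (Fin 3) R := fun _ i => l i
  have hf : MHmg (fun _ => -d + -d + -d) (fun _ => -d + -d) f := fun j _ => by
    rw [show -d + -d - (-d + -d + -d) = d by abel]; exact hl j
  have hp : MHmg (fun _ => -d + -d) (fun _ => -d) p := fun j i => by
    rw [show -d - (-d + -d) = d by abel]
    have h0 := Hmg.zero d
    have hn := fun i => (hl i).neg
    fin_cases j <;> fin_cases i <;> simp [p, h0, hn, hl]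
  have hq : MHmg (fun _ => -d) (fun _ => 0) q := fun _ i => by
    rw [show 0 - -d = d by abel]; exact hl i
  have hx : ∀ x ∈ X.pts, ⊤ ⊓ LinearMap.ker (mev x f) = ⊥ ∧
      (⊤ : Submodule ℂ _).map (mev x f) = ⊤ ⊓ LinearMap.ker (mev x p) ∧
      (⊤ : Submodule ℂ _).map (mev x p) = ⊤ ⊓ LinearMap.ker (mev x q) ∧
      (⊤ : Submodule ℂ _).map (mev x q) = ⊤ := fun x hx => by
    obtain ⟨i, hi⟩ := h x hx
    refine kos_lin (a := fun i => eval x (l i)) hi (fun t => funext fun j => ?_)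
      (fun v => funext fun j => ?_) fun w => funext fun j => rfl
    · rw [mev_apply]; simp [f, mul_comm]
    · rw [mev_apply, Fin.sum_univ_three]
      fin_cases j <;> simp [cross_apply, p] <;> ring
  have key := kl_four (A := Bun.triv X (fun _ : Unit => -d + -d + -d) fun _ =>
      add_mem (add_mem h1 h1) h1)
    (B := Bun.triv X (fun _ : Fin 3 => -d + -d) fun _ => add_mem h1 h1)
    (C := Bun.triv X (fun _ : Fin 3 => -d) fun _ => h1)
    (E := Bun.triv X (fun _ : Unit => 0) fun _ => zero_mem _) f p q hf hp hq hx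
  rw [kl_triv, kl_triv, kl_triv, kl_triv] at key
  change ∑ _ : Unit, lbK X (-d + -d + -d) + ∑ _ : Fin 3, lbK X (-d) =
    ∑ _ : Fin 3, lbK X (-d + -d) + ∑ _ : Unit, lbK X 0 at key
  simp only [lbK_add, lbK_zero, Finset.sum_const, Finset.card_univ, Fintype.card_unit,
    Fintype.card_fin, nsmul_eq_mul, Nat.cast_ofNat, Nat.cast_one] at key
  linear_combination -key
theorem Base.kos (hS : Base S b) (X : Spc) : (1 - lbK (X.fib S) (-eB b)) ^ 3 = 0 := by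
  obtain ⟨l, h1, h2⟩ := exists_three hS
  refine kos_three (by simpa using hS.eB_mem (X := X) 1) (fun i => kill S.B (l i))
    (fun i => (h1 i).kill _) fun z hz => ?_
  simpa only [eval_kill] using h2 _ hz.2.1

/-- the recursion `Δ³ = 0` -/
def Rec3 {M : Type*} [AddCommGroup M] (H : ℤ → M) (j : ℤ) : Prop :=
  H j = 3 • H (j + 1) - 3 • H (j + 2) + H (j + 3)
lemma Rec3.eq_of {M : Type*} [AddCommGroup M] {H H' : ℤ → M} {j₀ j₁ : ℤ}
    (h : ∀ j ≥ j₀, Rec3 H j) (h' : ∀ j ≥ j₀, Rec3 H' j) (e : ∀ j ≥ j₁, H j = H' j) :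
    ∀ j ≥ j₀, H j = H' j := by
  have key : ∀ n : ℕ, ∀ j ≥ j₀, j₁ - n ≤ j → H j = H' j := by
    intro n
    induction n with
    | zero => exact fun j _ hj => e j (by simpa using hj)
    | succ n ih =>
      intro j hj hn
      rw [h j hj, h' j hj, ih (j + 1) (by omega) (by omega), ih (j + 2) (by omega) (by omega),
        ih (j + 3) (by omega) (by omega)]
  exact fun j hj => key (j₁ - j).toNat j hj (by omega)
lemma Rec3.exists_ext {M : Type*} [AddCommGroup M] {H : ℤ → M} {j₀ : ℤ} (h : ∀ j ≥ j₀, Rec3 H j) :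
    ∃ H' : ℤ → M, (∀ j, Rec3 H' j) ∧ ∀ j ≥ j₀, H' j = H j := by
  let a : ℕ → M × M × M := fun n => Nat.rec (H j₀, H (j₀ + 1), H (j₀ + 2))
    (fun _ t => (3 • t.1 - 3 • t.2.1 + t.2.2, t.1, t.2.1)) n
  let H' : ℤ → M := fun j => if j₀ ≤ j then H j else (a (j₀ - j).toNat).1
  have h1 : ∀ j ≥ j₀, H' j = H j := fun j hj => if_pos hj
  have h2 : ∀ n : ℕ, H' (j₀ - n) = (a n).1 := fun n => by
    rcases n with _ | n
    · exact (h1 _ (by simp)).trans (by simp [a])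
    · exact (if_neg (by omega)).trans (by rw [sub_sub_cancel, Int.toNat_natCast])
  have h3 : ∀ n : ℕ, a n = (H' (j₀ - n), H' (j₀ - n + 1), H' (j₀ - n + 2)) := fun n => by
    induction n with
    | zero => simp [a, h1]
    | succ n ih =>
      rw [h2, show j₀ - (n + 1 : ℕ) + 1 = j₀ - n by push_cast; ring,
        show j₀ - (n + 1 : ℕ) + 2 = j₀ - n + 1 by push_cast; ring]
      change (_, (a n).1, (a n).2.1) = _
      rw [ih]
  refine ⟨H', fun j => ?_, h1⟩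
  by_cases hj : j₀ ≤ j
  · rw [Rec3, h1 j hj, h1 _ (by omega), h1 _ (by omega), h1 _ (by omega)]
    exact h j hj
  · obtain ⟨n, rfl⟩ : ∃ n : ℕ, j = j₀ - (n + 1 : ℕ) := ⟨(j₀ - j - 1).toNat, by omega⟩
    rw [Rec3, h2, show j₀ - (n + 1 : ℕ) + 1 = j₀ - n by push_cast; ring,
      show j₀ - (n + 1 : ℕ) + 2 = j₀ - n + 1 by push_cast; ring,
      show j₀ - (n + 1 : ℕ) + 3 = j₀ - n + 2 by push_cast; ring]
    change 3 • (a n).1 - 3 • (a n).2.1 + (a n).2.2 = _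
    rw [h3]
lemma Base.rec3 (hS : Base S b) {M : Type*} [AddCommGroup M] (φ : K (X.fib S) →+ M)
    (u : K (X.fib S)) (j : ℤ) : Rec3 (fun j : ℤ => φ (lbK _ (j • eB b) * u)) j := by
  have h1 := hS.kos X
  have h2 := lbK_mul_neg (X := X.fib S) (eB b)
  have e : ∀ k : ℤ, lbK (X.fib S) ((k + 1) • eB b) = lbK _ (k • eB b) * lbK _ (eB b) := fun k => by
    rw [add_smul, one_smul, lbK_add]
  rw [Rec3, ← map_nsmul, ← map_nsmul, ← map_sub, ← map_add, show j + 3 = j + 1 + 1 + 1 by ring,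
    show j + 2 = j + 1 + 1 by ring, e (j + 1 + 1), e (j + 1), e j]
  congr 1
  generalize lbK (X.fib S) (eB b) = L at *
  generalize lbK (X.fib S) (-eB b) = L' at *
  simp only [nsmul_eq_mul, Nat.cast_ofNat]
  linear_combination (-lbK (X.fib S) (j • eB b) * u * L ^ 3) * h1 +
    (-lbK (X.fib S) (j • eB b) * u *
      (3 * L ^ 2 - 3 * L * (L * L' + 1) + ((L * L') ^ 2 + L * L' + 1))) * h2
/-- homomorphisms that agree on high twists agree -/
theorem Base.ext_big (hS : Base S b) {M : Type*} [AddCommGroup M] {φ ψ : K (X.fib S) →+ M}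
    (h : ∀ E : Bun (X.fib S), ∃ j₀ : ℤ, ∀ j ≥ j₀,
      φ (lbK _ (j • eB b) * E.kl) = ψ (lbK _ (j • eB b) * E.kl)) : φ = ψ :=
  K.hom_ext fun E => by
    obtain ⟨j₀, hj⟩ := h E
    have := Rec3.eq_of (j₀ := 0) (fun j _ => hS.rec3 φ E.kl j) (fun j _ => hS.rec3 ψ E.kl j) hj 0
      le_rfl
    simpa only [zero_smul, lbK_zero, one_mul] using this

lemma gamK_rec3 (hS : Base S b) (hb : b ∉ X.B) (E : Bun (X.fib S)) :
    ∃ j₀ : ℤ, ∀ j ≥ j₀, Rec3 (gamK E b) j := by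
  obtain ⟨Ψ, hΨ⟩ := K.exists_lift (G := Filter.Germ (Filter.atTop : Filter ℤ) (K X))
    (fun E : Bun (X.fib S) => Filter.Germ.ofFun (gamK E b))
    fun A B C h => by
      rw [← Filter.Germ.coe_add, Filter.Germ.coe_eq]
      exact Filter.eventually_atTop.2 (gamK_ses hS hb h)
  have e : ∀ k : ℤ, Ψ (lbK _ (k • eB b) * E.kl) =
      Filter.Germ.ofFun fun j => gamK E b (j + k) := fun k => by
    rw [← kl_twist E _ (hS.eB_mem k), hΨ, funext fun j => gamK_twist hS hb E j k]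
  have h := hS.rec3 Ψ E.kl 0
  simp only [Rec3, e, zero_add, add_zero] at h
  rw [← Filter.Germ.coe_nsmul, ← Filter.Germ.coe_nsmul, ← Filter.Germ.coe_sub,
    ← Filter.Germ.coe_add, Filter.Germ.coe_eq] at h
  exact Filter.eventually_atTop.1 h

/-- `K.exists_lift` to `Filter.Germ atTop (K X)` (`gamK_ses`); the germ of `O(1) u` is the shifted
germ of `u` (`gamK_twist`), so every germ satisfies `Rec3` eventually; take the value at `0` of the
unique extension. -/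
theorem exists_piK (X S : Spc) (b : ℕ) : ∃ Φ : K (X.fib S) →+ K X, Base S b → b ∉ X.B →
    ∀ E : Bun (X.fib S), ∃ j₀ : ℤ, ∀ j ≥ j₀, Φ (lbK _ (j • eB b) * E.kl) = gamK E b j := by
  by_cases H : Base S b ∧ b ∉ X.B
  swap
  · exact ⟨0, fun h1 h2 => absurd ⟨h1, h2⟩ H⟩
  obtain ⟨hS, hb⟩ := H
  choose n hn using gamK_rec3 hS hb
  choose s h1 h2 using fun E => Rec3.exists_ext (hn E)
  obtain ⟨Φ, hΦ⟩ := K.exists_lift (fun E : Bun (X.fib S) => s E 0) fun A B C h => by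
    obtain ⟨j₀, hj⟩ := gamK_ses hS hb h
    refine Rec3.eq_of (H' := fun j => s A j + s C j) (j₀ := 0)
      (j₁ := max (max j₀ (n B)) (max (n A) (n C))) (fun j _ => h1 B j) (fun j _ => ?_)
      (fun j hj' => ?_) 0 le_rfl
    · rw [Rec3, h1 A j, h1 C j, smul_add, smul_add]; abel
    · rw [h2 A j (by omega), h2 B j (by omega), h2 C j (by omega), hj j (by omega)]
  refine ⟨Φ, fun _ _ E => ⟨n E, fun k hk => ?_⟩⟩
  rw [← kl_twist E _ (hS.eB_mem k), hΦ, ← h2 E k hk]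
  refine (Rec3.eq_of (H' := fun j => s E (j + k)) (j₀ := 0)
    (j₁ := max (n (E.twist _ (hS.eB_mem k))) (n E - k)) (fun j _ => h1 _ j) (fun j _ => ?_)
    (fun j hj => ?_) 0 le_rfl).trans (by rw [zero_add])
  · rw [Rec3, h1 E (j + k), add_right_comm j 1, add_right_comm j 2, add_right_comm j 3]
  · rw [h2 _ j (by omega), h2 E _ (by omega), gamK_twist hS hb]
/-- **push-forward along `S`** -/
def piK (X S : Spc) (b : ℕ) : K (X.fib S) →+ K X := (exists_piK X S b).choose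

section
variable (hS : Base S b) (hb : b ∉ X.B)
include hS hb
theorem piK_big (E : Bun (X.fib S)) :
    ∃ j₀ : ℤ, ∀ j ≥ j₀, piK X S b (lbK _ (j • eB b) * E.kl) = gamK E b j :=
  (exists_piK X S b).choose_spec hS hb E
/-- projection formula -/
theorem piK_mul (a : K X) (u : K (X.fib S)) :
    piK X S b (K.pull (Spc.fib_fst X S) a * u) = a * piK X S b u := by
  induction a using K.ind with
  | h0 => simp
  | hneg a h => rw [map_neg, neg_mul, map_neg, h, neg_mul]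
  | hadd a a' h h' => rw [map_add, add_mul, map_add, h, h', add_mul]
  | hkl A =>
    refine DFunLike.congr_fun (hS.ext_big
      (φ := (piK X S b).comp (AddMonoidHom.mulLeft (K.pull (Spc.fib_fst X S) A.kl)))
      (ψ := (AddMonoidHom.mulLeft A.kl).comp (piK X S b)) fun E => ?_) u
    obtain ⟨j₁, h₁⟩ := piK_big hS hb ((A.pull (Spc.fib_fst X S)).tens E)
    obtain ⟨j₂, h₂⟩ := piK_big hS hb E
    obtain ⟨j₃, h₃⟩ := isAB_gamG hS hb E
    refine ⟨max j₁ (max j₂ j₃), fun j hj => ?_⟩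
    change piK X S b (_ * _) = A.kl * piK X S b _
    rw [mul_left_comm, K.pull_kl, ← kl_tens, h₁ j (by omega), h₂ j (by omega),
      gamK_tens hS hb A E (h₃ j (by omega))]
/-- base change -/
theorem piK_pull (q : Proj Y X) (hY : b ∉ Y.B) (u : K (X.fib S)) :
    piK Y S b (K.pull (q.fib_map S) u) = K.pull q (piK X S b u) := by
  refine DFunLike.congr_fun (hS.ext_big
    (φ := (piK Y S b).comp (K.pull (q.fib_map S)).toAddMonoidHom)
    (ψ := (K.pull q).toAddMonoidHom.comp (piK X S b)) fun E => ?_) u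
  obtain ⟨j₁, h₁⟩ := piK_big hS hY (E.pull (q.fib_map S))
  obtain ⟨j₂, h₂⟩ := piK_big hS hb E
  obtain ⟨j₃, h₃⟩ := isAB_gamG hS hb E
  refine ⟨max j₁ (max j₂ j₃), fun j hj => ?_⟩
  change piK Y S b (K.pull _ _) = K.pull q (piK X S b _)
  rw [map_mul, K.pull_lbK _ (hS.eB_mem j), K.pull_kl, h₁ j (by omega), h₂ j (by omega),
    gamK_pull hS hb q hY E (h₃ j (by omega))]
theorem piK_lbK_big :
    ∃ j₀ : ℤ, ∀ j ≥ j₀, piK X S b (lbK _ (j • eB b)) = (finrank ℂ (Fn S b j) : K X) := by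
  obtain ⟨j₀, h⟩ := piK_big hS hb (Bun.line (X.fib S) 0)
  exact ⟨j₀, fun j hj => by rw [← gamK_line hS hb, ← h j hj, ← K.one_def, mul_one]⟩
end

/-! ### the basis-free form, for any model `A` of the forms of degree `m` -/

/-- `ev` identifies `A` with the forms of degree `m` -/
structure IsSecM (S : Spc) (b : ℕ) (m : ℤ) {A : Type} [AddCommGroup A] [Module ℂ A]
    (ev : A →ₗ[ℂ] (S.pts → ℂ)) : Prop where
  inj : Function.Injective ev
  range : LinearMap.range ev = Fn S b m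
/-- `1 ⊗ ev_z` -/
def evT (M : Type) [AddCommGroup M] [Module ℂ M] {A : Type} [AddCommGroup A] [Module ℂ A]
    (e : A →ₗ[ℂ] ℂ) : M ⊗[ℂ] A →ₗ[ℂ] M :=
  (TensorProduct.rid ℂ M).toLinearMap ∘ₗ LinearMap.lTensor M e
@[simp] lemma evT_tmul {M A : Type} [AddCommGroup M] [Module ℂ M] [AddCommGroup A] [Module ℂ A]
    (e : A →ₗ[ℂ] ℂ) (v : M) (a : A) : evT M e (v ⊗ₜ a) = e a • v := by simp [evT]
/-- `{v ∈ V ⊗ A | ev_z v ∈ L (x + z) for all z}` -/
def gamT (S : Spc) {M A : Type} [AddCommGroup M] [Module ℂ M] [AddCommGroup A] [Module ℂ A]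
    (ev : A →ₗ[ℂ] (S.pts → ℂ)) (L : Pt → Submodule ℂ M) (x : Pt) : Submodule ℂ (M ⊗[ℂ] A) :=
  ⨅ z : S.pts, (L (x + z.1)).comap (evT M (LinearMap.proj z ∘ₗ ev))
/-- `V ⊗ A` as vector valued functions, in a basis of `V` -/
def evB {M A ι : Type} [AddCommGroup M] [Module ℂ M] [AddCommGroup A] [Module ℂ A] [Fintype ι]
    (e : Basis ι ℂ M) (ev : A →ₗ[ℂ] (S.pts → ℂ)) : M ⊗[ℂ] A →ₗ[ℂ] (S.pts → ι → ℂ) :=
  LinearMap.pi fun z => e.equivFun.toLinearMap ∘ₗ evT M (LinearMap.proj z ∘ₗ ev)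
section evB
variable {M A ι : Type} [AddCommGroup M] [Module ℂ M] [AddCommGroup A] [Module ℂ A] [Fintype ι]
  (e : Basis ι ℂ M) (ev : A →ₗ[ℂ] (S.pts → ℂ))
lemma evB_apply (t : M ⊗[ℂ] A) (z : S.pts) :
    evB e ev t z = e.equivFun (evT M (LinearMap.proj z ∘ₗ ev) t) := rfl
lemma evB_tmul (v : M) (a : A) (z : S.pts) (i : ι) :
    evB e ev (v ⊗ₜ a) z i = ev a z * e.repr v i := by simp [evB_apply]
lemma evB_sum (a : ι → A) (z : S.pts) (i : ι) : evB e ev (∑ k, e k ⊗ₜ a k) z i = ev (a i) z := by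
  classical
  simp [map_sum, Finset.sum_apply, evB_tmul, Finsupp.single_apply]
lemma exists_sum_tmul (t : M ⊗[ℂ] A) : ∃ a : ι → A, t = ∑ k, e k ⊗ₜ a k := by
  induction t using TensorProduct.induction_on with
  | zero => exact ⟨0, by simp⟩
  | tmul v a =>
    refine ⟨fun k => e.repr v k • a, ?_⟩
    conv_lhs => rw [← e.sum_repr v]
    simp only [sum_tmul, smul_tmul]
  | add t t' h h' =>
    obtain ⟨a, rfl⟩ := h
    obtain ⟨a', rfl⟩ := h'
    exact ⟨a + a', by simp only [Pi.add_apply, tmul_add, Finset.sum_add_distrib]⟩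
lemma evB_inj (h : Function.Injective ev) : Function.Injective (evB e ev) := by
  refine (injective_iff_map_eq_zero _).2 fun t ht => ?_
  obtain ⟨a, rfl⟩ := exists_sum_tmul e t
  refine Finset.sum_eq_zero fun i _ => ?_
  have : a i = 0 := h (funext fun z => by rw [← evB_sum e ev a z i, ht, map_zero]; rfl)
  rw [this, tmul_zero]
lemma range_evB {m j : ℤ} (h : LinearMap.range ev = Fn S b m) {c : ι → ℤ}
    (hc : ∀ i, j + c i = m) : LinearMap.range (evB e ev) = Amb S b c j := by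
  refine le_antisymm ?_ fun σ hσ => ?_
  · rintro _ ⟨t, rfl⟩ i
    obtain ⟨a, rfl⟩ := exists_sum_tmul e t
    rw [hc, ← h, funext fun z => evB_sum e ev a z i]
    exact ⟨_, rfl⟩
  · choose a ha using fun i => h.ge (hc i ▸ hσ i)
    exact ⟨∑ k, e k ⊗ₜ a k, funext fun z => funext fun i => by rw [evB_sum, ha]⟩
end evB
/-- **sections in high degree**: `L ≤ V ⊗ O(k)` on `X × S`, `V` of `S`-degree zero -/
theorem piK_gamT (hS : Base S b) (hb : b ∉ X.B) {V : GV} (hV : V.In X.B) {k : ℤ}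
    {L : Pt → Submodule ℂ V.V} (h : IsAB (X.fib S) (V.shift (k • eB b)) L) :
    ∃ j₀ : ℤ, ∀ j ≥ j₀, ∀ (A : Type) [AddCommGroup A] [Module ℂ A] [FiniteDimensional ℂ A]
      (ev : A →ₗ[ℂ] (S.pts → ℂ)), IsSecM S b (j + k) ev →
      IsAB X (V.tens (triv A)) (gamT S ev L) ∧
      piK X S b (lbK _ (j • eB b) * kc (X.fib S) (V.shift (k • eB b)) L) =
        kc X (V.tens (triv A)) (gamT S ev L) := by
  obtain ⟨n, e, deg, hd, he⟩ := hV.exists_basis
  have he' : ∀ i, (V.shift (k • eB b)).g (e i) = chi (deg i + k • eB b) • e i := fun i => by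
    rw [shift_g, he, smul_smul, chi_add, mul_comm]
  have hd' : ∀ i, deg i + k • eB b ∈ DS (X.fib S).B := fun i =>
    add_mem (DS_mono (Spc.fib_fst X S).sub (hd i)) (hS.eB_mem k)
  have hs : ∀ i, (deg i + k • eB b) (some b) = k := fun i => by simp [hd i b hb, eB]
  have hp : ∀ i, dpr X.B (deg i + k • eB b) = deg i := fun i => by
    rw [hS.dpr_eq hb (hd' i), hs, add_sub_cancel_right]
  have hE : (h.toBun e _ hd' he').kl = kc (X.fib S) (V.shift (k • eB b)) L :=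
    Pres.kl ⟨e, h.presB_toBun e _ hd' he'⟩
  obtain ⟨j₁, h₁⟩ := piK_big hS hb (h.toBun e _ hd' he')
  obtain ⟨j₂, h₂⟩ := isAB_gamG hS hb (h.toBun e _ hd' he')
  refine ⟨max j₁ j₂, fun j hj A _ _ _ ev hev => ?_⟩
  have hr : LinearMap.range (evB e ev) = Amb S b (sdeg b fun i => deg i + k • eB b) j :=
    range_evB e ev hev.range fun i => congrArg (j + ·) (hs i)
  let θ : (V.tens (triv A)).V →ₗ[ℂ] (AmbG X S b (fun i => deg i + k • eB b) j).V :=
    (evB e ev).codRestrict _ fun t => hr.le ⟨t, rfl⟩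
  have hi : Function.Injective θ := fun t t' ht =>
    evB_inj e ev hev.inj (congrArg Subtype.val ht)
  have hsu : Function.Surjective θ := fun σ =>
    let ⟨t, ht⟩ := hr.ge σ.2; ⟨t, Subtype.ext ht⟩
  have h0 : Deg0 (V.tens (triv A)) (AmbG X S b (fun i => deg i + k • eB b) j) θ := fun t => by
    refine Subtype.ext (funext fun z => funext fun i => ?_)
    rw [AmbG_g, hp]
    change evB e ev (TensorProduct.congr V.g (LinearEquiv.refl ℂ A) t) z i = _ * evB e ev t z i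
    induction t using TensorProduct.induction_on with
    | zero => simp
    | tmul v a => rw [congr_tmul, evB_tmul, evB_tmul, repr_g he, mul_left_comm]; rfl
    | add t t' h h' => simp only [map_add, Pi.add_apply, h, h', mul_add]
  have hc : ∀ x, (gamG (h.toBun e _ hd' he') b j x).comap θ = gamT S ev L x := fun x => by
    ext t
    refine (mem_gamG (E := h.toBun e _ hd' he') (σ := θ t)).trans ?_
    rw [gamT, Submodule.mem_iInf]
    exact forall_congr' fun z => ⟨fun ⟨v, hv, e'⟩ => by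
      rw [Submodule.mem_comap, ← e.equivFun.injective e']; exact hv, fun h => ⟨_, h, rfl⟩⟩
  have hab : IsAB X (V.tens (triv A)) (gamT S ev L) :=
    ((h₂ j (by omega)).comap_of_inj (hV.tens (in_triv A)) h0 hi fun x _ σ _ => hsu σ).congr
      fun x _ => hc x
  refine ⟨hab, ?_⟩
  rw [← hE, h₁ j (by omega)]
  exact (kc_iso hab (h₂ j (by omega)) (IsRM.const h0) fun x _ =>
    ⟨eq_bot_iff.2 (inf_le_right.trans (LinearMap.ker_eq_bot.2 hi).le),
      hc x ▸ Submodule.map_comap_eq_of_surjective hsu _⟩).symm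

end Crest.Agent.N265.N
end
end

-- ▼ part N265/N/PtRes0
section

/-!
# Row 265, layer N, task N-PTRES (auxiliary): `A ⊗ O_S` as regular sections; the line through a point
-/

set_option autoImplicit false
noncomputable section
open MvPolynomial Module

namespace Crest.Agent.N265.N.PR
open Alg GM
variable {S : Spc} {b : ℕ}

/-- a local statement for homogeneous elements at `p` is uniform along the orbit of `p` -/
lemma unif_line {M : GM} {N P : Submodule R M.M} (hN : M.Stab N) (hP : M.Stab P) {p : Pt}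
    (h : ∀ d, ∀ m ∈ N, m ∈ M.gr d → ∃ r : R, eval p r ≠ 0 ∧ r • m ∈ P) {c : ℕ → ℂ}
    (hc : ∀ b, c b ≠ 0) {y : Pt} (hy : ∀ v, y v = c v.1 * p v) :
    ∃ r : R, eval y r ≠ 0 ∧ ∀ m ∈ N, r • m ∈ P := by
  let T : Submodule R M.M :=
    { carrier := {m | ∃ r : R, eval p r ≠ 0 ∧ r • m ∈ P}
      add_mem' := by
        rintro m n ⟨r, hr, h1⟩ ⟨s, hs, h2⟩
        refine ⟨r * s, by simp [hr, hs], ?_⟩
        rw [smul_add]
        refine P.add_mem ?_ ?_
        · rw [mul_comm, mul_smul]; exact P.smul_mem _ h1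
        · rw [mul_smul]; exact P.smul_mem _ h2
      zero_mem' := ⟨1, by simp, by simp⟩
      smul_mem' := by
        rintro a m ⟨r, hr, h1⟩
        exact ⟨r, hr, by rw [smul_comm]; exact P.smul_mem _ h1⟩ }
  obtain ⟨r, hr, h1⟩ := exists_uniform (N := N) P (x := p) fun m hm =>
    mem_of_cp_mem (N := T) fun d => h d _ (hN.cp_mem hm d) (M.cp_mem d m)
  let J : Ideal R :=
    { carrier := {r | ∀ m ∈ N, r • m ∈ P}
      add_mem' := fun ha hb m hm => by rw [add_smul]; exact P.add_mem (ha m hm) (hb m hm)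
      zero_mem' := fun m _ => by rw [zero_smul]; exact P.zero_mem
      smul_mem' := fun a _ ha m hm => by
        rw [smul_eq_mul, mul_smul]; exact P.smul_mem _ (ha m hm) }
  obtain ⟨d, s, hs, h2, h3⟩ := exists_hmg_of_mem (J := J) (fun a ha m hm => by
    obtain ⟨n, rfl⟩ := M.g_surj m
    rw [← LinearMap.map_smulₛₗ]
    exact hP _ (ha n (hN.mem_of_g_mem hm))) h1 hr
  obtain ⟨a, ha, h4⟩ := Sp.exists_eval_bsc hc d
  refine ⟨s, ?_, h2⟩
  rw [show y = Sp.bsc c p from funext hy, h4 s p hs]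
  exact mul_ne_zero ha h3

/-- evaluation of a class modulo the ideal of `S` -/
def evq (S : Spc) (z : S.pts) : (R ⧸ S.I) →+* ℂ :=
  Ideal.Quotient.lift S.I (eval z.1) fun _ hr => hr z.1 z.2
@[simp] lemma evq_mk (z : S.pts) (r : R) : evq S z (Ideal.Quotient.mk S.I r) = eval z.1 r := rfl
lemma evq_smul (z : S.pts) (r : R) (q : R ⧸ S.I) : evq S z (r • q) = eval z.1 r * evq S z q :=
  map_mul (evq S z) (Ideal.Quotient.mk S.I r) q
lemma eq_of_evq {q q' : R ⧸ S.I} (h : ∀ z, evq S z q = evq S z q') : q = q' := by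
  obtain ⟨r, rfl⟩ := Ideal.Quotient.mk_surjective q
  obtain ⟨r', rfl⟩ := Ideal.Quotient.mk_surjective q'
  refine Ideal.Quotient.eq.2 fun z hz => ?_
  rw [map_sub, sub_eq_zero]; exact h ⟨z, hz⟩

variable {A B : Bun S}
/-- the underlying vector of classes -/
def val (u : (A.act (O S)).M) : A.ι → R ⧸ S.I := Subtype.val u
/-- the function of an element of `A ⊗ O_S` -/
def fnOf (u : (A.act (O S)).M) : S.pts → A.ι → ℂ := fun z i => evq S z (val u i)
lemma exists_rep (u : (A.act (O S)).M) : ∃ s : A.ι → R, A.IsSec s ∧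
    ∀ i, val u i = Ideal.Quotient.mk S.I (s i) := by
  choose s hs using fun i => Ideal.Quotient.mk_surjective (val u i)
  refine ⟨s, (A.mem_act_O s).1 ?_, fun i => (hs i).symm⟩
  rw [funext hs]
  exact Subtype.property u
lemma fnOf_inj {u u' : (A.act (O S)).M} (h : fnOf u = fnOf u') : u = u' :=
  Subtype.ext (funext fun i => eq_of_evq fun z => congrFun (congrFun h z) i)
lemma fnOf_zero : fnOf (0 : (A.act (O S)).M) = 0 := funext fun z => funext fun _ => map_zero (evq S z)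
lemma fnOf_smul (r : R) (u : (A.act (O S)).M) :
    fnOf (r • u) = (fun z : S.pts => eval z.1 r) • fnOf u :=
  funext fun z => funext fun i => evq_smul z r (val u i)
lemma fnOf_mem (u : (A.act (O S)).M) : fnOf u ∈ secs S A.L := fun z => by
  obtain ⟨s, hs, e⟩ := exists_rep u
  have : fnOf u z = fun i => eval z.1 (s i) := funext fun i => by rw [fnOf, e, evq_mk]
  rw [this]; exact hs z.1 z.2
lemma regV_fnOf (u : (A.act (O S)).M) : RegV S.fn (fnOf u) := by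
  obtain ⟨s, -, e⟩ := exists_rep u
  exact regV_iff_poly.2 ⟨s, fun z i => by rw [fnOf, e, evq_mk]⟩
lemma exists_fnOf {τ : S.pts → A.ι → ℂ} (h : τ ∈ secs S A.L) (hr : RegV S.fn τ) :
    ∃ u : (A.act (O S)).M, fnOf u = τ := by
  obtain ⟨s, hs⟩ := regV_iff_poly.1 hr
  have h1 : A.IsSec s := fun z hz => by
    rw [← funext (hs ⟨z, hz⟩)]
    exact h ⟨z, hz⟩
  let u : A.actSub (O S) := ⟨_, (A.mem_act_O s).2 h1⟩
  refine ⟨u, funext fun z => funext fun i => ?_⟩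
  rw [hs]
  exact evq_mk z (s i)
lemma fnOf_actMap (f : Matrix B.ι A.ι R) (h) (u : (A.act (O S)).M) :
    fnOf (A.actMap B f h (O S) u) = act S 0 f (fnOf u) := by
  funext z j
  rw [act_apply, zero_add, mev_apply]
  refine (map_sum (evq S z) (fun i => f j i • val u i) Finset.univ).trans ?_
  exact Finset.sum_congr rfl fun i _ => evq_smul z _ _
lemma fnOf_mem_Amb (hS : Base S b) {d : D} {u : (A.act (O S)).M} (hu : u ∈ (A.act (O S)).gr d) :
    fnOf u ∈ Amb S b (sdeg b A.deg) (d (some b)) := fun i => by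
  have h1 := (pw_gr A.deg).1 ((sub_gr (A.stab_actSub (O S))).1 hu) i
  obtain ⟨r, hr, e⟩ := (Oid_gr _ _).1 h1
  have h2 := eval_add_mem_Fn hS hr (x := 0) fun _ _ => rfl
  have h3 : (fun z : S.pts => fnOf u z i) = fun z : S.pts => eval (0 + z.1) r := funext fun z => by
    rw [zero_add]; exact congrArg (evq S z) e.symm
  rw [h3]; exact h2

/-- `LocOnto` for the modules of sections, along the line through `p` -/
lemma locOnto_mod (hS : Base S b) {f : Matrix B.ι A.ι R} (hf : MHmg A.deg B.deg f) (h)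
    {P : Submodule ℂ (S.pts → B.ι → ℂ)} {p : S.pts} (hl : LocOnto S b 0 A.L (sdeg b B.deg) P f p)
    {N : Submodule R (B.act (O S)).M} (hN : (B.act (O S)).Stab N) (hP : ∀ u ∈ N, fnOf u ∈ P)
    {c : ℕ → ℂ} (hc : ∀ b, c b ≠ 0) {y : Pt} (hy : ∀ v, y v = c v.1 * p.1 v) :
    ∃ r : R, eval y r ≠ 0 ∧ ∀ u ∈ N, ∃ a, A.actMap B f h (O S) a = r • u := by
  refine unif_line hN (Bun.deg0_actMap hf h (O S)).stab_range (fun d u hu hd => ?_) hc hy
  obtain ⟨r, hr, h0, τ, h1, h2, e⟩ := hl _ _ (fnOf_mem_Amb hS hd) (hP u hu)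
  obtain ⟨r, rfl⟩ : ∃ s : R, r = fun z => eval z.1 s := hr.imp fun _ h => funext h
  obtain ⟨a, rfl⟩ := exists_fnOf h1 h2
  exact ⟨r, h0, a, fnOf_inj (by rw [fnOf_actMap, fnOf_smul, e])⟩

section orb
variable (hT : S.TTriv fun _ => 0) (p : S.pts) (ε : (A.ι → ℂ) →ₗ[ℂ] ℂ)
/-- `s ↦ ∑ ε(e_i) s_i` restricted to the orbit of `p` -/
def toOrb : (A.act (O S)).M →ₗ[R] (O (S.orb _ hT p.1 p.2)).M :=
  dvRes (S.orb_sub _ hT p.1 p.2) ∘ₗ (∑ i, (C (ε (Pi.single i 1)) : R) •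
    (LinearMap.proj i : (A.ι → R ⧸ S.I) →ₗ[R] R ⧸ S.I)) ∘ₗ (A.actSub (O S)).subtype
lemma evq_toOrb (u : (A.act (O S)).M) (y : (S.orb _ hT p.1 p.2).pts) :
    evq _ y (toOrb hT p ε u) = ε (fnOf u ⟨y.1, (S.orb_sub _ hT p.1 p.2).2 y.2⟩) := by
  have key : ∀ q : R ⧸ S.I, evq _ y (dvRes (S.orb_sub _ hT p.1 p.2) q) =
      evq S ⟨y.1, (S.orb_sub _ hT p.1 p.2).2 y.2⟩ q := fun q => by
    obtain ⟨r, rfl⟩ := Ideal.Quotient.mk_surjective q
    rfl
  refine (key _).trans ?_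
  rw [LinearMap.pi_apply_eq_sum_univ ε]
  change evq S _ ((∑ i, (C (ε (Pi.single i 1)) : R) •
    (LinearMap.proj i : (A.ι → R ⧸ S.I) →ₗ[R] R ⧸ S.I)) (val u)) = _
  rw [LinearMap.sum_apply, map_sum]
  refine Finset.sum_congr rfl fun i _ => ?_
  rw [LinearMap.smul_apply, evq_smul, eval_C, smul_eq_mul, mul_comm]
  congr 2
  funext j
  simp [Pi.single_apply, eq_comm]
lemma deg0_toOrb (h0 : ∀ i, A.deg i = 0) : Deg0 (toOrb hT p ε) := deg0_of_gr fun d u hu => by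
  have h1 := (pw_gr A.deg).1 ((sub_gr (A.stab_actSub (O S))).1 hu)
  refine (deg0_dvRes (S.orb_sub _ hT p.1 p.2)).map_gr ?_
  change (∑ i, (C (ε (Pi.single i 1)) : R) •
    (LinearMap.proj i : (A.ι → R ⧸ S.I) →ₗ[R] R ⧸ S.I)) (val u) ∈ (O S).gr d
  rw [LinearMap.sum_apply]
  refine Submodule.sum_mem _ fun i _ => ?_
  have h2 := (O S).smul_mem_gr (Hmg.C (ε (Pi.single i 1))) (h1 i)
  rwa [h0, add_zero, zero_add] at h2
/-- a homogeneous function on the orbit that vanishes at `p` vanishes -/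
lemma orb_eq_zero {d : D} {q : (O (S.orb _ hT p.1 p.2)).M}
    (hq : q ∈ (O (S.orb _ hT p.1 p.2)).gr d)
    (h : evq _ ⟨p.1, S.self_mem_orb _ hT p.1 p.2⟩ q = 0) : q = 0 := by
  obtain ⟨r, hr, rfl⟩ := (Oid_gr _ _).1 hq
  refine Ideal.Quotient.eq_zero_iff_mem.2 ?_
  rintro y ⟨c, hc, hy⟩
  obtain ⟨a, -, h4⟩ := Sp.exists_eval_bsc hc d
  rw [show y = Sp.bsc c p from funext hy, h4 r p hr, show eval p.1 r = 0 from h, mul_zero]
lemma toOrb_surj (h0 : ∀ i, A.deg i = 0) (hne : ∃ v ∈ A.L p.1, ε v ≠ 0) {x : Pt}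
    (hx : x ∈ S.pts) : ∃ r : R, eval x r ≠ 0 ∧ ∀ q, ∃ u, toOrb hT p ε u = r • q := by
  by_cases ho : x ∈ (S.orb _ hT p.1 p.2).pts
  · obtain ⟨c, hc, hy⟩ := ho
    obtain ⟨v, hv, hε⟩ := hne
    obtain ⟨t, rfl, ht⟩ := A.alg.gen p.1 p.2 v hv
    obtain ⟨u, hu⟩ := exists_fnOf (A := A) (τ := fun z i => eval z.1 (t i)) (fun z => ht z.1 z.2)
      (regV_poly S t)
    obtain ⟨r, hr⟩ := Ideal.Quotient.mk_surjective (I := (S.orb _ hT p.1 p.2).I) (toOrb hT p ε u)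
    have h1 : eval p.1 r ≠ 0 := by
      have := evq_toOrb hT p ε u ⟨p.1, S.self_mem_orb _ hT p.1 p.2⟩
      rw [← hr, evq_mk, hu] at this
      rw [this]; exact hε
    obtain ⟨s, hs, h2⟩ := unif_line stab_top (deg0_toOrb hT p ε h0).stab_range
      (fun d q _ _ => ⟨r, h1, by
        obtain ⟨q, rfl⟩ := Ideal.Quotient.mk_surjective (I := (S.orb _ hT p.1 p.2).I) q
        refine ⟨q • u, ?_⟩
        rw [map_smul, ← hr]
        exact mul_comm (Ideal.Quotient.mk (S.orb _ hT p.1 p.2).I q)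
          (Ideal.Quotient.mk (S.orb _ hT p.1 p.2).I r)⟩) hc hy
    exact ⟨s, hs, fun q => h2 q trivial⟩
  · obtain ⟨r, hr, h⟩ := (red_O (S.orb _ hT p.1 p.2)).on.supp x (S.rel x hx) ho
    exact ⟨r, hr, fun q => ⟨0, by rw [map_zero, h]⟩⟩
end orb

end Crest.Agent.N265.N.PR
end
end

-- ▼ part N265/N/PtRes
section

/-!
# Row 265, layer N, task N-PTRES: resolutions of a point of `S`
-/

set_option autoImplicit false
noncomputable section
open MvPolynomial Module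

namespace Crest.Agent.N265.N
open Alg GV
variable {S X : Spc} {b : ℕ}

/-- `0 → C₂ → C₁ → C₀ → ℂ_p → 0`, the last map being `σ ↦ ε (σ p)` -/
structure PtRes (S : Spc) (b : ℕ) (p : S.pts) where
  C₂ : Bun S
  C₁ : Bun S
  C₀ : Bun S
  f : Matrix C₁.ι C₂.ι R
  g : Matrix C₀.ι C₁.ι R
  ε : (C₀.ι → ℂ) →ₗ[ℂ] ℂ
  hf : MHmg C₂.deg C₁.deg f
  hg : MHmg C₁.deg C₀.deg g
  w₂ : ∀ i, C₂.deg i none = 0
  w₁ : ∀ i, C₁.deg i none = 0
  w₀ : ∀ i, C₀.deg i none = 0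
  cx : ∀ z ∈ S.pts, (C₂.L z).map (mev z f) ≤ C₁.L z ⊓ LinearMap.ker (mev z g) ∧
    (C₁.L z).map (mev z g) ≤ C₀.L z
  off : ∀ z ∈ S.pts, (∀ c : ℂ, z ≠ c • p.1) →
    (C₂.L z).map (mev z f) = C₁.L z ⊓ LinearMap.ker (mev z g) ∧ (C₁.L z).map (mev z g) = C₀.L z
  rk : ∀ z ∈ S.pts, finrank ℂ (C₀.L z) + finrank ℂ (C₂.L z) = finrank ℂ (C₁.L z)
  inj : ∀ τ ∈ secs S C₂.L, RegV S.fn τ → act S 0 f τ = 0 → τ = 0
  mid : LocOnto S b 0 C₂.L (sdeg b C₁.deg) (secs S C₁.L ⊓ LinearMap.ker (act S 0 g)) f p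
  top : LocOnto S b 0 C₁.L (sdeg b C₀.deg)
    (secs S C₀.L ⊓ LinearMap.ker (ε ∘ₗ LinearMap.proj p)) g p
  eps : (C₁.L p.1).map (mev p.1 g) ≤ LinearMap.ker ε
  ne : ∃ v ∈ C₀.L p.1, ε v ≠ 0

namespace PR
variable (hS : Base S b) (hb : b ∉ X.B)
/-- `A ⊗ C` on `X × S` -/
abbrev tp (A : Bun (X.fib S)) (C : Bun S) : Bun (X.fib S) := A.tens (C.pull (Spc.fib_snd X S))
/-- `1 ⊗ f` -/
abbrev tm (A : Bun (X.fib S)) {ι κ : Type} (S : Spc) (f : Matrix κ ι R) :
    Matrix (A.ι × κ) (A.ι × ι) R := K3.kr (1 : Matrix A.ι A.ι R) (f.map (kill S.B))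
/-- the `i`-th row of a function -/
abbrev row (S : Spc) {α ι : Type} (i : α) : (S.pts → α × ι → ℂ) →ₗ[ℂ] (S.pts → ι → ℂ) :=
  LinearMap.compLeft (LinearMap.funLeft ℂ ℂ fun k => (i, k)) S.pts
lemma mhmg_tm (A : Bun (X.fib S)) {C C' : Bun S} {f : Matrix C'.ι C.ι R}
    (hf : MHmg C.deg C'.deg f) : MHmg (tp A C).deg (tp A C').deg (tm A S f) :=
  K3.mhmg_kr (MHmg.one A.deg) (B0.mhmg_kill hf S.B)
include hS hb
lemma tp_L (A : Bun (X.fib S)) (C : Bun S) {x z : Pt} (hx : x ∈ X.pts) (hz : z ∈ S.pts) :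
    (tp A C).L (x + z) = B0.tensS (A.L (x + z)) (C.L z) := by
  change B0.tensS _ (C.L (restr S.B (x + z))) = _
  rw [(Spc.add_mem_fib (hS.disj hb) hx hz).2.2]
lemma mem_tp (A : Bun (X.fib S)) (C : Bun S) {x z : Pt} (hx : x ∈ X.pts) (hz : z ∈ S.pts)
    {u : A.ι × C.ι → ℂ} : u ∈ (tp A C).L (x + z) ↔
      (∀ k, (fun i => u (i, k)) ∈ A.L (x + z)) ∧ ∀ i, (fun k => u (i, k)) ∈ C.L z := by
  rw [← B0.mem_tensS, ← tp_L hS hb A C hx hz]
  rfl
lemma mev_tm (A : Bun (X.fib S)) {ι κ : Type} [Fintype ι] (f : Matrix κ ι R) {x z : Pt}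
    (hx : x ∈ X.pts) (hz : z ∈ S.pts) : mev (x + z) (tm A S f) = B0.rowMap A.ι (mev z f) := by
  have := B0.mev_kron_one (μ := A.ι) (x + z) (f.map (kill S.B))
  rwa [B0.mev_kill, (Spc.add_mem_fib (hS.disj hb) hx hz).2.2] at this
lemma row_act (A : Bun (X.fib S)) {ι κ : Type} [Fintype ι] (f : Matrix κ ι R) {x : Pt}
    (hx : x ∈ X.pts) (σ : S.pts → A.ι × ι → ℂ) (i : A.ι) :
    row S i (act S x (tm A S f) σ) = act S 0 f (row S i σ) := by
  funext z k
  change mev (x + z.1) (tm A S f) (σ z) (i, k) = mev (0 + z.1) f _ k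
  rw [mev_tm hS hb A f hx z.2, zero_add]
  rfl
lemma row_secs (A : Bun (X.fib S)) (C : Bun S) {x : Pt} (hx : x ∈ X.pts)
    {σ : S.pts → A.ι × C.ι → ℂ} (h : σ ∈ secs S fun z => (tp A C).L (x + z)) (i : A.ι) :
    row S i σ ∈ secs S C.L := fun z => ((mem_tp hS hb A C hx z.2).1 (h z)).2 i
lemma dpr_deg {C : Bun S} (w : ∀ i, C.deg i none = 0) (i : C.ι) : dpr X.B (C.deg i) = 0 := by
  ext j
  rw [dpr_apply]
  split_ifs with h1
  · rcases j with _ | c
    · exact w i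
    · exact C.hdeg i c (Finset.disjoint_left.1 (hS.disj hb) (h1 c rfl))
  · rfl
lemma map_gamG {E E' : Bun (X.fib S)} {f : Matrix E'.ι E.ι R} (hf : MHmg E.deg E'.deg f) {x : Pt}
    (hx : x ∈ X.pts) {j : ℤ} {P : Submodule ℂ (S.pts → E'.ι → ℂ)}
    (h : (gam E b j x).map (act S x f) = Amb S b (sdeg b E'.deg) j ⊓ P) :
    (gamG E b j x).map (actG hS hb hf j x) = P.comap (Amb S b (sdeg b E'.deg) j).subtype := by
  refine le_antisymm ?_ fun σ hσ => ?_
  · rintro _ ⟨τ, hτ, rfl⟩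
    have h1 : act S x f τ.1 ∈ Amb S b (sdeg b E'.deg) j ⊓ P := h ▸ ⟨τ.1, hτ, rfl⟩
    rw [← actG_val hS hb hf j hx] at h1
    exact h1.2
  · obtain ⟨τ, hτ, e⟩ : σ.1 ∈ (gam E b j x).map (act S x f) := h ▸ ⟨σ.2, hσ⟩
    exact ⟨⟨τ, hτ.1⟩, hτ, Subtype.ext ((actG_val hS hb hf j hx _).trans e)⟩
lemma map_tp (A : Bun (X.fib S)) {C C' : Bun S} (f : Matrix C'.ι C.ι R) {x z : Pt}
    (hx : x ∈ X.pts) (hz : z ∈ S.pts) : ((tp A C).L (x + z)).map (mev (x + z) (tm A S f)) =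
      B0.tensS (A.L (x + z)) ((C.L z).map (mev z f)) := by
  rw [← B0.map_tensS, ← tp_L hS hb A C hx hz, ← mev_tm hS hb A f hx hz]
lemma ker_tp (A : Bun (X.fib S)) {C C' : Bun S} (f : Matrix C'.ι C.ι R) {x z : Pt}
    (hx : x ∈ X.pts) (hz : z ∈ S.pts) :
    (tp A C).L (x + z) ⊓ LinearMap.ker (mev (x + z) (tm A S f)) =
      B0.tensS (A.L (x + z)) (C.L z ⊓ LinearMap.ker (mev z f)) := by
  rw [← B0.tensS_inf_ker, ← tp_L hS hb A C hx hz, ← mev_tm hS hb A f hx hz]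
  rfl
omit hS hb
lemma finrank_ker_add {V W : Type} [AddCommGroup V] [Module ℂ V] [AddCommGroup W] [Module ℂ W]
    (U : Submodule ℂ V) [FiniteDimensional ℂ U] (φ : V →ₗ[ℂ] W) {N : Submodule ℂ W}
    (e : U.map φ = N) :
    finrank ℂ (U ⊓ LinearMap.ker φ : Submodule ℂ _) + finrank ℂ N = finrank ℂ U := by
  have h := LinearMap.finrank_range_add_finrank_ker (φ.domRestrict U)
  rw [LinearMap.range_domRestrict, LinearMap.ker_domRestrict,
    ← Submodule.finrank_map_subtype_eq, Submodule.map_comap_subtype, e] at h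
  omega
lemma tensS_mono {ι κ : Type} [Fintype ι] [Fintype κ] (U : Submodule ℂ (ι → ℂ))
    {W W' : Submodule ℂ (κ → ℂ)} (h : W ≤ W') : B0.tensS U W ≤ B0.tensS U W' := fun _ hu =>
  B0.mem_tensS.2 ⟨(B0.mem_tensS.1 hu).1, fun i => h ((B0.mem_tensS.1 hu).2 i)⟩
/-- `1 ⊗ ε` -/
def col (α : Type) {ι : Type} (ε : (ι → ℂ) →ₗ[ℂ] ℂ) : (α × ι → ℂ) →ₗ[ℂ] (α → ℂ) :=
  LinearMap.pi fun i => ε ∘ₗ LinearMap.funLeft ℂ ℂ fun k => (i, k)
lemma col_apply {α ι : Type} (ε : (ι → ℂ) →ₗ[ℂ] ℂ) (u : α × ι → ℂ) (i : α) :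
    col α ε u i = ε fun k => u (i, k) := rfl
lemma map_col {α ι : Type} [Fintype α] [Fintype ι] (ε : (ι → ℂ) →ₗ[ℂ] ℂ) (U : Submodule ℂ (α → ℂ))
    {W : Submodule ℂ (ι → ℂ)} (h : ∃ v ∈ W, ε v ≠ 0) : (B0.tensS U W).map (col α ε) = U := by
  have key : ∀ (a : α → ℂ) (v : ι → ℂ), col α ε (fun q => a q.1 * v q.2) = ε v • a := fun a v => by
    funext i
    rw [col_apply, Pi.smul_apply, smul_eq_mul, mul_comm]
    exact ε.map_smul (a i) v
  refine le_antisymm (Submodule.map_le_iff_le_comap.2 (Submodule.span_le.2 ?_)) fun a ha => ?_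
  · rintro _ ⟨a, ha, v, -, rfl⟩
    rw [SetLike.mem_coe, Submodule.mem_comap, key]
    exact U.smul_mem _ ha
  · obtain ⟨v, hv, h0⟩ := h
    refine ⟨_, Submodule.subset_span ⟨(ε v)⁻¹ • a, U.smul_mem _ ha, v, hv, rfl⟩, ?_⟩
    rw [key, smul_smul, mul_inv_cancel₀ h0, one_smul]
lemma _root_.Crest.Agent.N265.N.LocOnto.mono {ι κ : Type} [Fintype ι] {x : Pt}
    {L : Pt → Submodule ℂ (ι → ℂ)} {c : κ → ℤ} {P P' : Submodule ℂ (S.pts → κ → ℂ)}
    {f : Matrix κ ι R} {z : S.pts} (h : LocOnto S b x L c P f z) (hP : P' ≤ P) :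
    LocOnto S b x L c P' f z := fun j σ h1 h2 => h j σ h1 (hP h2)
end PR
open PR

namespace PtRes
variable {p : S.pts} (ρ : PtRes S b p)
/-- the class of the point -/
def cls : K S := ρ.C₀.kl - ρ.C₁.kl + ρ.C₂.kl

/-- tensoring a locally onto map on `S` with a bundle `A` on `X × S`: apply `h` to the components
of `σ`, then a local projector onto `A` -/
lemma _root_.Crest.Agent.N265.N.LocOnto.tens (hS : Base S b) (hb : b ∉ X.B) (A : Bun (X.fib S))
    {C C' : Bun S} {f : Matrix C'.ι C.ι R} {P : Submodule ℂ (S.pts → C'.ι → ℂ)} {z : S.pts}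
    (h : LocOnto S b 0 C.L (sdeg b C'.deg) P f z) {x : Pt} (hx : x ∈ X.pts) :
    LocOnto S b x (fun z => (A.tens (C.pull (Spc.fib_snd X S))).L (x + z))
      (sdeg b (A.tens (C'.pull (Spc.fib_snd X S))).deg)
      (secs S (fun z => (A.tens (C'.pull (Spc.fib_snd X S))).L (x + z)) ⊓
        ⨅ i : A.ι, P.comap (LinearMap.compLeft (LinearMap.funLeft ℂ ℂ fun k => (i, k)) S.pts))
      (K3.kr (1 : Matrix A.ι A.ι R) (f.map (kill S.B))) z := by
  classical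
  intro j (σ : S.pts → A.ι × C'.ι → ℂ) hσ hP
  have h1 : ∀ i : A.ι, row S i σ ∈ Amb S b (sdeg b C'.deg) (j + A.deg i (some b)) := fun i k => by
    have := hσ (i, k)
    rw [add_assoc]
    exact this
  choose r hr h0 τ h2 h3 h4 using fun i : A.ι =>
    h _ _ (h1 i) ((Submodule.mem_iInf _).1 hP.2 i)
  obtain ⟨s, Q, hs, hQ⟩ := A.alg _ (hS.add_mem hb hx z.2)
  let τ' : A.ι → S.pts → C.ι → ℂ := fun i => (∏ k ∈ Finset.univ.erase i, r k) • τ i
  have h5 : ∀ i, act S 0 f (τ' i) = (∏ k, r k) • row S i σ := fun i => by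
    rw [act_smul, h4, smul_smul, Finset.prod_erase_mul _ _ (Finset.mem_univ i)]
  let τ₀ : S.pts → A.ι × C.ι → ℂ := fun y q => ∑ i, eval (x + y.1) (Q q.1 i) * τ' i y q.2
  have h6 : ∀ i, row S i τ₀ = ∑ k, (fun y : S.pts => eval (x + y.1) (Q i k)) • τ' k := fun i => by
    funext y l
    simp [τ₀, Finset.sum_apply]
  refine ⟨(fun y : S.pts => eval (x + y.1) s) * ∏ k, r k,
    mul_mem (eval_add_mem_fn x s) (prod_mem fun k _ => hr k), ?_, τ₀, fun y => ?_, ?_, ?_⟩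
  · rw [Pi.mul_apply, Finset.prod_apply]
    exact mul_ne_zero hs (Finset.prod_ne_zero_iff.2 fun k _ => h0 k)
  · refine (mem_tp hS hb A C hx y.2).2
      ⟨fun k => (hQ _ (hS.add_mem hb hx y.2)).1 fun i => τ' i y k, fun i => ?_⟩
    have : (fun k => τ₀ y (i, k)) = ∑ k, eval (x + y.1) (Q i k) • τ' k y := by
      funext l; simp [τ₀, Finset.sum_apply]
    rw [this]
    exact sum_mem fun k _ => Submodule.smul_mem _ _ (Submodule.smul_mem _ _ (h2 k y))
  · refine regV_pi.2 fun q => fsum_mem _ fun i _ => fmul_mem (eval_add_mem_fn x _) ?_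
    exact regV_pi.1 ((h3 i).smul (prod_mem fun k _ => hr k)) q.2
  · suffices H : act S x (tm A S f) τ₀ =
        ((fun y : S.pts => eval (x + y.1) s) * ∏ k, r k) • σ from H
    funext y ⟨i, k⟩
    have h7 := congrFun (congrFun (row_act hS hb A f hx τ₀ i) y) k
    refine h7.trans ?_
    have h8 := (mem_tp hS hb A C' hx y.2).1 (hP.1 y)
    have h9 := congrFun ((hQ _ (hS.add_mem hb hx y.2)).2 _ (h8.1 k)) i
    change _ = (eval (x + y.1) s * (∏ k, r k) y) * σ y (i, k)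
    rw [h6, map_sum]
    simp only [act_smul, h5, Finset.sum_apply, Pi.smul_apply', Pi.smul_apply, smul_eq_mul,
      mev_apply] at h9 ⊢
    rw [mul_comm (eval _ s), mul_assoc, ← h9, Finset.mul_sum]
    exact Finset.sum_congr rfl fun l _ => mul_left_comm _ _ _

section
variable (hS : Base S b) (hb : b ∉ X.B) (A : Bun (X.fib S))
include hS hb
lemma cx_tp : ∀ y ∈ (X.fib S).pts, ((tp A ρ.C₂).L y).map (mev y (tm A S ρ.f)) ≤
    (tp A ρ.C₁).L y ⊓ LinearMap.ker (mev y (tm A S ρ.g)) ∧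
    ((tp A ρ.C₁).L y).map (mev y (tm A S ρ.g)) ≤ (tp A ρ.C₀).L y := fun y hy => by
  obtain ⟨x, hx, z, hz, rfl⟩ := (Spc.mem_fib_iff_add (hS.disj hb)).1 hy
  exact ⟨(map_tp hS hb A ρ.f hx hz).trans_le ((tensS_mono _ (ρ.cx z hz).1).trans
      (ker_tp hS hb A ρ.g hx hz).ge),
    (map_tp hS hb A ρ.g hx hz).trans_le ((tensS_mono _ (ρ.cx z hz).2).trans
      (tp_L hS hb A ρ.C₀ hx hz).ge)⟩
/-- evaluation at `p` followed by `1 ⊗ ε` -/
def evE : (S.pts → A.ι × ρ.C₀.ι → ℂ) →ₗ[ℂ] (A.ι → ℂ) := col A.ι ρ.ε ∘ₗ LinearMap.proj p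
lemma onto_mid : ∃ j₀ : ℤ, ∀ j ≥ j₀, ∀ x ∈ X.pts,
    (gam (tp A ρ.C₂) b j x).map (act S x (tm A S ρ.f)) = Amb S b (sdeg b (tp A ρ.C₁).deg) j ⊓
      (secs S (fun z => (tp A ρ.C₁).L (x + z)) ⊓ LinearMap.ker (act S x (tm A S ρ.g))) := by
  refine gam_onto hS hb (E := tp A ρ.C₂) (mhmg_tm A ρ.hf) (fun x _ r _ σ hσ => ⟨fun z =>
    Submodule.smul_mem _ _ (hσ.1 z), ?_⟩) (fun x hx τ hτ _ => ⟨fun z => ?_, funext fun z => ?_⟩)
    (fun x hx z => ?_) ?_
  · exact (act_smul x _ r σ).trans ((congrArg (r • ·) hσ.2).trans (smul_zero r))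
  · exact ((ρ.cx_tp hS hb A _ (hS.add_mem hb hx z.2)).1 ⟨_, hτ z, rfl⟩).1
  · exact ((ρ.cx_tp hS hb A _ (hS.add_mem hb hx z.2)).1 ⟨_, hτ z, rfl⟩).2
  · by_cases hz : ∃ c : ℂ, z.1 = c • p.1
    · obtain ⟨c, hc⟩ := hz
      refine LocOnto.smul hS hb (E := tp A ρ.C₂) (mhmg_tm A ρ.hf) hx ?_ hc
      refine (LocOnto.tens hS hb A ρ.mid hx).mono fun σ hσ =>
        ⟨hσ.1, (Submodule.mem_iInf _).2 fun i => ⟨row_secs hS hb A _ hx hσ.1 i, ?_⟩⟩
      refine (row_act hS hb A ρ.g hx σ i).symm.trans ?_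
      rw [show act S x (tm A S ρ.g) σ = 0 from hσ.2, map_zero]
    · push Not at hz
      refine locOnto_of_exact hS hb (A := tp A ρ.C₂) (B := tp A ρ.C₁) (C := tp A ρ.C₀) _ _
        (ρ.cx_tp hS hb A) hx ?_
      refine (map_tp hS hb A ρ.f hx z.2).trans (Eq.trans ?_ (ker_tp hS hb A ρ.g hx z.2).symm)
      rw [(ρ.off z.1 z.2 hz).1]
  · refine (finEv_gam_ker hS hb (tp A ρ.C₁) (c := (tp A ρ.C₀).deg) (mhmg_tm A ρ.hg)).congr
      (j₀ := 0) fun x _ j _ => ?_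
    exact congrArg (fun U : Submodule ℂ _ => (finrank ℂ U : ℤ)) (inf_assoc _ _ _)
lemma onto_pt : ∃ j₀ : ℤ, ∀ j ≥ j₀, ∀ x ∈ X.pts,
    (gam (tp A ρ.C₀) b j x).map (ρ.evE A) = A.L (x + p.1) := by
  obtain ⟨j₀, h⟩ := gam_eval_surj hS hb (tp A ρ.C₀) p
  refine ⟨j₀, fun j hj x hx => ?_⟩
  have h1 := (h j hj x hx).trans (tp_L hS hb A ρ.C₀ hx p.2)
  rw [← map_col ρ.ε (A.L (x + p.1)) ρ.ne, ← h1]
  exact Submodule.map_comp _ _ _
lemma onto_top : ∃ j₀ : ℤ, ∀ j ≥ j₀, ∀ x ∈ X.pts,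
    (gam (tp A ρ.C₁) b j x).map (act S x (tm A S ρ.g)) = Amb S b (sdeg b (tp A ρ.C₀).deg) j ⊓
      (secs S (fun z => (tp A ρ.C₀).L (x + z)) ⊓ LinearMap.ker (ρ.evE A)) := by
  refine gam_onto hS hb (E := tp A ρ.C₁) (mhmg_tm A ρ.hg) (fun x _ r _ σ hσ => ⟨fun z =>
    Submodule.smul_mem _ _ (hσ.1 z), ?_⟩) (fun x hx τ hτ _ => ⟨fun z => ?_, funext fun i => ?_⟩)
    (fun x hx z => ?_) ?_
  · refine ((col A.ι ρ.ε).map_smul (r p) (σ p)).trans ?_
    rw [show col A.ι ρ.ε (σ p) = 0 from hσ.2, smul_zero]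
  · exact (ρ.cx_tp hS hb A _ (hS.add_mem hb hx z.2)).2 ⟨_, hτ z, rfl⟩
  · refine (congrArg ρ.ε (congrFun (row_act hS hb A ρ.g hx τ i) p)).trans (ρ.eps ?_)
    rw [act_apply, zero_add]
    exact ⟨_, row_secs hS hb A _ hx hτ i p, rfl⟩
  · by_cases hz : ∃ c : ℂ, z.1 = c • p.1
    · obtain ⟨c, hc⟩ := hz
      refine LocOnto.smul hS hb (E := tp A ρ.C₁) (mhmg_tm A ρ.hg) hx ?_ hc
      exact (LocOnto.tens hS hb A ρ.top hx).mono fun σ hσ =>
        ⟨hσ.1, (Submodule.mem_iInf _).2 fun i => ⟨row_secs hS hb A _ hx hσ.1 i,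
          congrFun (show ρ.evE A σ = 0 from hσ.2) i⟩⟩
    · push Not at hz
      refine (locOnto_of_surj hS hb (A := tp A ρ.C₁) (B := tp A ρ.C₀) _
        (fun y hy => (ρ.cx_tp hS hb A y hy).2) hx ?_).mono inf_le_left
      refine (map_tp hS hb A ρ.g hx z.2).trans (Eq.trans ?_ (tp_L hS hb A ρ.C₀ hx z.2).symm)
      rw [(ρ.off z.1 z.2 hz).2]
  · obtain ⟨j₀, h⟩ := ρ.onto_pt hS hb A
    refine ((finEv_gam hS hb (tp A ρ.C₀)).sub (.of_lc
      (B0.lc_cast (A.atPt (hS.disj hb) hS.tt p.1 p.2).alg.lc))).congr (j₀ := j₀)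
      fun x hx j hj => ?_
    have h1 := finrank_ker_add (gam (tp A ρ.C₀) b j x) (ρ.evE A) (h j hj x hx)
    refine Eq.trans ?_ (congrArg (fun U : Submodule ℂ _ => (finrank ℂ U : ℤ)) (inf_assoc _ _ _))
    exact (eq_sub_of_add_eq (by exact_mod_cast h1)).symm
end

/-- `0 → Γ_j(A C₂) → Γ_j(A C₁) → Γ_j(A C₀) → A_p → 0` is exact for `j ≫ 0` uniformly
(`gam_onto`, `gam_eval_surj`, `kq4`) -/
theorem gamK_eq (hS : Base S b) (hb : b ∉ X.B) (A : Bun (X.fib S)) : ∃ j₀ : ℤ, ∀ j ≥ j₀,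
    gamK (A.tens (ρ.C₀.pull (Spc.fib_snd X S))) b j - gamK (A.tens (ρ.C₁.pull (Spc.fib_snd X S))) b j
      + gamK (A.tens (ρ.C₂.pull (Spc.fib_snd X S))) b j =
      (A.atPt (hS.disj hb) hS.tt p.1 p.2).kl := by
  obtain ⟨j₁, h₁⟩ := ρ.onto_mid hS hb A
  obtain ⟨j₂, h₂⟩ := ρ.onto_top hS hb A
  obtain ⟨j₃, h₃⟩ := ρ.onto_pt hS hb A
  obtain ⟨k₀, a₀⟩ := isAB_gamG hS hb (tp A ρ.C₀)
  obtain ⟨k₁, a₁⟩ := isAB_gamG hS hb (tp A ρ.C₁)
  obtain ⟨k₂, a₂⟩ := isAB_gamG hS hb (tp A ρ.C₂)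
  refine ⟨max (max j₁ (max j₂ j₃)) (max k₀ (max k₁ k₂)), fun j hj => ?_⟩
  simp only [ge_iff_le, max_le_iff] at hj
  obtain ⟨⟨e₁, e₂, e₃⟩, f₀, f₁, f₂⟩ := hj
  let Ap := A.atPt (hS.disj hb) hS.tt p.1 p.2
  let χ : (AmbG X S b (tp A ρ.C₀).deg j).V →ₗ[ℂ] (co Ap.deg).V :=
    ρ.evE A ∘ₗ (Amb S b (sdeg b (tp A ρ.C₀).deg) j).subtype
  have hχ : Deg0 (AmbG X S b (tp A ρ.C₀).deg j) (co Ap.deg) χ := fun σ => funext fun i => by
    refine Eq.trans (congrArg ρ.ε (funext fun k => ?_))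
      (ρ.ε.map_smul (chi (dpr X.B (A.deg i))) fun k => σ.1 p (i, k))
    change chi (dpr X.B (A.deg i + ρ.C₀.deg k)) * _ = _
    rw [map_add, dpr_deg hS hb ρ.w₀, add_zero]
    rfl
  have key := kq4 (a₂ j f₂) (.bot (in_AmbG _ _)) (a₁ j f₁) (.bot (in_AmbG _ _)) (a₀ j f₀)
    (.bot (in_AmbG _ _)) Ap.isAB (.bot Ap.isAB.hin)
    (isRM_actG hS hb (tp A ρ.C₂).hdeg (tp A ρ.C₁).hdeg (mhmg_tm A ρ.hf) j)
    (isRM_actG hS hb (tp A ρ.C₁).hdeg (tp A ρ.C₀).hdeg (mhmg_tm A ρ.hg) j) (.const hχ)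
    fun x hx => ⟨?_, ?_, ?_, ?_⟩
  · simp only [kc_of_bot (L := fun _ => ⊥) fun _ _ => rfl, sub_zero] at key
    rw [Ap.kl_eq_kc, sub_add_eq_add_sub, add_comm, sub_eq_iff_eq_add']
    exact key
  · refine eq_bot_iff.2 fun σ hσ => Subtype.ext (funext fun z => funext fun q => ?_)
    have h0 : act S x (tm A S ρ.f) σ.1 = 0 :=
      (actG_val hS hb (mhmg_tm A ρ.hf) j hx σ).symm.trans (congrArg Subtype.val hσ.2)
    have h1 := ρ.inj (row S q.1 σ.1) (row_secs hS hb A _ hx hσ.1.2 q.1)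
      ((regV_of_Amb σ.2).map (LinearMap.funLeft ℂ ℂ fun k => (q.1, k)))
      ((row_act hS hb A ρ.f hx σ.1 q.1).symm.trans (by rw [h0, map_zero]))
    exact congrFun (congrFun h1 z) q.2
  · rw [SqEx, sup_bot_eq, map_gamG hS hb (mhmg_tm A ρ.hf) hx (h₁ j e₁ x hx)]
    refine Submodule.ext fun σ => and_congr mem_gamG.symm ?_
    refine Iff.trans ?_ Subtype.ext_iff.symm
    rw [actG_val hS hb (mhmg_tm A ρ.hg) j hx σ]
    rfl
  · rw [SqEx, sup_bot_eq, map_gamG hS hb (mhmg_tm A ρ.hg) hx (h₂ j e₂ x hx)]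
    exact Submodule.ext fun σ => and_congr mem_gamG.symm Iff.rfl
  · rw [SqSurj, sup_bot_eq]
    refine (Submodule.map_comp _ _ _).trans (Eq.trans (congrArg _ ?_) (h₃ j e₃ x hx))
    exact (Submodule.map_comap_subtype _ _).trans (inf_eq_right.2 inf_le_left)
/-- **push-forward of `u · [O_p]` is the restriction to `X × {p}`** (`Base.ext_big`) -/
theorem piK_mul_cls (hS : Base S b) (hb : b ∉ X.B) (u : K (X.fib S)) :
    piK X S b (u * K.pull (Spc.fib_snd X S) ρ.cls) = K.atPt (hS.disj hb) hS.tt p.1 p.2 u := by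
  refine DFunLike.congr_fun (hS.ext_big
    (φ := (piK X S b).comp (AddMonoidHom.mulRight (K.pull (Spc.fib_snd X S) ρ.cls)))
    (ψ := (K.atPt (hS.disj hb) hS.tt p.1 p.2).toAddMonoidHom) fun E => ?_) u
  obtain ⟨j₀, h⟩ := ρ.gamK_eq hS hb E
  obtain ⟨k₀, a₀⟩ := piK_big hS hb (tp E ρ.C₀)
  obtain ⟨k₁, a₁⟩ := piK_big hS hb (tp E ρ.C₁)
  obtain ⟨k₂, a₂⟩ := piK_big hS hb (tp E ρ.C₂)
  refine ⟨max j₀ (max k₀ (max k₁ k₂)), fun j hj => ?_⟩
  simp only [ge_iff_le, max_le_iff] at hj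
  obtain ⟨e, f₀, f₁, f₂⟩ := hj
  have h1 : lbK X (j • eB b) = 1 := by
    have : dpr X.B (j • eB b) = dpr X.B 0 := by
      rw [hS.dpr_eq hb (hS.eB_mem j), map_zero]
      simp [eB]
    rw [← lbK_zero, lbK, lbK, Bun.line, Bun.line]
    simp only [this]
  change piK X S b (_ * _ * _) = K.atPt (hS.disj hb) hS.tt p.1 p.2 (_ * _)
  rw [map_mul (K.atPt _ _ _ _), K.atPt_lbK, h1, one_mul, K.atPt_kl, ← h j e, ← a₀ j f₀, ← a₁ j f₁, ← a₂ j f₂,
    ← map_sub, ← map_add, cls, map_add, map_sub, K.pull_kl, K.pull_kl, K.pull_kl, kl_tens, kl_tens,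
    kl_tens]
  congr 1
  ring
theorem atPt_cls (hS : Base S b) (hb : b ∉ X.B) (q : Pt) (hq : q ∈ S.pts) :
    K.atPt (hS.disj hb) hS.tt q hq (K.pull (Spc.fib_snd X S) ρ.cls) = 0 := by
  rw [cls, map_add, map_sub, map_add, map_sub,
    K.atPt_pull_snd _ _ _ _ _ fun i => by simpa using ρ.w₀ i,
    K.atPt_pull_snd _ _ _ _ _ fun i => by simpa using ρ.w₁ i,
    K.atPt_pull_snd _ _ _ _ _ fun i => by simpa using ρ.w₂ i, ← ρ.rk q hq]
  push_cast
  ring
/-- the class acts as the point (`kl_smul`, `Bun.mem_act_O`, `cl_cx` / `cl_locSES`; the cokernel maps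
to `O(orb)` by `s ↦ ∑ ε(e_i) s_i`) -/
theorem cls_smul_one (hS : Base S b) (h0 : ∀ i, ρ.C₀.deg i = 0) :
    ρ.cls • one S = Top.ptc S hS.tt p.1 p.2 := by
  have hO := GM.red_O S
  have m₁ : ∀ x ∈ S.pts, ∀ v ∈ ρ.C₂.L x, mev x ρ.f v ∈ ρ.C₁.L x := fun x hx v hv =>
    ((ρ.cx x hx).1 ⟨v, hv, rfl⟩).1
  have m₀ : ∀ x ∈ S.pts, ∀ v ∈ ρ.C₁.L x, mev x ρ.g v ∈ ρ.C₀.L x := fun x hx v hv =>
    (ρ.cx x hx).2 ⟨v, hv, rfl⟩
  have dF := Bun.deg0_actMap ρ.hf m₁ (GM.O S)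
  have dG := Bun.deg0_actMap ρ.hg m₀ (GM.O S)
  have dπ := deg0_toOrb hS.tt p ρ.ε h0
  have hπ : ∀ a, toOrb hS.tt p ρ.ε (ρ.C₁.actMap ρ.C₀ ρ.g m₀ (GM.O S) a) = 0 := fun a => by
    induction a using GM.gr_ind with
    | h d a ha =>
      refine orb_eq_zero hS.tt p (dπ.map_gr (dG.map_gr ha)) ?_
      rw [evq_toOrb, fnOf_actMap, act_apply, zero_add]
      exact ρ.eps ⟨_, fnOf_mem a p, rfl⟩
    | ha a a' h h' => rw [map_add, map_add, h, h', add_zero]
  have c₀ := cl_locSES (X := S) (A := (ρ.C₀.act (GM.O S)).sub _ dπ.stab_ker)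
    ⟨_, _, GM.deg0_subtype dπ.stab_ker, dπ, fun a => a.2, fun x hx =>
      (toOrb_surj hS.tt p ρ.ε h0 ρ.ne hx).imp fun r hr => ⟨hr.1, fun a ha => by
        rw [show a = 0 from Subtype.ext ha, smul_zero], fun a ha => ⟨r • ⟨a, ha⟩, rfl⟩, hr.2⟩⟩
    ((ρ.C₀.red_act hO).on.sub _) (ρ.C₀.red_act hO).on
    ((GM.red_O _).on.mono (S.orb_sub _ hS.tt p.1 p.2))
  have c₁ := cl_locSES (X := S) (C := (ρ.C₀.act (GM.O S)).sub _ dπ.stab_ker)
    ⟨ρ.C₂.actMap ρ.C₁ ρ.f m₁ (GM.O S), LinearMap.codRestrict _ _ hπ, dF,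
      fun a => Subtype.ext (dG a),
      fun a => Subtype.ext (act_comp m₁ m₀ (fun x hx => (ρ.cx x hx).1) a), fun x hx => ?_⟩
    (ρ.C₂.red_act hO).on (ρ.C₁.red_act hO).on ((ρ.C₀.red_act hO).on.sub _)
  · rw [cls, add_smul, sub_smul, one, kl_smul _ hO, kl_smul _ hO, kl_smul _ hO, c₀, c₁, Top.ptc]
    abel
  obtain ⟨r, hr, s, hs, h1, h2⟩ : ∃ r : R, eval x r ≠ 0 ∧ ∃ s : R, eval x s ≠ 0 ∧
      (∀ u, ρ.C₁.actMap ρ.C₀ ρ.g m₀ (GM.O S) u = 0 →
        ∃ a, ρ.C₂.actMap ρ.C₁ ρ.f m₁ (GM.O S) a = r • u) ∧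
      ∀ u, toOrb hS.tt p ρ.ε u = 0 → ∃ a, ρ.C₁.actMap ρ.C₀ ρ.g m₀ (GM.O S) a = s • u := by
    by_cases hz : ∃ c : ℂ, x = c • p.1
    · obtain ⟨c, hc⟩ := hz
      obtain ⟨c', hc', e⟩ := Spc.exists_scal_ne p.2 hx (c := fun _ => c) (congrFun hc)
      obtain ⟨r, hr, h1⟩ := locOnto_mod hS ρ.hf m₁ ρ.mid dG.stab_ker (fun u hu =>
        ⟨fnOf_mem u, (fnOf_actMap ρ.g m₀ u).symm.trans ((congrArg fnOf hu).trans fnOf_zero)⟩) hc' e
      obtain ⟨s, hs, h2⟩ := locOnto_mod hS ρ.hg m₀ ρ.top dπ.stab_ker (fun u hu =>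
        ⟨fnOf_mem u, (evq_toOrb hS.tt p ρ.ε u ⟨p.1, S.self_mem_orb _ hS.tt p.1 p.2⟩).symm.trans
          ((congrArg _ hu).trans (map_zero _))⟩) hc' e
      exact ⟨r, hr, s, hs, h1, h2⟩
    · push Not at hz
      obtain ⟨r, hr, h1⟩ := act_mid hO m₁ m₀ (fun x hx => (ρ.cx x hx).1) hx (ρ.off x hx hz).1
      obtain ⟨s, hs, h2⟩ := act_surj hO m₀ hx (ρ.off x hx hz).2
      exact ⟨r, hr, s, hs, h1, fun u _ => h2 u⟩
  refine ⟨r * s, by simp [hr, hs], fun a ha => ?_, fun u hu => ?_, fun c => ?_⟩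
  · rw [show a = 0 from fnOf_inj ((ρ.inj _ (fnOf_mem a) (regV_fnOf a)
      ((fnOf_actMap ρ.f m₁ a).symm.trans ((congrArg fnOf ha).trans fnOf_zero))).trans
        fnOf_zero.symm), smul_zero]
  · obtain ⟨a, ha⟩ := h1 u (congrArg Subtype.val hu)
    exact ⟨s • a, by rw [map_smul, ha, smul_smul, mul_comm]⟩
  · obtain ⟨a, ha⟩ := h2 c.1 c.2
    refine ⟨r • a, Subtype.ext ?_⟩
    change ρ.C₁.actMap ρ.C₀ ρ.g m₀ (GM.O S) (r • a) = (r * s) • c.1
    rw [map_smul, ha, smul_smul]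
end PtRes

end Crest.Agent.N265.N
end
end

-- ▼ part N265/N/Dlt0a
section

/-!
# Row 265, layer N, task N-DLT0, first part: local parameters at a point of a smooth surface
-/

set_option autoImplicit false
noncomputable section
open MvPolynomial Module

namespace Crest.Agent.N265.N
open Alg GV
variable {S : Spc} {b : ℕ}

/-- regular vector valued functions -/
def regS (S : Spc) (M : Type) [AddCommGroup M] [Module ℂ M] : Submodule ℂ (S.pts → M) where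
  carrier := {τ | RegV S.fn τ}
  add_mem' := fun h h' => h.add h'
  zero_mem' := RegV.zero
  smul_mem' := fun c _ h => h.csmul c
/-- the values at `z` of a space of functions -/
def vals (S : Spc) {M : Type} [AddCommGroup M] [Module ℂ M] (P : Submodule ℂ (S.pts → M))
    (z : Pt) : Submodule ℂ M := ⨆ h : z ∈ S.pts, P.map (LinearMap.proj ⟨z, h⟩)
lemma vals_eq {M : Type} [AddCommGroup M] [Module ℂ M] (P : Submodule ℂ (S.pts → M))
    (z : S.pts) : vals S P z.1 = P.map (LinearMap.proj z) := by simp [vals, z.2]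
lemma mem_vals {M : Type} [AddCommGroup M] [Module ℂ M] {P : Submodule ℂ (S.pts → M)}
    {z : S.pts} {v : M} : v ∈ vals S P z.1 ↔ ∃ σ ∈ P, σ z = v := by rw [vals_eq]; rfl
lemma genA_vals {M : Type} [AddCommGroup M] [Module ℂ M] {P : Submodule ℂ (S.pts → M)}
    (h : P ≤ regS S M) : GenA S (vals S P) := fun x v hv => by
  obtain ⟨σ, hσ, rfl⟩ := mem_vals.1 hv
  exact ⟨σ, h hσ, fun y => mem_vals.2 ⟨σ, hσ, rfl⟩, rfl⟩

namespace D0
lemma fn_mul_eq_zero (hi : S.Irred) {f g : S.pts → ℂ} (hf : f ∈ S.fn) (hg : g ∈ S.fn)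
    (h : f * g = 0) : f = 0 ∨ g = 0 := by
  obtain ⟨r, hr⟩ := hf
  obtain ⟨s, hs⟩ := hg
  have : r * s ∈ S.I := fun z hz => by
    rw [map_mul, ← hr ⟨z, hz⟩, ← hs ⟨z, hz⟩]; exact congrFun h ⟨z, hz⟩
  exact (hi.mem_or_mem this).imp (fun h => funext fun z => (hr z).trans (h _ z.2))
    fun h => funext fun z => (hs z).trans (h _ z.2)
lemma eq_zero_of_mul (hi : S.Irred) {f g : S.pts → ℂ} (hf : f ∈ S.fn) (hg : g ∈ S.fn) {z : S.pts}
    (h0 : f z ≠ 0) (h : ∀ y, f y * g y = 0) (y : S.pts) : g y = 0 :=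
  congrFun ((fn_mul_eq_zero hi hf hg (funext h)).resolve_left fun e => h0 (congrFun e z)) y
lemma one_le_ldim {X : Spc} {x : Pt} (hx : x ∈ X.pts) {u : Var} (hu : x u ≠ 0) :
    1 ≤ X.ldim x := by
  obtain ⟨P, hP, hx'⟩ := Jac.exists_comp hx
  have := hP.1.1
  have h := Jac.hq_succ_le (J := mx x) (J' := X.I) (m := mx x) (p := P) le_rfl hP.1.2
    fun q _ h1 h2 => by
      rw [le_antisymm h1 h2]
      refine lt_of_le_of_ne (Jac.mem_comp.1 hx').2 fun e => ?_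
      have h3 : (MvPolynomial.X u - C (x u) : R) ∈ (Jac.comp X P hP).I := by
        rw [Jac.comp_I, e]; exact Jac.X_sub_mem_mx x u
      have h4 := h3 _ ((Jac.comp X P hP).inv x hx')
      simp only [map_sub, eval_X, eval_C, gpt, sub_eq_zero] at h4
      have h5 : chi (vdeg u) = chi 0 := by
        rw [chi_zero]; exact mul_right_cancel₀ hu (h4.trans (one_mul _).symm)
      have h6 := congrArg (fun d : D => d (some u.1)) (chi_inj h5)
      simp [vdeg_some] at h6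
  rw [Jac.ldim_eq]
  exact le_add_self.trans h
lemma exists_ne (hS : Base S b) (p : S.pts) : ∃ u : Var, p.1 u ≠ 0 := by
  obtain ⟨u, -, hu⟩ := S.rel _ p.2 b (by simp [hS.B])
  exact ⟨u, hu⟩
/-- the line through `p` -/
abbrev ln (hS : Base S b) (p : S.pts) : Spc := S.orb _ hS.tt p.1 p.2
lemma mem_ln (hS : Base S b) (p : S.pts) {z : Pt} :
    z ∈ (ln hS p).pts ↔ z ∈ S.pts ∧ ∃ c : ℂ, z = c • p.1 := by
  refine ⟨fun h => ⟨(S.orb_sub _ _ _ _).2 h, ?_⟩, fun ⟨hz, c, e⟩ =>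
    Spc.exists_scal_ne p.2 hz (c := fun _ => c) fun v => by rw [e]; rfl⟩
  obtain ⟨c, -, h⟩ := h
  refine ⟨c b, funext fun v => ?_⟩
  by_cases hv : p.1 v = 0
  · simp [h, hv]
  · rw [h, (hS.supp p.2 hv).1]; rfl
lemma smul_of_minors {x ξ : Pt} {u : Var} (hu : x u ≠ 0) (h : ∀ v, x u * ξ v = x v * ξ u) :
    ξ = (ξ u / x u) • x := funext fun v => by
  have := h v
  simp only [Pi.smul_apply, smul_eq_mul]
  field_simp
  linear_combination this
lemma dAt_minor (x ξ : Pt) (a c : ℂ) (u v : Var) :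
    dAt x ξ (C a * MvPolynomial.X v - C c * MvPolynomial.X u) = a * ξ v - c * ξ u := by
  rw [Jac.dAt_sub, Jac.dAt_C_mul, Jac.dAt_C_mul, dAt_X, dAt_X]
lemma ldim_ln_le (hS : Base S b) (p : S.pts) {z : Pt} (hz : z ∈ (ln hS p).pts) :
    (ln hS p).ldim z ≤ 1 := by
  obtain ⟨u, hu⟩ := exists_ne hS p
  have h : (ln hS p).Tan z ≤ Submodule.span ℂ {p.1} := fun ξ hξ => by
    refine Submodule.mem_span_singleton.2 ⟨_, (smul_of_minors hu fun v => ?_).symm⟩
    rw [← sub_eq_zero, ← dAt_minor z]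
    refine hξ _ fun y hy => ?_
    obtain ⟨-, c, rfl⟩ := (mem_ln hS p).1 hy
    simp only [map_sub, map_mul, eval_C, eval_X, Pi.smul_apply, smul_eq_mul]
    ring
  refine (Spc.ldim_le_tan hz).trans ?_
  exact_mod_cast (Submodule.finrank_mono h).trans (by simpa using finrank_span_le_card {p.1})
lemma mem_ln_I (hS : Base S b) (p : S.pts) {m : ℤ} {r : R} (hr : Hmg (m • eB b) r)
    (h0 : eval p.1 r = 0) : r ∈ (ln hS p).I := fun y hy => by
  obtain ⟨hy', c, e⟩ := (mem_ln hS p).1 hy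
  have := Fn_smul hS (f := fun z : S.pts => eval z.1 r) ⟨r, hr, fun _ => rfl⟩ (z := p)
    (z' := ⟨y, hy'⟩) e
  simpa [h0] using this
lemma vdeg_eq {v : Var} (h : v.1 = b ∧ v.2.2 = 0) : vdeg v = eB b := by simp [vdeg, h.1, h.2]
lemma prod_mem_Fn {α : Type} (s : Finset α) {m : α → ℤ} {f : α → S.pts → ℂ}
    (h : ∀ i ∈ s, f i ∈ Fn S b (m i)) : ∏ i ∈ s, f i ∈ Fn S b (∑ i ∈ s, m i) := by
  classical
  induction s using Finset.induction_on with
  | empty => simpa using one_mem_Fn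
  | insert a s ha ih =>
    rw [Finset.prod_insert ha, Finset.sum_insert ha]
    exact mul_mem_Fn (h a (Finset.mem_insert_self _ _))
      (ih fun i hi => h i (Finset.mem_insert_of_mem hi))
end D0
open D0

/-- `x, y` generate the ideal of the line through `p` near `p` -/
def LocGen (S : Spc) (b : ℕ) (p : S.pts) (x y : S.pts → ℂ) : Prop :=
  ∀ m, ∀ f ∈ Fn S b m, f p = 0 → ∃ r ∈ S.fn, ∃ a ∈ S.fn, ∃ c ∈ S.fn, r p ≠ 0 ∧ r * f = a * x + c * y
/-- local parameters of any positive degree (`Jac.local_eqs` for `orb p ⊂ S`: the differentials of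
the linear forms vanishing at `p` span the conormal space; multiply by `l ^ (d - 1)`) -/
theorem exists_locGen (hS : Base S b) (hsm : S.Sm 3) (p : S.pts) {d : ℤ} (hd : 1 ≤ d) :
    ∃ x ∈ Fn S b d, ∃ y ∈ Fn S b d, x p = 0 ∧ y p = 0 ∧ LinearIndependent ℂ ![x, y] ∧
      LocGen S b p x y := by
  obtain ⟨u, hu⟩ := exists_ne hS p
  obtain ⟨k, rfl⟩ : ∃ k : ℕ, d = k + 1 := ⟨(d - 1).toNat, by omega⟩
  let M : Submodule ℂ R :=
    { carrier := {r | Hmg (((k : ℤ) + 1) • eB b) r ∧ eval p.1 r = 0}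
      add_mem' := fun h h' => ⟨h.1.add h'.1, by rw [map_add, h.2, h'.2, add_zero]⟩
      zero_mem' := ⟨Hmg.zero _, map_zero _⟩
      smul_mem' := fun c r h => ⟨h.1.smul c, by rw [smul_eval, h.2, mul_zero]⟩ }
  let δ : M →ₗ[ℂ] Module.Dual ℂ (S.Tan p.1) :=
    (S.Tan p.1).subtype.dualMap ∘ₗ Jac.dL p.1 ∘ₗ M.subtype
  have hδ : ∀ (a : M) (ξ : S.Tan p.1), δ a ξ = dAt p.1 ξ.1 a.1 := fun _ _ => rfl
  obtain ⟨c, y, ξ, h1, -, h3⟩ := Jac.exists_dual_pair δ
  have hZ := S.self_mem_orb _ hS.tt p.1 p.2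
  have hE : p.1 ∈ (ln hS p).Tan p.1 := by
    have := Spc.euler_mem hZ (ln hS p).B
    rwa [Spc.restr_eq _ hZ] at this
  have hE' : p.1 ∈ S.Tan p.1 := Spc.Sub.tan_le (S.orb_sub _ _ _ _) _ hE
  have h4 : (LinearMap.range δ).dualCoannihilator = Submodule.span ℂ {⟨p.1, hE'⟩} := by
    refine le_antisymm (fun η hη => ?_) ?_
    · rw [Submodule.mem_dualCoannihilator] at hη
      refine Submodule.mem_span_singleton.2 ⟨_, Subtype.ext (smul_of_minors hu fun v => ?_).symm⟩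
      by_cases hv : v.1 = b ∧ v.2.2 = 0
      · have h5 : eval p.1 (C (p.1 u) * MvPolynomial.X v - C (p.1 v) * MvPolynomial.X u : R) = 0 := by
          simp [mul_comm]
        have h6 := hη _ ⟨⟨MvPolynomial.X u ^ k *
          (C (p.1 u) * MvPolynomial.X v - C (p.1 v) * MvPolynomial.X u),
          (((Hmg.X u).pow k).mul ((((Hmg.X v).C_mul _).cast (vdeg_eq hv)).sub
            (((Hmg.X u).C_mul _).cast (vdeg_eq (hS.supp p.2 hu))))).cast (by
              rw [vdeg_eq (hS.supp p.2 hu), add_smul, one_smul, natCast_zsmul]),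
          by rw [map_mul, h5, mul_zero]⟩, rfl⟩
        rw [hδ, dAt_mul, h5, zero_mul, add_zero, dAt_minor, map_pow, eval_X] at h6
        exact sub_eq_zero.1 ((mul_eq_zero.1 h6).resolve_left (pow_ne_zero _ hu))
      · have h5 : ∀ z ∈ S.pts, z v = 0 := fun z hz => by
          by_contra h0; exact hv (hS.supp hz h0)
        rw [Spc.tan_supp η.2 h5, h5 _ p.2, mul_zero, zero_mul]
    · rw [Submodule.span_singleton_le_iff_mem, Submodule.mem_dualCoannihilator]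
      rintro _ ⟨a, rfl⟩
      exact hE _ (mem_ln_I hS p a.2.1 a.2.2)
  rw [h4, finrank_span_singleton (fun e => hu (congrFun (congrArg Subtype.val e) u)),
    (hsm _ p.2).1] at h3
  obtain rfl : c = 2 := by omega
  have hy : ∀ j, (y j).1 ∈ (ln hS p).I := fun j => mem_ln_I hS p (y j).2.1 (y j).2.2
  have h5 := Jac.finrank_tan_cut (Jac.finJ_I S) (x := p.1) (y := fun j => (y j).1)
    (fun j => (y j).2.2) (ξ := fun i => (ξ i).1) (fun i => (ξ i).2) (by
      have : (Matrix.of fun i j => dAt p.1 (ξ i).1 (y j).1) = 1 := by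
        ext i j; rw [Matrix.of_apply, ← hδ, h1, Matrix.one_apply]
      rw [this, Matrix.det_one]; exact one_ne_zero)
  rw [show TanI S.I p.1 = S.Tan p.1 from rfl, (hsm _ p.2).1] at h5
  obtain ⟨-, -, -, ⟨r, hr, h6⟩, -⟩ := Jac.reg_at ((Jac.finJ_I S).mono le_sup_left)
    (Jac.sup_span_le (S.orb_sub _ hS.tt p.1 p.2).I_le hy) (Jac.I_le_mx hZ) (by
      rw [← Jac.ldim_eq]
      refine le_trans ?_ (one_le_ldim hZ hu)
      exact_mod_cast (by omega))
  refine ⟨fun z => eval z.1 (y 0).1, ⟨_, (y 0).2.1, fun _ => rfl⟩, fun z => eval z.1 (y 1).1,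
    ⟨_, (y 1).2.1, fun _ => rfl⟩, (y 0).2.2, (y 1).2.2, ?_, ?_⟩
  · refine LinearIndependent.pair_iff.2 fun s t e => ?_
    have h7 : C s * (y 0).1 + C t * (y 1).1 ∈ S.I := fun z hz => by
      simpa using congrFun e ⟨z, hz⟩
    have h8 := fun i => (ξ i).2 _ h7
    simp only [dAt_add, Jac.dAt_C_mul, ← hδ, h1] at h8
    exact ⟨by simpa using h8 0, by simpa using h8 1⟩
  · rintro m f ⟨q, hq, e⟩ h0
    obtain ⟨s, hs, t, ht, e'⟩ := Submodule.mem_sup.1 (h6 q (mem_ln_I hS p hq ((e p).symm.trans h0)))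
    obtain ⟨a, rfl⟩ := Ideal.mem_span_range_iff_exists_fun.1 ht
    refine ⟨_, S.eval_mem_fn r, _, S.eval_mem_fn (a 0), _, S.eval_mem_fn (a 1), hr,
      funext fun z => ?_⟩
    have := congrArg (eval z.1) e'
    simp only [map_add, hs _ z.2, zero_add, Fin.sum_univ_two, map_mul] at this
    simp only [Pi.mul_apply, Pi.add_apply, e, this]
lemma LocGen.symm {p : S.pts} {x y : S.pts → ℂ} (h : LocGen S b p x y) : LocGen S b p y x :=
  fun m f hf h0 => by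
    obtain ⟨r, hr, a, ha, c, hc, h1, e⟩ := h m f hf h0
    exact ⟨r, hr, c, hc, a, ha, h1, e.trans (add_comm _ _)⟩
/-- near `p` the common zeros of local generators lie on the line -/
lemma LocGen.cut (hS : Base S b) {p : S.pts} {x y : S.pts → ℂ} (h : LocGen S b p x y) :
    ∃ u : R, eval p.1 u ≠ 0 ∧ ∀ z : S.pts, eval z.1 u ≠ 0 → x z = 0 → y z = 0 →
      z.1 ∈ (ln hS p).pts := by
  obtain ⟨u, hu⟩ := exists_ne hS p
  obtain ⟨V, -, hV⟩ := S.fin
  have h1 : Near S.fn p fun z => ∀ v ∈ V, x z = 0 → y z = 0 → p.1 u * z.1 v = p.1 v * z.1 u := by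
    refine Near.finset V fun v _ => ?_
    obtain ⟨r, hr, a, -, c, -, h0, e⟩ := h 1 (p.1 u • (fun z : S.pts => z.1 v) -
      p.1 v • fun z : S.pts => z.1 u) (sub_mem (Submodule.smul_mem _ _ (X_mem_Fn hS v))
        (Submodule.smul_mem _ _ (X_mem_Fn hS u))) (by simp [mul_comm])
    refine (Near.of_ne hr h0).mono fun z hz hx hy => ?_
    have := congrFun e z
    simp only [Pi.mul_apply, Pi.add_apply, hx, hy, mul_zero, add_zero, Pi.sub_apply,
      Pi.smul_apply, smul_eq_mul] at this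
    exact sub_eq_zero.1 ((mul_eq_zero.1 this).resolve_left hz)
  obtain ⟨w, hw, h2⟩ := near_iff.1 h1
  refine ⟨w, hw, fun z hz hx hy => (mem_ln hS p).2 ⟨z.2, _, smul_of_minors hu fun v => ?_⟩⟩
  by_cases hv : v ∈ V
  · exact h2 z hz v hv hx hy
  · rw [hV _ z.2 v hv, hV _ p.2 v hv, mul_zero, zero_mul]
lemma LocGen.ne_zero (hS : Base S b) (hsm : S.Sm 3) {p : S.pts} {d : ℤ} {x y : S.pts → ℂ}
    (hx : x ∈ Fn S b d) (h : LocGen S b p x y) (hx0 : x p = 0) : y ≠ 0 := by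
  rintro rfl
  obtain ⟨u, hu, h1⟩ := h.cut hS
  obtain ⟨q, hq, e⟩ := hx
  have hZ := S.self_mem_orb _ hS.tt p.1 p.2
  have h2 := Jac.ldim_le_add (S.orb_sub _ hS.tt p.1 p.2) hZ (r := 1) (fun _ => q)
    (fun _ => mem_ln_I hS p hq ((e p).symm.trans hx0)) hu
    fun z hz h0 h3 => h1 ⟨z, hz⟩ h0 ((e _).trans (h3 0)) rfl
  rw [(hsm _ p.2).2] at h2
  have h3 := h2.trans (add_le_add_left (ldim_ln_le hS p hZ) _)
  exact absurd h3 (by decide)
set_option linter.unusedVariables false in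
/-- local parameters form a regular sequence (`Spc.hartogs` with `Z = orb p`) -/
theorem LocGen.koszul (hS : Base S b) (hsm : S.Sm 3) (hi : S.Irred) {p : S.pts} {d : ℤ}
    {x y : S.pts → ℂ} (hx : x ∈ Fn S b d) (hy : y ∈ Fn S b d) (h : LocGen S b p x y)
    (hx0 : x p = 0) (hy0 : y p = 0) {a c : S.pts → ℂ} (ha : a ∈ S.fn) (hc : c ∈ S.fn)
    (e : a * x = c * y) : ∃ r ∈ S.fn, ∃ u ∈ S.fn, r p ≠ 0 ∧ r * a = u * y ∧ r * c = u * x := by
  have hy' := h.ne_zero hS hsm hx hx0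
  obtain ⟨w, hw, h1⟩ := h.cut hS
  obtain ⟨X, hX⟩ := Fn_le hx
  obtain ⟨Y, hY⟩ := Fn_le hy
  obtain ⟨A, hA⟩ := id ha
  obtain ⟨C', hC⟩ := id hc
  obtain ⟨r, u, hr, h2⟩ := Spc.hartogs hsm (S.orb_sub _ hS.tt p.1 p.2)
    (fun z hz => (add_le_add_left (ldim_ln_le hS p hz) _).trans (by decide)) p.2
    (f := A) (g := Y) hw (fun r hr hm => (hi.mem_or_mem hm).elim (fun h => hr (h _ p.2))
      fun h => hy' (funext fun z => (hY z).trans (h _ z.2))) fun z hz hn hz' => by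
    by_cases h3 : y ⟨z, hz⟩ = 0
    · refine ⟨X, C', fun h4 => hn (h1 ⟨z, hz⟩ hz' ((hX _).trans h4) h3), fun t ht => ?_⟩
      have := congrFun e ⟨t, ht⟩
      simp only [Pi.mul_apply, hX, hY, hA, hC] at this
      rw [map_sub, map_mul, map_mul, ← this, mul_comm, sub_self]
    · exact ⟨Y, A, fun h4 => h3 ((hY _).trans h4), by rw [mul_comm, sub_self]; exact zero_mem _⟩
  have e1 : (fun z : S.pts => eval z.1 r) * a = (fun z : S.pts => eval z.1 u) * y :=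
    funext fun z => by
      have := h2 _ z.2
      rw [map_sub, map_mul, map_mul, sub_eq_zero] at this
      simp only [Pi.mul_apply, hA, hY, this]
  refine ⟨_, S.eval_mem_fn r, _, S.eval_mem_fn u, hr, e1, sub_eq_zero.1 ?_⟩
  refine (fn_mul_eq_zero hi (sub_mem (mul_mem (S.eval_mem_fn r) hc)
    (mul_mem (S.eval_mem_fn u) (Fn_le hx))) (Fn_le hy) ?_).resolve_right hy'
  linear_combination x * e1 - (fun z : S.pts => eval z.1 r) * e
/-- a regular function that vanishes off a line vanishes -/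
theorem eq_zero_of_off (hS : Base S b) (hsm : S.Sm 3) (hi : S.Irred) (p : S.pts) {f : S.pts → ℂ}
    (hf : f ∈ S.fn) (h : ∀ z : S.pts, (∀ c : ℂ, z.1 ≠ c • p.1) → f z = 0) : f = 0 := by
  obtain ⟨x, hx, y, hy, hx0, hy0, -, hg⟩ := exists_locGen hS hsm p le_rfl
  refine (fn_mul_eq_zero hi hf (Fn_le hy) (funext fun z => ?_)).resolve_right
    (hg.ne_zero hS hsm hx hx0)
  by_cases hz : ∀ c : ℂ, z.1 ≠ c • p.1
  · simp [h z hz]
  · push Not at hz
    obtain ⟨c, e⟩ := hz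
    simp [Fn_smul hS hy e, hy0]
/-- every neighbourhood contains a point off the line -/
lemma exists_off (hS : Base S b) (hsm : S.Sm 3) (hi : S.Irred) (p : S.pts) {z : S.pts}
    {q : S.pts → Prop} (h : Near S.fn z q) : ∃ y : S.pts, (∀ c : ℂ, y.1 ≠ c • p.1) ∧ q y := by
  obtain ⟨r, hr, h⟩ := near_iff.1 h
  by_contra hn
  push Not at hn
  refine hr (congrFun (eq_zero_of_off hS hsm hi p (S.eval_mem_fn r) fun y hy => ?_) z)
  by_contra h0
  exact hn y hy (h y h0)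

end Crest.Agent.N265.N
end
end

-- ▼ part N265/N/Dlt0b
section

/-!
# Row 265, layer N, task N-DLT0, second part: syzygy data, local frame, second syzygies
-/

set_option autoImplicit false
set_option linter.unusedSectionVars false
noncomputable section
open MvPolynomial Module

namespace Crest.Agent.N265.N
open Alg GV D0
variable {S : Spc} {b : ℕ}

namespace D0
variable {ι κ : Type} [Fintype ι] [Fintype κ]
lemma act0 (Φ : Matrix κ ι R) (σ : S.pts → ι → ℂ) (z : S.pts) :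
    act S 0 Φ σ z = mev z.1 Φ (σ z) := by rw [act_apply, zero_add]
lemma mem_ker_act {Φ : Matrix κ ι R} {σ : S.pts → ι → ℂ} :
    σ ∈ LinearMap.ker (act S 0 Φ) ↔ ∀ z : S.pts, mev z.1 Φ (σ z) = 0 := by
  simp only [LinearMap.mem_ker, funext_iff (f := act S 0 Φ σ), act0, Pi.zero_apply]
lemma regV_mev (Φ : Matrix κ ι R) {σ : S.pts → ι → ℂ} (h : RegV S.fn σ) :
    RegV S.fn fun z => mev z.1 Φ (σ z) := (regM_mev S Φ).apply h
lemma exists_common {α : Type} [Fintype α] (Φ : Matrix ι κ R) (σ : α → S.pts → ι → ℂ) (z : S.pts)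
    (h : ∀ a, ∃ r ∈ S.fn, r z ≠ 0 ∧ ∃ τ, RegV S.fn τ ∧ act S 0 Φ τ = r • σ a) :
    ∃ r ∈ S.fn, r z ≠ 0 ∧ ∃ τ : α → S.pts → κ → ℂ,
      ∀ a, RegV S.fn (τ a) ∧ act S 0 Φ (τ a) = r • σ a := by
  classical
  choose r hr h0 τ hτ e using h
  refine ⟨∏ a, r a, prod_mem fun a _ => hr a, ?_,
    fun a => (∏ a' ∈ Finset.univ.erase a, r a') • τ a,
    fun a => ⟨RegV.smul (prod_mem fun a _ => hr a) (hτ a), ?_⟩⟩
  · rw [Finset.prod_apply]; exact Finset.prod_ne_zero_iff.2 fun a _ => h0 a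
  · rw [act_smul, e, smul_smul, Finset.prod_erase_mul _ _ (Finset.mem_univ a)]
lemma chi_zsmul (n : ℤ) (d : D) : chi (n • d) = chi d ^ n := by
  induction n using Int.induction_on with
  | zero => simp
  | succ n ih => rw [add_smul, one_smul, chi_add, ih, zpow_add_one₀ (chi_ne d)]
  | pred n ih => rw [sub_smul, one_smul, chi_sub, ih, zpow_sub_one₀ (chi_ne d)]
omit [Fintype ι] in
lemma sdeg_neg (d : ℤ) : sdeg b (fun _ : ι => -(d • eB b)) = fun _ => -d := by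
  funext; simp [sdeg, eB]
lemma reg_mem_iSup (hS : Base S b) (a : ι → ℤ) {τ : S.pts → ι → ℂ} (h : RegV S.fn τ) :
    τ ∈ ⨆ j, Amb S b a j := by
  simpa only [show secs S (fun _ => (⊤ : Submodule ℂ (ι → ℂ))) = ⊤ from
    top_unique fun _ _ _ => trivial, inf_top_eq] using
    mem_iSup_secs hS (a := a) isEqv_top h fun _ => trivial
lemma card_le_of_top [DecidableEq ι] (U : Submodule ℂ (κ → ℂ)) (s : Finset ι) (t : ι → κ → ℂ)
    (h : ∀ v, v ∈ U ⊔ Submodule.span ℂ (t '' s)) : Fintype.card κ ≤ finrank ℂ U + s.card := by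
  classical
  have h1 : U ⊔ Submodule.span ℂ (t '' s) = ⊤ := top_unique fun v _ => h v
  have h2 := Submodule.finrank_add_le_finrank_add_finrank U (Submodule.span ℂ (t '' s))
  rw [h1, finrank_top, Module.finrank_fintype_fun_eq_card, ← Finset.coe_image] at h2
  have h3 := (finrank_span_finset_le_card (R := ℂ) (s.image t)).trans Finset.card_image_le
  exact h2.trans (Nat.add_le_add_left h3 _)
end D0

/-- data: a row `g` of forms of degree `d` that generates the ideal of `p`, and a matrix `Φ` whose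
columns generate the syzygies locally everywhere -/
structure SyzD (S : Spc) (b : ℕ) (p : S.pts) {ι κ : Type} [Fintype ι] [Fintype κ] (d : ℤ)
    (g : Matrix Unit ι R) (e : κ → D) (Φ : Matrix ι κ R) (i₁ i₂ : ι) : Prop where
  hg : MHmg (fun _ => -(d • eB b)) (fun _ => 0) g
  he : ∀ k, e k ∈ DS S.B ∧ e k none = 0
  hΦ : MHmg e (fun _ => -(d • eB b)) Φ
  cx : ∀ z ∈ S.pts, ∀ v, mev z g (mev z Φ v) = 0
  zero : ∀ i, eval p.1 (g () i) = 0
  off : ∀ z ∈ S.pts, (∀ c : ℂ, z ≠ c • p.1) → ∃ i, eval z (g () i) ≠ 0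
  ne : i₁ ≠ i₂
  gen : LocGen S b p (fun z => eval z.1 (g () i₁)) fun z => eval z.1 (g () i₂)
  onto : ∀ z : S.pts, LocOnto S b 0 (fun _ => ⊤) (fun _ => -d) (LinearMap.ker (act S 0 g)) Φ z

namespace SyzD
variable {p : S.pts} {ι κ : Type} [Fintype ι] [Fintype κ] [DecidableEq ι] [DecidableEq κ] {d : ℤ}
  {g : Matrix Unit ι R} {e : κ → D} {Φ : Matrix ι κ R} {i₁ i₂ : ι}
/-- the values of the second syzygies -/
def Rv (S : Spc) (Φ : Matrix ι κ R) : Pt → Submodule ℂ (κ → ℂ) :=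
  vals S (regS S _ ⊓ LinearMap.ker (act S 0 Φ))
lemma mem_Rv {z : S.pts} {v : κ → ℂ} : v ∈ Rv S Φ z.1 ↔
    ∃ ρ : S.pts → κ → ℂ, (RegV S.fn ρ ∧ ∀ y : S.pts, mev y.1 Φ (ρ y) = 0) ∧ ρ z = v :=
  mem_vals.trans (exists_congr fun _ => and_congr_left' (and_congr_right' mem_ker_act))
lemma Rv_le {z : Pt} (hz : z ∈ S.pts) : Rv S Φ z ≤ LinearMap.ker (mev z Φ) := fun v hv => by
  obtain ⟨ρ, h, rfl⟩ := (mem_Rv (z := ⟨z, hz⟩)).1 hv
  exact h.2 ⟨z, hz⟩
lemma mev_g_single (z : Pt) (i : ι) : mev z g (Pi.single i 1) = fun _ => eval z (g () i) := by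
  funext u; simp [mev_apply, Pi.single_apply]
/-- the equations of a local frame -/
structure Fr (p : S.pts) (g : Matrix Unit ι R) (Φ : Matrix ι κ R) (i₁ i₂ : ι)
    (t : ι → S.pts → κ → ℂ) (r : S.pts → ℂ) (a c : ι → S.pts → ℂ) : Prop where
  hr : r ∈ S.fn
  r0 : r p ≠ 0
  hac : ∀ i, a i ∈ S.fn ∧ c i ∈ S.fn
  ht : ∀ i, RegV S.fn (t i)
  e₁ : ∀ z, mev z.1 Φ (t i₁ z) = (r z * eval z.1 (g () i₂)) • (Pi.single i₁ 1 : ι → ℂ) -
      (r z * eval z.1 (g () i₁)) • (Pi.single i₂ 1 : ι → ℂ)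
  eq : ∀ i, i ≠ i₁ → i ≠ i₂ → ∀ z, mev z.1 Φ (t i z) = r z • (Pi.single i 1 : ι → ℂ) -
      a i z • (Pi.single i₁ 1 : ι → ℂ) - c i z • (Pi.single i₂ 1 : ι → ℂ)

variable (h : SyzD S b p d g e Φ i₁ i₂)
include h
lemma g_mem (i : ι) : (fun z : S.pts => eval z.1 (g () i)) ∈ Fn S b d :=
  ⟨g () i, (h.hg () i).cast (by simp), fun _ => rfl⟩
variable (hS : Base S b)
include hS
lemma deg_e (k : κ) : sdeg b e k • eB b = e k := by
  ext o
  rcases o with _ | c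
  · simp [eB, (h.he k).2]
  · by_cases hc : c = b
    · simp [eB, hc, sdeg]
    · simp [eB, Ne.symm hc, (h.he k).1 c (by simpa [hS.B] using hc)]
/-- all regular syzygies come locally from `Φ` -/
lemma onto_reg {σ : S.pts → ι → ℂ} (hσ : RegV S.fn σ) (h0 : ∀ y : S.pts, mev y.1 g (σ y) = 0)
    (z : S.pts) : ∃ r ∈ S.fn, r z ≠ 0 ∧ ∃ τ, RegV S.fn τ ∧ act S 0 Φ τ = r • σ := by
  have hg : MHmg (fun _ : ι => (-d) • eB b) (fun _ => 0) g := by simpa only [neg_smul] using h.hg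
  have := mem_iSup_secs hS (a := fun _ => -d) (isEqv_bot.comap hg) hσ h0
  clear hσ h0
  induction this using Submodule.iSup_induction' with
  | mem j σ hσ =>
    obtain ⟨r, hr, h0, τ, -, hτ, e⟩ := h.onto z j σ hσ.1 (mem_ker_act.2 hσ.2)
    exact ⟨r, hr, h0, τ, hτ, e⟩
  | zero => exact ⟨1, one_mem _, one_ne_zero, 0, RegV.zero, by simp⟩
  | add σ σ' _ _ h1 h2 =>
    obtain ⟨r, hr, h0, τ, hτ, e⟩ := h1
    obtain ⟨r', hr', h0', τ', hτ', e'⟩ := h2
    refine ⟨r * r', mul_mem hr hr', mul_ne_zero h0 h0', r' • τ + r • τ',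
      (hτ.smul hr').add (hτ'.smul hr), ?_⟩
    rw [map_add, act_smul, act_smul, e, e', smul_smul, smul_smul, smul_add, mul_comm r' r]
lemma gsub_im : GSub S b (fun _ : ι => -d) fun j => (Amb S b (sdeg b e) j).map (act S 0 Φ) :=
  gsub_Amb.map _ (act_smul 0 Φ) fun j σ hσ => by
    have := act_mem_Amb hS h.hΦ (x := 0) (fun _ _ => rfl) hσ
    rwa [sdeg_neg] at this
omit h in
lemma act_mem_iSup {τ : S.pts → κ → ℂ} (hτ : RegV S.fn τ) :
    act S 0 Φ τ ∈ ⨆ j, (Amb S b (sdeg b e) j).map (act S 0 Φ) := by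
  rw [← Submodule.map_iSup]
  exact Submodule.mem_map_of_mem (reg_mem_iSup hS _ hτ)
lemma frame_one : ∃ m n, ∃ r ∈ Fn S b m, r p ≠ 0 ∧ ∃ t ∈ Amb S b (sdeg b e) n, ∀ z,
    act S 0 Φ t z = (r z * eval z.1 (g () i₂)) • (Pi.single i₁ 1 : ι → ℂ) -
      (r z * eval z.1 (g () i₁)) • (Pi.single i₂ 1 : ι → ℂ) := by
  let σ : S.pts → ι → ℂ := fun z => eval z.1 (g () i₂) • (Pi.single i₁ 1 : ι → ℂ) -
    eval z.1 (g () i₁) • (Pi.single i₂ 1 : ι → ℂ)
  have hσ : σ ∈ Amb S b (fun _ => -d) (d + d) := fun i => by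
    have := sub_mem (Submodule.smul_mem _ ((Pi.single i₁ 1 : ι → ℂ) i) (h.g_mem i₂))
      (Submodule.smul_mem _ ((Pi.single i₂ 1 : ι → ℂ) i) (h.g_mem i₁))
    convert this using 1
    · rw [add_neg_cancel_right]
    · funext z; simp [σ, mul_comm]
  obtain ⟨r, hr, h0, τ, hτ, e⟩ := h.onto_reg hS (regV_of_Amb hσ) (fun y => by
    simp only [σ, map_sub, map_smul, mev_g_single]
    funext u; simp [mul_comm]) p
  obtain ⟨m, s, hs, h1, t, ht, e'⟩ := (h.gsub_im hS).exists_hom hS hσ hr h0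
    (e ▸ act_mem_iSup hS hτ)
  refine ⟨m, _, s, hs, h1, t, ht, fun z => ?_⟩
  rw [e']
  simp only [σ, Pi.smul_apply', smul_sub, smul_smul]
lemma frame_other (i : ι) : ∃ m n, ∃ r ∈ Fn S b m, r p ≠ 0 ∧ ∃ t ∈ Amb S b (sdeg b e) n,
    ∃ a ∈ S.fn, ∃ c ∈ S.fn, ∀ z, act S 0 Φ t z = r z • (Pi.single i 1 : ι → ℂ) -
      a z • (Pi.single i₁ 1 : ι → ℂ) - c z • (Pi.single i₂ 1 : ι → ℂ) := by
  obtain ⟨r, hr, a, ha, c, hc, h0, e₀⟩ := h.gen d _ (h.g_mem i) (h.zero i)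
  let P : Submodule ℂ (ι → ℂ) := Bun.suppOn fun k => k = i₁ ∨ k = i₂
  let ρ : S.pts → ι → ℂ := fun z => a z • (Pi.single i₁ 1 : ι → ℂ) + c z • (Pi.single i₂ 1 : ι → ℂ)
  let ε : S.pts → ι → ℂ := fun _ => Pi.single i 1
  have hρ : RegV S.fn ρ := ((RegV.const _).smul ha).add ((RegV.const _).smul hc)
  have hρP : ρ ∈ secs S fun _ => P := fun z k hk => by
    push Not at hk
    simp [ρ, hk.1, hk.2]
  have hP : IsEqv S (fun _ : ι => (-d) • eB b) fun _ => P := fun z _ v =>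
    forall₂_congr fun k _ => by simp [chi_ne]
  obtain ⟨s, hs, h1, τ, hτ, e₁⟩ := h.onto_reg hS (σ := r • ε - ρ)
    (((RegV.const _).smul hr).sub hρ) (fun y => by
      have := congrFun e₀ y
      simp only [ρ, ε, Pi.sub_apply, Pi.smul_apply', map_sub, map_add, map_smul, mev_g_single]
      funext u
      simpa [sub_eq_zero] using this) p
  have hε : ε ∈ Amb S b (fun _ : ι => -d) d := fun k => by
    have := Submodule.smul_mem _ ((Pi.single i 1 : ι → ℂ) k) (one_mem_Fn (S := S) (b := b))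
    convert this using 1
    · rw [add_neg_cancel]
    · funext z; simp [ε]
  have hN := (h.gsub_im hS).sup (gsub_Amb.inf_secs fun _ => P)
  obtain ⟨m, u, hu, h2, h3⟩ := hN.exists_hom hS hε (mul_mem hs hr) (z := p) (mul_ne_zero h1 h0) (by
    have e₂ : (s * r) • ε = act S 0 Φ τ + s • ρ := by rw [e₁, smul_sub, smul_smul, sub_add_cancel]
    rw [e₂, iSup_sup_eq]
    exact Submodule.add_mem_sup (act_mem_iSup hS hτ)
      (mem_iSup_secs hS hP (hρ.smul hs) fun z => P.smul_mem _ (hρP z)))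
  obtain ⟨_, ⟨t, ht, rfl⟩, w, hw, e₂⟩ := Submodule.mem_sup.1 h3
  refine ⟨m, _, u, hu, h2, t, ht, _, Fn_le (hw.1 i₁), _, Fn_le (hw.1 i₂), fun z => ?_⟩
  have e₃ : w z = w z i₁ • (Pi.single i₁ 1 : ι → ℂ) + w z i₂ • (Pi.single i₂ 1 : ι → ℂ) := by
    funext k
    by_cases k1 : k = i₁
    · simp [k1, h.ne]
    by_cases k2 : k = i₂
    · simp [k2, h.ne.symm]
    · simpa [k1, k2] using hw.2 z k (by tauto)
  rw [sub_sub, ← e₃, eq_sub_iff_add_eq]
  exact congrFun e₂ z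
variable (hsm : S.Sm 3) (hi : S.Irred)
include hsm hi
set_option linter.unusedVariables false in
/-- Local frame at `p`: homogeneous `t i`, `i ≠ i₂`, with `Φ (t i₁) = r (y e₁ - x e₂)` and
`Φ (t i) = r e_i - a_i e₁ - c_i e₂` (`gen`, `onto`, `GSub.exists_hom`). -/
theorem exists_frame : ∃ (t : ι → S.pts → κ → ℂ) (n : ι → ℤ) (r : S.pts → ℂ) (a c : ι → S.pts → ℂ),
    r ∈ S.fn ∧ r p ≠ 0 ∧ (∀ i, a i ∈ S.fn ∧ c i ∈ S.fn) ∧ (∀ i, t i ∈ Amb S b (sdeg b e) (n i)) ∧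
    (∀ z, act S 0 Φ (t i₁) z = (r z * eval z.1 (g () i₂)) • (Pi.single i₁ 1 : ι → ℂ) -
      (r z * eval z.1 (g () i₁)) • (Pi.single i₂ 1 : ι → ℂ)) ∧
    ∀ i, i ≠ i₁ → i ≠ i₂ → ∀ z, act S 0 Φ (t i) z = r z • (Pi.single i 1 : ι → ℂ) -
      a i z • (Pi.single i₁ 1 : ι → ℂ) - c i z • (Pi.single i₂ 1 : ι → ℂ) := by
  have key : ∀ i, ∃ m n, ∃ r ∈ Fn S b m, r p ≠ 0 ∧ ∃ t ∈ Amb S b (sdeg b e) n,
      ∃ a ∈ S.fn, ∃ c ∈ S.fn, (i = i₁ → ∀ z, act S 0 Φ t z =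
        (r z * eval z.1 (g () i₂)) • (Pi.single i₁ 1 : ι → ℂ) -
          (r z * eval z.1 (g () i₁)) • (Pi.single i₂ 1 : ι → ℂ)) ∧
      (i ≠ i₁ → ∀ z, act S 0 Φ t z = r z • (Pi.single i 1 : ι → ℂ) -
        a z • (Pi.single i₁ 1 : ι → ℂ) - c z • (Pi.single i₂ 1 : ι → ℂ)) := fun i => by
    by_cases hi : i = i₁
    · obtain ⟨m, n, r, hr, h0, t, ht, e⟩ := h.frame_one hS
      exact ⟨m, n, r, hr, h0, t, ht, 0, zero_mem _, 0, zero_mem _, fun _ => e,
        fun h => absurd hi h⟩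
    · obtain ⟨m, n, r, hr, h0, t, ht, a, ha, c, hc, e⟩ := h.frame_other hS i
      exact ⟨m, n, r, hr, h0, t, ht, a, ha, c, hc, fun h => absurd h hi, fun _ => e⟩
  choose m n r hr h0 t ht a ha c hc e₁ e₂ using key
  let q : ι → S.pts → ℂ := fun i => ∏ j ∈ Finset.univ.erase i, r j
  have hq : ∀ i, q i ∈ Fn S b _ := fun i => prod_mem_Fn _ fun j _ => hr j
  have hqr : ∀ i z, (∏ j, r j) z = q i z * r i z := fun i z => by
    rw [← Finset.prod_erase_mul _ _ (Finset.mem_univ i)]; rfl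
  refine ⟨fun i => q i • t i, _, ∏ j, r j, fun i => q i * a i, fun i => q i * c i,
    prod_mem fun j _ => Fn_le (hr j), ?_,
    fun i => ⟨mul_mem (Fn_le (hq i)) (ha i), mul_mem (Fn_le (hq i)) (hc i)⟩,
    fun i => smul_mem_Amb (hq i) (ht i), fun z => ?_, fun i h1 _ z => ?_⟩
  · rw [Finset.prod_apply]; exact Finset.prod_ne_zero_iff.2 fun a _ => h0 a
  · rw [act_smul, Pi.smul_apply', e₁ i₁ rfl, hqr i₁, smul_sub, smul_smul, smul_smul, mul_assoc,
      mul_assoc]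
  · rw [act_smul, Pi.smul_apply', e₂ i h1, hqr i, smul_sub, smul_sub, smul_smul, smul_smul,
      smul_smul]
    rfl
lemma exists_fr : ∃ (t : ι → S.pts → κ → ℂ) (n : ι → ℤ) (r : S.pts → ℂ) (a c : ι → S.pts → ℂ),
    (∀ i, t i ∈ Amb S b (sdeg b e) (n i)) ∧ Fr p g Φ i₁ i₂ t r a c := by
  obtain ⟨t, n, r, a, c, h1, h2, h3, h4, h5, h6⟩ := h.exists_frame hS hsm hi
  exact ⟨t, n, r, a, c, h4, h1, h2, h3, fun i => regV_of_Amb (h4 i),
    fun z => (act0 _ _ _).symm.trans (h5 z), fun i k k' z => (act0 _ _ _).symm.trans (h6 i k k' z)⟩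
set_option linter.unusedVariables false in
theorem Rv_off {z : Pt} (hz : z ∈ S.pts) (ho : ∀ c : ℂ, z ≠ c • p.1) :
    Rv S Φ z = LinearMap.ker (mev z Φ) ∧
      LinearMap.range (mev z Φ) = LinearMap.ker (mev z g) := by
  obtain ⟨j, hj⟩ := h.off z hz ho
  obtain ⟨r, hr, h0, τ, hτ⟩ := exists_common Φ (fun i y =>
    eval y.1 (g () j) • (Pi.single i 1 : ι → ℂ) - eval y.1 (g () i) • (Pi.single j 1 : ι → ℂ))
    ⟨z, hz⟩ fun i => h.onto_reg hS (((RegV.const _).smul (S.eval_mem_fn _)).sub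
      ((RegV.const _).smul (S.eval_mem_fn _))) (fun y => by
        simp only [map_sub, map_smul, mev_g_single]
        funext u; simp [mul_comm]) _
  have key : ∀ (y : S.pts) (w : ι → ℂ), mev y.1 g w = 0 →
      mev y.1 Φ (∑ i, w i • τ i y) = (r y * eval y.1 (g () j)) • w := fun y w hw => by
    have h1 : ∑ i, eval y.1 (g () i) * w i = 0 := congrFun hw ()
    simp only [map_sum, map_smul, ← act0, (hτ _).2, Pi.smul_apply', smul_sub, smul_smul,
      Finset.sum_sub_distrib, ← Finset.sum_smul]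
    have h2 : ∑ i, w i * (r y * eval y.1 (g () i)) = 0 := by
      rw [← mul_zero (r y), ← h1, Finset.mul_sum]
      exact Finset.sum_congr rfl fun i _ => by ring
    rw [h2, zero_smul, sub_zero]
    conv_rhs => rw [pi_eq_sum_univ' w, Finset.smul_sum]
    exact Finset.sum_congr rfl fun i _ => by rw [smul_smul, mul_comm]
  have h1 : r ⟨z, hz⟩ * eval z (g () j) ≠ 0 := mul_ne_zero h0 hj
  refine ⟨le_antisymm (Rv_le hz) fun v hv => ?_, le_antisymm ?_ fun w hw => ?_⟩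
  · rw [← Submodule.smul_mem_iff _ h1]
    refine (mem_Rv (z := ⟨z, hz⟩)).2 ⟨fun y => (r y * eval y.1 (g () j)) • v -
      ∑ i, mev y.1 Φ v i • τ i y, ⟨((RegV.const _).smul (mul_mem hr (S.eval_mem_fn _))).sub
        (RegV.sum _ fun i _ => (hτ i).1.smul (regV_pi.1 (regV_mev Φ (RegV.const v)) i)),
        fun y => ?_⟩, ?_⟩
    · rw [map_sub, key y _ (h.cx _ y.2 v), map_smul, sub_self]
    · simp [LinearMap.mem_ker.1 hv]
  · rintro _ ⟨v, rfl⟩
    exact h.cx z hz v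
  · rw [← Submodule.smul_mem_iff _ h1]
    exact ⟨_, key ⟨z, hz⟩ w hw⟩
/-- near `p` the frame and the second syzygies span -/
lemma decomp {t : ι → S.pts → κ → ℂ} {r : S.pts → ℂ} {a c : ι → S.pts → ℂ}
    (F : Fr p g Φ i₁ i₂ t r a c) (v : κ → ℂ) : ∃ s ∈ S.fn, s p ≠ 0 ∧ ∃ ρ : S.pts → κ → ℂ,
      (RegV S.fn ρ ∧ ∀ y : S.pts, mev y.1 Φ (ρ y) = 0) ∧ ∃ l : ι → S.pts → ℂ,
        ∀ z, s z • v = ρ z + ∑ i ∈ Finset.univ.erase i₂, l i z • t i z := by
  let T := (Finset.univ.erase i₂).erase i₁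
  have hT : ∀ i ∈ T, i ≠ i₁ ∧ i ≠ i₂ := fun i hi => by simpa [T] using hi
  have h12 : i₁ ∈ Finset.univ.erase i₂ := by simp [h.ne]
  let w : S.pts → ι → ℂ := fun z => mev z.1 Φ v
  have hw : ∀ i, (fun z => w z i) ∈ S.fn := regV_pi.1 (regV_mev Φ (RegV.const v))
  let α : S.pts → ℂ := fun z => r z * w z i₁ + ∑ i ∈ T, w z i * a i z
  let β : S.pts → ℂ := fun z => r z * w z i₂ + ∑ i ∈ T, w z i * c i z
  have hα : α ∈ S.fn := fadd_mem (fmul_mem F.hr (hw _))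
    (fsum_mem _ fun i _ => fmul_mem (hw i) (F.hac i).1)
  have hβ : β ∈ S.fn := fadd_mem (fmul_mem F.hr (hw _))
    (fsum_mem _ fun i _ => fmul_mem (hw i) (F.hac i).2)
  let v' : S.pts → κ → ℂ := fun z => r z • v - ∑ i ∈ T, w z i • t i z
  have hv' : RegV S.fn v' :=
    ((RegV.const _).smul F.hr).sub (RegV.sum _ fun i _ => (F.ht i).smul (hw i))
  have e₁ : ∀ z, mev z.1 Φ (v' z) =
      α z • (Pi.single i₁ 1 : ι → ℂ) + β z • (Pi.single i₂ 1 : ι → ℂ) := fun z => by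
    have k1 := pi_eq_sum_univ' (w z)
    rw [← Finset.add_sum_erase _ _ (Finset.mem_univ i₂), ← Finset.add_sum_erase _ _ h12] at k1
    have k2 : ∑ i ∈ T, w z i • mev z.1 Φ (t i z) =
        r z • ∑ i ∈ T, w z i • (Pi.single i 1 : ι → ℂ) -
          (∑ i ∈ T, w z i * a i z) • (Pi.single i₁ 1 : ι → ℂ) -
          (∑ i ∈ T, w z i * c i z) • (Pi.single i₂ 1 : ι → ℂ) := by
      rw [Finset.smul_sum, Finset.sum_smul, Finset.sum_smul, ← Finset.sum_sub_distrib,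
        ← Finset.sum_sub_distrib]
      exact Finset.sum_congr rfl fun i hi => by rw [F.eq i (hT i hi).1 (hT i hi).2]; module
    simp only [v', map_sub, map_smul, map_sum, k2]
    have k3 : r z • mev z.1 Φ v = _ := congrArg (r z • ·) k1
    rw [k3]
    simp only [α, β]
    module
  obtain ⟨r', hr', u, hu, h0, e₂, e₃⟩ := h.gen.koszul hS hsm hi (h.g_mem i₁) (h.g_mem i₂)
    (h.zero i₁) (h.zero i₂) hα (neg_mem hβ) (funext fun z => by
      have := congrFun (h.cx _ z.2 (v' z)) ()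
      rw [e₁, map_add, map_smul, map_smul, mev_g_single, mev_g_single] at this
      simp only [Pi.mul_apply, Pi.neg_apply]
      simp only [Pi.add_apply, Pi.smul_apply, smul_eq_mul, Pi.zero_apply] at this
      linear_combination this)
  refine ⟨r * r' * r, mul_mem (mul_mem F.hr hr') F.hr,
    mul_ne_zero (mul_ne_zero F.r0 h0) F.r0, fun z => (r z * r' z) • v' z - u z • t i₁ z,
    ⟨(hv'.smul (mul_mem F.hr hr')).sub ((F.ht i₁).smul hu), fun z => ?_⟩,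
    fun i z => if i = i₁ then u z else r z * r' z * w z i, fun z => ?_⟩
  · have k1 : r' z * α z = u z * eval z.1 (g () i₂) := congrFun e₂ z
    have k2 : r' z * -β z = u z * eval z.1 (g () i₁) := congrFun e₃ z
    rw [map_sub, map_smul, map_smul, e₁, F.e₁]
    match_scalars
    · linear_combination r z * k1
    · linear_combination -r z * k2
  · beta_reduce
    rw [← Finset.add_sum_erase _ _ h12, if_pos rfl, Finset.sum_congr rfl
      fun i (hi : i ∈ T) => by rw [if_neg (hT i hi).1, mul_smul], ← Finset.smul_sum]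
    simp only [v', Pi.mul_apply]
    module
lemma mem_sup_span {t : ι → S.pts → κ → ℂ} {r : S.pts → ℂ} {a c : ι → S.pts → ℂ}
    (F : Fr p g Φ i₁ i₂ t r a c) (v : κ → ℂ) :
    v ∈ Rv S Φ p.1 ⊔ Submodule.span ℂ ((fun i => t i p) '' (Finset.univ.erase i₂ : Finset ι)) := by
  obtain ⟨s, -, h0, ρ, hρ, l, e⟩ := h.decomp hS hsm hi F v
  rw [← Submodule.smul_mem_iff _ h0, e]
  exact Submodule.add_mem_sup (mem_Rv.2 ⟨ρ, hρ, rfl⟩) (sum_mem fun i hi =>
    Submodule.smul_mem _ _ (Submodule.subset_span ⟨i, hi, rfl⟩))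
omit hsm hi in
/-- the second syzygies are stable under scaling -/
lemma Rv_scale {z z' : S.pts} {c : ℂ} (hc : c ≠ 0) (hz : z'.1 = c • z.1) :
    (Rv S Φ z.1).map (LinearMap.mul ℂ _ fun k => c ^ sdeg b e k) ≤ Rv S Φ z'.1 := by
  rintro _ ⟨v, hv, rfl⟩
  obtain ⟨ρ, hρ, rfl⟩ := mem_Rv.1 hv
  have hΦ : MHmg (fun k => sdeg b e k • eB b) (fun _ => -(d • eB b)) Φ := by
    simpa only [h.deg_e hS] using h.hΦ
  have := mem_iSup_secs hS (isEqv_bot.comap hΦ) hρ.1 hρ.2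
  clear hv hρ
  induction this using Submodule.iSup_induction' with
  | mem j σ hσ =>
    rw [← Submodule.smul_mem_iff _ (zpow_ne_zero j hc)]
    refine mem_Rv.2 ⟨σ, ⟨regV_of_Amb hσ.1, hσ.2⟩, funext fun k => ?_⟩
    have := Fn_smul hS (hσ.1 k) hz
    simp only [zpow_add₀ hc] at this
    simp [this, mul_assoc]
  | zero => simp
  | add σ σ' _ _ h1 h2 => rw [Pi.add_apply, map_add]; exact add_mem h1 h2
/-- at `p`: `⊤ = Rv p ⊔ span (t i p)`, and semicontinuity of the generated family -/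
theorem finrank_Rv {z : Pt} (hz : z ∈ S.pts) :
    finrank ℂ (Rv S Φ z) + Fintype.card ι = Fintype.card κ + 1 := by
  have off : ∀ y : S.pts, (∀ c : ℂ, y.1 ≠ c • p.1) →
      finrank ℂ (Rv S Φ y.1) + Fintype.card ι = Fintype.card κ + 1 := fun y hy => by
    obtain ⟨h1, h2⟩ := h.Rv_off hS hsm hi y.2 hy
    obtain ⟨j, hj⟩ := h.off _ y.2 hy
    have h3 := (mev y.1 Φ).finrank_range_add_finrank_ker
    have h4 := (mev y.1 g).finrank_range_add_finrank_ker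
    have h5 : LinearMap.range (mev y.1 g) = ⊤ := top_unique fun w _ =>
      ⟨(w () / eval y.1 (g () j)) • Pi.single j 1, by
        rw [map_smul, mev_g_single]; funext u; simp [hj]⟩
    rw [h5, finrank_top] at h4
    rw [h1]
    rw [h2] at h3
    simp only [Module.finrank_fintype_fun_eq_card, Fintype.card_unique] at h3 h4
    omega
  by_cases ho : ∀ c : ℂ, z ≠ c • p.1
  · exact off ⟨z, hz⟩ ho
  push Not at ho
  obtain ⟨c, hc⟩ := ho
  obtain ⟨y, hy, h1⟩ := exists_off hS hsm hi p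
    (usc_iff.1 (genA_vals (P := regS S _ ⊓ LinearMap.ker (act S 0 Φ)) inf_le_left).usc ⟨z, hz⟩)
  have h2 := off y hy
  obtain ⟨t, n, r, a, c', -, F⟩ := h.exists_fr hS hsm hi
  have h3 := card_le_of_top _ _ _ (h.mem_sup_span hS hsm hi F)
  rw [Finset.card_erase_of_mem (Finset.mem_univ _), Finset.card_univ] at h3
  have h4 : 0 < Fintype.card ι := Fintype.card_pos_iff.2 ⟨i₁⟩
  have hc0 : c ≠ 0 := by
    rintro rfl
    obtain ⟨u, hu⟩ := exists_ne hS ⟨z, hz⟩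
    exact hu (by simp [hc])
  have h5 := Submodule.finrank_mono (h.Rv_scale hS hc0 (z := p) (z' := ⟨z, hz⟩) hc)
  rw [B0.finrank_map_of_inj (eq_bot_iff.2 fun v hv => funext fun k =>
    (mul_eq_zero.1 (congrFun hv.2 k)).resolve_left (zpow_ne_zero _ hc0))] at h5
  change -(finrank ℂ (Rv S Φ y.1) : ℤ) ≤ -(finrank ℂ (Rv S Φ z) : ℤ) at h1
  change finrank ℂ (Rv S Φ p.1) ≤ finrank ℂ (Rv S Φ z) at h5
  omega
theorem isAB_Rv : IsAB S (co e) (Rv S Φ) := by
  have hr : ∀ x ∈ S.pts, finrank ℂ (Rv S Φ x) = Fintype.card κ + 1 - Fintype.card ι :=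
    fun x hx => by have := h.finrank_Rv hS hsm hi hx; omega
  refine ⟨in_co fun k => (h.he k).1, (genA_vals inf_le_left).alg_of_rk hr, fun z hz => ?_⟩
  refine Submodule.eq_of_le_of_finrank_eq ?_ (by
    rw [LinearEquiv.finrank_map_eq, hr z hz, hr _ (S.inv z hz)])
  have e₁ : (gd e).toLinearMap = LinearMap.mul ℂ _ fun k => chi (eB b) ^ sdeg b e k :=
    LinearMap.ext fun v => funext fun k => by simp [← chi_zsmul, h.deg_e hS]
  exact e₁ ▸ h.Rv_scale hS (chi_ne (eB b)) (z := ⟨z, hz⟩) (z' := ⟨_, S.inv z hz⟩) (hS.gpt_eq hz)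
end SyzD

end Crest.Agent.N265.N
end
end

-- ▼ part N265/N/Dlt0
section

/-!
# Row 265, layer N, task N-DLT0: a resolution of a point and its dual from a matrix of syzygies

(`regS`, `vals`, `LocGen` are in `N/Dlt0a`, `SyzD`, `Rv` in `N/Dlt0b`)
-/

set_option autoImplicit false
set_option linter.unusedSectionVars false
set_option backward.isDefEq.respectTransparency false
noncomputable section
open MvPolynomial Module

namespace Crest.Agent.N265.N
open Alg GV D0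
variable {S : Spc} {b : ℕ}

namespace D0
lemma zsmul_eB_mem (hS : Base S b) (k : ℤ) : k • eB b ∈ DS S.B :=
  zsmul_mem (eB_mem (by simp [hS.B])) k
lemma kl_const {ι : Type} [Fintype ι] [DecidableEq ι] (d : D) (h) :
    (Bun.triv S (fun _ : ι => d) h).kl = Fintype.card ι • lbK S d := by
  rw [kl_triv, Finset.sum_const, Finset.card_univ, lbK]
/-- the pairing of two vector valued functions -/
def pr {κ : Type} [Fintype κ] (σ t : S.pts → κ → ℂ) : S.pts → ℂ := fun z => ∑ k, σ z k * t z k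
lemma pr_mem {κ : Type} [Fintype κ] {σ t : S.pts → κ → ℂ} (hσ : RegV S.fn σ) (ht : RegV S.fn t) :
    pr σ t ∈ S.fn := fsum_mem _ fun k _ => fmul_mem (regV_pi.1 hσ k) (regV_pi.1 ht k)
end D0

namespace SyzD
variable {p : S.pts} {ι κ : Type} [Fintype ι] [Fintype κ] [DecidableEq ι] [DecidableEq κ] {d : ℤ}
  {g : Matrix Unit ι R} {e : κ → D} {Φ : Matrix ι κ R} {i₁ i₂ : ι}
lemma pair_single (σ : ι → ℂ) (i : ι) : ∑ j, σ j * (Pi.single i 1 : ι → ℂ) j = σ i := by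
  simp [Pi.single_apply]
lemma Fr.pair_one {t : ι → S.pts → κ → ℂ} {r : S.pts → ℂ} {a c : ι → S.pts → ℂ}
    (F : Fr p g Φ i₁ i₂ t r a c) (z : S.pts) (σ : ι → ℂ) :
    ∑ k, mev z.1 Φ.transpose σ k * t i₁ z k =
      r z * (σ i₁ * eval z.1 (g () i₂) - σ i₂ * eval z.1 (g () i₁)) := by
  rw [← pair_mev, F.e₁]
  simp only [Pi.sub_apply, Pi.smul_apply, smul_eq_mul, mul_sub, Finset.sum_sub_distrib,
    mul_left_comm (σ _), ← Finset.mul_sum, pair_single]
  ring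
lemma Fr.pair_other {t : ι → S.pts → κ → ℂ} {r : S.pts → ℂ} {a c : ι → S.pts → ℂ}
    (F : Fr p g Φ i₁ i₂ t r a c) (z : S.pts) (σ : ι → ℂ) {i : ι} (h1 : i ≠ i₁) (h2 : i ≠ i₂) :
    ∑ k, mev z.1 Φ.transpose σ k * t i z k = r z * σ i - a i z * σ i₁ - c i z * σ i₂ := by
  rw [← pair_mev, F.eq i h1 h2]
  simp only [Pi.sub_apply, Pi.smul_apply, smul_eq_mul, mul_sub, Finset.sum_sub_distrib,
    mul_left_comm (σ _), ← Finset.mul_sum, pair_single]
variable (h : SyzD S b p d g e Φ i₁ i₂) (hS : Base S b) (hsm : S.Sm 3) (hi : S.Irred)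
include h hS hsm hi
lemma range_g {z : Pt} (hz : z ∈ S.pts) (ho : ∀ c : ℂ, z ≠ c • p.1) :
    LinearMap.range (mev z g) = ⊤ := by
  obtain ⟨j, hj⟩ := h.off z hz ho
  exact top_unique fun w _ => ⟨(w () / eval z (g () j)) • Pi.single j 1, by
    rw [map_smul, mev_g_single]; funext u; simp [hj]⟩
/-- a matrix of weight zero with kernel `Rv` and last rows `Φ` -/
lemma exists_quot : ∃ (n : ℕ) (e' : Fin n ⊕ ι → D) (Ψ : Matrix (Fin n ⊕ ι) κ R),
    (∀ j, e' j ∈ DS S.B ∧ e' j none = 0) ∧ (∀ i, e' (Sum.inr i) = -(d • eB b)) ∧ MHmg e e' Ψ ∧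
      ∀ z ∈ S.pts, LinearMap.ker (mev z Ψ) = Rv S Φ z ∧ ∀ v, mev z Ψ v ∘ Sum.inr = mev z Φ v := by
  have hab := h.isAB_Rv hS hsm hi
  obtain ⟨n, e', π, he', hπ, hk⟩ :=
    (isAlg_iff.2 hab.alg).cogen.exists_hmg (isEqv_iff.2 hab.eqv) fun k => (h.he k).1
  refine ⟨n, Sum.elim (fun j => if e' j none = 0 then e' j else 0) fun _ => -(d • eB b),
    Matrix.fromRows (Matrix.of fun j k => if e' j none = 0 then π j k else 0) Φ, ?_,
    fun _ => rfl, ?_, fun z hz => ⟨?_, fun v => rfl⟩⟩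
  · rintro (j | i)
    · by_cases hj : e' j none = 0
      · simp [hj, he' j]
      · simp [hj]
    · exact ⟨neg_mem (zsmul_eB_mem hS d), by simp [eB]⟩
  · rintro (j | i) k
    · by_cases hj : e' j none = 0
      · simpa [hj] using hπ j k
      · simpa [hj] using Hmg.zero _
    · exact h.hΦ i k
  · have h1 : ∀ v j, mev z (Matrix.fromRows
        (Matrix.of fun j k => if e' j none = 0 then π j k else 0) Φ) v (Sum.inl j) =
        mev z π v j := fun v j => by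
      refine Finset.sum_congr rfl fun k _ => ?_
      by_cases hj : e' j none = 0
      · simp [hj]
      · have : eval z (π j k) = 0 := by
          by_contra h0
          have := hπ.nwt_eq hS.tt hz h0
          simp [Bun.nwt, (h.he k).2, hj] at this
        simp [hj, this]
    ext v
    rw [LinearMap.mem_ker]
    refine ⟨fun hv => ?_, fun hv => funext ?_⟩
    · rw [← hk z hz]
      exact funext fun j => (h1 v j).symm.trans (congrFun hv _)
    · rintro (j | i)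
      · rw [h1]; rw [← hk z hz] at hv; exact congrFun hv j
      · exact congrFun (Rv_le hz hv) i
/-- `C₀ = O`, `C₁ = O(-d)^ι`, `C₂` = image of `⊕ O(e)` under `(π, Φ)` with `ker π = Rv`
(`Bun.exists_quot`), `f` = second projection -/
theorem exists_res : ∃ ρ : PtRes S b p, (∀ i, ρ.C₀.deg i = 0) ∧
    ρ.cls = 1 - Fintype.card ι • lbK S (-(d • eB b)) +
      (kc S (co e) (fun _ => ⊤) - kc S (co e) (Rv S Φ)) := by
  have hab := h.isAB_Rv hS hsm hi
  obtain ⟨n, e', Ψ, he', hr, hΨ, hk⟩ := h.exists_quot hS hsm hi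
  have hk' : ∀ z ∈ S.pts, ⊤ ⊓ LinearMap.ker (mev z Ψ) = Rv S Φ z := fun z hz => by
    rw [top_inf_eq, (hk z hz).1]
  have hC : IsAB S (co e') fun z => (⊤ : Submodule ℂ _).map (mev z Ψ) :=
    (IsAB.top hab.hin).map_of_ker (in_co fun j => (he' j).1) (isRM_mev hΨ)
      (hab.congr fun z hz => (hk' z hz).symm)
  have hf : ∀ z ∈ S.pts, ∀ v, mev z (K3.fm Sum.inr) (mev z Ψ v) = mev z Φ v := fun z hz v =>
    (K3.mev_fm _ _ _).trans ((hk z hz).2 v)
  have hm : ∀ z ∈ S.pts, ((⊤ : Submodule ℂ _).map (mev z Ψ)).map (mev z (K3.fm Sum.inr)) =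
      LinearMap.range (mev z Φ) := fun z hz => by
    rw [← Submodule.map_comp, Submodule.map_top]
    exact congrArg _ (LinearMap.ext (hf z hz))
  let C₂ : Bun S :=
    { ι := Fin n ⊕ ι, deg := e', hdeg := fun j => (he' j).1
      L := fun z => (⊤ : Submodule ℂ _).map (mev z Ψ)
      eqv := isEqv_iff.2 hC.eqv, alg := isAlg_iff.2 hC.alg }
  refine ⟨
    { C₂ := C₂
      C₁ := Bun.triv S (fun _ : ι => -(d • eB b)) fun _ => neg_mem (zsmul_eB_mem hS d)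
      C₀ := Bun.triv S (fun _ : Unit => 0) fun _ => zero_mem _
      f := K3.fm Sum.inr
      g := g
      ε := LinearMap.proj ()
      hf := K3.mhmg_fm _ fun i => (hr i).symm
      hg := h.hg
      w₂ := fun j => (he' j).2
      w₁ := fun _ => by simp [Bun.triv, eB]
      w₀ := fun _ => rfl
      cx := fun z hz => ⟨(hm z hz).le.trans (le_inf le_top ?_), le_top⟩
      off := fun z hz ho => ⟨(hm z hz).trans ((h.Rv_off hS hsm hi hz ho).2.trans
        (top_inf_eq _).symm), (Submodule.map_top _).trans (h.range_g hS hsm hi hz ho)⟩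
      rk := fun z hz => ?_
      inj := fun τ hτ hreg h0 => ?_
      mid := fun j σ hσ hP => ?_
      top := fun j σ hσ hP => ?_
      eps := ?_
      ne := ⟨fun _ => 1, trivial, one_ne_zero⟩ }, fun _ => rfl, ?_⟩
  · rintro _ ⟨v, rfl⟩
    exact h.cx z hz v
  · have h1 := h.finrank_Rv hS hsm hi hz
    have h2 := (mev z Ψ).finrank_range_add_finrank_ker
    rw [(hk z hz).1, ← Submodule.map_top] at h2
    change finrank ℂ (⊤ : Submodule ℂ (Unit → ℂ)) +
      finrank ℂ ((⊤ : Submodule ℂ _).map (mev z Ψ)) = finrank ℂ (⊤ : Submodule ℂ (ι → ℂ))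
    simp only [finrank_top, Module.finrank_fintype_fun_eq_card, Fintype.card_unique] at h2 ⊢
    omega
  · funext z j
    refine congrFun (eq_zero_of_off hS hsm hi p (regV_pi.1 hreg j) fun y hy => ?_) z
    obtain ⟨v, -, hv⟩ := hτ y
    have h1 : mev y.1 Φ v = 0 := by
      rw [← hf _ y.2, hv, ← act0]; exact congrFun h0 y
    have h2 : v ∈ LinearMap.ker (mev y.1 Ψ) := by
      rw [(hk _ y.2).1, (h.Rv_off hS hsm hi y.2 hy).1]; exact h1
    exact congrFun (hv.symm.trans h2) j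
  · obtain ⟨r, hr, h0, τ, -, hτ, e₁⟩ := h.onto p j σ (sdeg_neg (b := b) (ι := ι) d ▸ hσ) hP.2
    refine ⟨r, hr, h0, fun z => mev z.1 Ψ (τ z), fun z => ⟨_, trivial, rfl⟩, regV_mev Ψ hτ, ?_⟩
    rw [← e₁]
    exact funext fun z => (act0 _ _ _).trans ((hf _ z.2 _).trans (act0 Φ τ z).symm)
  · obtain ⟨r, hr, a, ha, c, hc, h0, e₁⟩ := h.gen _ _ (hσ ()) hP.2
    refine ⟨r, hr, h0,
      fun z => a z • (Pi.single i₁ 1 : ι → ℂ) + c z • (Pi.single i₂ 1 : ι → ℂ), fun _ => trivial,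
      ((RegV.const _).smul ha).add ((RegV.const _).smul hc), funext fun z => ?_⟩
    have e₂ : mev z.1 g (a z • (Pi.single i₁ 1 : ι → ℂ) + c z • (Pi.single i₂ 1 : ι → ℂ)) =
        fun _ => a z * eval z.1 (g () i₁) + c z * eval z.1 (g () i₂) := by
      rw [map_add, map_smul, map_smul, mev_g_single, mev_g_single]; rfl
    exact (act0 _ _ _).trans (e₂.trans (funext fun _ => (congrFun e₁ z).symm))
  · rintro _ ⟨v, -, rfl⟩
    change ∑ i, eval p.1 (g () i) * v i = 0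
    simp [h.zero]
  · have h1 := kc_map (IsAB.top hab.hin) (isRM_mev hΨ) hC
    rw [kc_congr (V := co e) (L' := Rv S Φ) hk'] at h1
    change (Bun.triv S _ _).kl - (Bun.triv S _ _).kl + C₂.kl = _
    rw [kl_const, kl_const, Bun.kl_eq_kc, h1, lbK_zero]
    simp [C₂]
omit hS hsm hi in
lemma g_rel {t : ι → S.pts → κ → ℂ} {r : S.pts → ℂ} {a c : ι → S.pts → ℂ}
    (F : Fr p g Φ i₁ i₂ t r a c) (z : S.pts) {i : ι} (h1 : i ≠ i₁) (h2 : i ≠ i₂) :
    r z * eval z.1 (g () i) = a i z * eval z.1 (g () i₁) + c i z * eval z.1 (g () i₂) := by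
  have := congrFun (h.cx _ z.2 (t i z)) ()
  rw [F.eq i h1 h2] at this
  simp only [map_sub, map_smul, mev_g_single, Pi.sub_apply, Pi.smul_apply, smul_eq_mul,
    Pi.zero_apply] at this
  linear_combination this
/-- exactness of the dual complex in the middle -/
lemma dual_mid {σ : S.pts → ι → ℂ} (hσ : RegV S.fn σ)
    (h0 : ∀ z : S.pts, mev z.1 Φ.transpose (σ z) = 0) :
    ∃ s ∈ S.fn, s p ≠ 0 ∧ ∃ u ∈ S.fn, ∀ z i, eval z.1 (g () i) * u z = s z * σ z i := by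
  obtain ⟨t, n, r, a, c, -, F⟩ := h.exists_fr hS hsm hi
  have hσ' := regV_pi.1 hσ
  have h1 := eq_zero_of_mul hi F.hr (fsub_mem (fmul_mem (hσ' i₁) (S.eval_mem_fn (g () i₂)))
    (fmul_mem (hσ' i₂) (S.eval_mem_fn (g () i₁)))) F.r0 fun z => by
      rw [← F.pair_one, h0]; simp
  obtain ⟨r', hr', u, hu, h2, e₂, e₁⟩ := h.gen.koszul hS hsm hi (h.g_mem i₁) (h.g_mem i₂)
    (h.zero i₁) (h.zero i₂) (hσ' i₂) (hσ' i₁) (funext fun z => (sub_eq_zero.1 (h1 z)).symm)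
  refine ⟨r * r', mul_mem F.hr hr', mul_ne_zero F.r0 h2, r * u, mul_mem F.hr hu, fun z i => ?_⟩
  have k1 : r' z * σ z i₁ = u z * eval z.1 (g () i₁) := congrFun e₁ z
  have k2 : r' z * σ z i₂ = u z * eval z.1 (g () i₂) := congrFun e₂ z
  simp only [Pi.mul_apply]
  by_cases j1 : i = i₁
  · rw [j1]; linear_combination -r z * k1
  by_cases j2 : i = i₂
  · rw [j2]; linear_combination -r z * k2
  have k3 := F.pair_other z (σ z) j1 j2
  have k4 := h.g_rel F z j1 j2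
  simp only [h0, Pi.zero_apply, zero_mul, Finset.sum_const_zero] at k3
  linear_combination u z * k4 + r' z * k3 - a i z * k1 - c i z * k2
/-- the image of `Φᵀ` near `p` -/
lemma dual_top {t : ι → S.pts → κ → ℂ} {r : S.pts → ℂ} {a c : ι → S.pts → ℂ}
    (F : Fr p g Φ i₁ i₂ t r a c) {σ : S.pts → κ → ℂ} (hσ : RegV S.fn σ)
    (hP : ∀ z : S.pts, σ z ∈ perp (Rv S Φ z.1)) {m : ℤ} (hm : pr σ (t i₁) ∈ Fn S b m)
    (h0 : pr σ (t i₁) p = 0) : ∃ s ∈ S.fn, s p ≠ 0 ∧ ∃ τ : S.pts → ι → ℂ, RegV S.fn τ ∧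
      ∀ z, mev z.1 Φ.transpose (τ z) = s z • σ z := by
  obtain ⟨s, hs, α, hα, β, hβ, h1, e₁⟩ := h.gen _ _ hm h0
  let τ : S.pts → ι → ℂ := fun z i => if i = i₁ then r z * β z else if i = i₂ then -(r z * α z)
    else r z * s z * pr σ (t i) z + a i z * β z - c i z * α z
  have hτ : RegV S.fn τ := regV_pi.2 fun i => by
    by_cases j1 : i = i₁
    · simpa only [τ, if_pos j1] using fmul_mem F.hr hβ
    by_cases j2 : i = i₂
    · simp only [τ, if_neg j1, if_pos j2]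
      exact neg_mem (fmul_mem F.hr hα)
    · simpa only [τ, if_neg j1, if_neg j2] using fsub_mem (fadd_mem (fmul_mem (fmul_mem F.hr hs)
        (pr_mem hσ (F.ht i))) (fmul_mem (F.hac i).1 hβ)) (fmul_mem (F.hac i).2 hα)
  have hs' : r * r * s ∈ S.fn := mul_mem (mul_mem F.hr F.hr) hs
  let ω : S.pts → κ → ℂ := fun z => mev z.1 Φ.transpose (τ z) - (r * r * s) z • σ z
  have hω : RegV S.fn ω := (regV_mev _ hτ).sub (hσ.smul hs')
  have k0 : ∀ z (v : κ → ℂ), ∑ k, ω z k * v k =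
      ∑ k, mev z.1 Φ.transpose (τ z) k * v k - r z * r z * s z * ∑ k, σ z k * v k := fun z v => by
    simp only [ω, Pi.sub_apply, Pi.smul_apply, Pi.mul_apply, smul_eq_mul, sub_mul,
      Finset.sum_sub_distrib, Finset.mul_sum, mul_assoc]
  have k1 : ∀ z, ∀ i ∈ Finset.univ.erase i₂, ∑ k, ω z k * t i z k = 0 := fun z i hi => by
    have j2 := Finset.ne_of_mem_erase hi
    have k2 : s z * pr σ (t i₁) z = α z * eval z.1 (g () i₁) + β z * eval z.1 (g () i₂) :=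
      congrFun e₁ z
    rw [k0]
    by_cases j1 : i = i₁
    · rw [j1, F.pair_one]
      simp only [τ, if_pos, if_neg h.ne.symm, pr] at k2 ⊢
      linear_combination -(r z * r z) * k2
    · rw [F.pair_other z _ j1 j2]
      simp only [τ, if_pos, if_neg h.ne.symm, if_neg j1, if_neg j2, pr]
      ring
  refine ⟨_, hs', mul_ne_zero (mul_ne_zero F.r0 F.r0) h1, τ, hτ, fun z => ?_⟩
  refine sub_eq_zero.1 (funext fun k => ?_)
  obtain ⟨s', hs'', h2, ρ, hρ, l, e₂⟩ := h.decomp hS hsm hi F (Pi.single k 1)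
  refine eq_zero_of_mul hi hs'' (regV_pi.1 hω k) h2 (fun y => ?_) z
  have k3 : ∑ j, ω y j * ρ y j = 0 := by
    rw [k0, ← pair_mev, hρ.2, hP y _ (mem_Rv.2 ⟨ρ, hρ, rfl⟩)]; simp
  have k4 := congrArg (fun v : κ → ℂ => ∑ j, ω y j * v j) (e₂ y)
  simp only [Pi.smul_apply, Pi.add_apply, smul_eq_mul, mul_add, Finset.sum_add_distrib, k3,
    mul_left_comm (ω y _), ← Finset.mul_sum, pair_single, Finset.sum_apply, zero_add] at k4
  rw [k4]
  simp only [Finset.mul_sum]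
  rw [Finset.sum_comm]
  refine Finset.sum_eq_zero fun i hi => ?_
  simp only [mul_left_comm (ω y _), ← Finset.mul_sum, k1 y i hi, mul_zero]
lemma t_notMem {t : ι → S.pts → κ → ℂ} {r : S.pts → ℂ} {a c : ι → S.pts → ℂ}
    (F : Fr p g Φ i₁ i₂ t r a c) : t i₁ p ∉ Rv S Φ p.1 := fun ht => by
  have h12 : i₁ ∈ Finset.univ.erase i₂ := by simp [h.ne]
  have h0 : Submodule.span ℂ ((fun i => t i p) '' (Finset.univ.erase i₂ : Finset ι)) ≤
      Rv S Φ p.1 ⊔ Submodule.span ℂ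
        ((fun i => t i p) '' ((Finset.univ.erase i₂).erase i₁ : Finset ι)) := by
    refine Submodule.span_le.2 ?_
    rintro _ ⟨i, hi, rfl⟩
    by_cases j : i = i₁
    · exact Submodule.mem_sup_left (j ▸ ht)
    · exact Submodule.mem_sup_right (Submodule.subset_span
        ⟨i, Finset.mem_coe.2 (Finset.mem_erase.2 ⟨j, hi⟩), rfl⟩)
  have h1 := card_le_of_top (Rv S Φ p.1) ((Finset.univ.erase i₂).erase i₁) (fun i => t i p)
    fun v => sup_le le_sup_left h0 (h.mem_sup_span hS hsm hi F v)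
  have h2 := h.finrank_Rv hS hsm hi p.2
  have h3 := Finset.card_erase_add_one h12
  have h4 := Finset.card_erase_add_one (Finset.mem_univ i₂)
  rw [Finset.card_univ] at h4
  omega
/-- the dual complex `O → O(d)^ι → perp Rv` with `gᵀ`, `Φᵀ`, `ε = ⟨·, t i₁ p⟩` -/
theorem exists_dual : ∃ ρ' : PtRes S b p,
    ρ'.cls = K.dual S (1 - Fintype.card ι • lbK S (-(d • eB b)) +
      (kc S (co e) (fun _ => ⊤) - kc S (co e) (Rv S Φ))) := by
  have hab := h.isAB_Rv hS hsm hi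
  obtain ⟨t, n, r, a, c, ht, F⟩ := h.exists_fr hS hsm hi
  let A : Bun S :=
    { ι := κ, deg := e, hdeg := fun k => (h.he k).1, L := Rv S Φ
      eqv := isEqv_iff.2 hab.eqv, alg := isAlg_iff.2 hab.alg }
  have hker : ∀ z, perp (LinearMap.range (mev z Φ)) = LinearMap.ker (mev z Φ.transpose) :=
    fun z => by rw [← Submodule.map_top, perp_map, perp_top]; rfl
  have hg : ∀ z (u : Unit → ℂ) i, mev z g.transpose u i = eval z (g () i) * u () :=
    fun z u i => by simp [mev_apply]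
  refine ⟨
    { C₂ := Bun.triv S (fun _ : Unit => 0) fun _ => zero_mem _
      C₁ := Bun.triv S (fun _ : ι => d • eB b) fun _ => zsmul_eB_mem hS d
      C₀ := A.ann
      f := g.transpose
      g := Φ.transpose
      ε := dotProductBilin ℂ ℂ (t i₁ p)
      hf := fun i u => (h.hg u i).cast (by simp [Bun.triv])
      hg := fun k i => (h.hΦ i k).cast (by simp only [Bun.triv, Bun.ann, A]; abel)
      w₂ := fun _ => rfl
      w₁ := fun _ => by simp [Bun.triv, eB]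
      w₀ := fun k => by simp [Bun.ann, A, (h.he k).2]
      cx := fun z hz => ⟨?_, ?_⟩
      off := fun z hz ho => ⟨?_, ?_⟩
      rk := fun z hz => ?_
      inj := fun τ _ hreg h0 => ?_
      mid := fun j σ hσ hP => ?_
      top := fun j σ hσ hP => ?_
      eps := ?_
      ne := ?_ }, ?_⟩
  · refine le_inf le_top ((Submodule.map_top _).le.trans ?_)
    rw [← K3.perp_ker, ← hker]
    exact perp_anti (by rintro _ ⟨v, rfl⟩; exact h.cx z hz v)
  · refine (Submodule.map_top _).le.trans ?_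
    rw [← K3.perp_ker]
    exact perp_anti (Rv_le hz)
  · refine (Submodule.map_top _).trans (Eq.trans ?_ (top_inf_eq _).symm)
    rw [← K3.perp_ker, ← hker, (h.Rv_off hS hsm hi hz ho).2]
  · refine (Submodule.map_top _).trans ?_
    rw [← K3.perp_ker, ← (h.Rv_off hS hsm hi hz ho).1]
    rfl
  · have h1 := h.finrank_Rv hS hsm hi hz
    have h2 := finrank_perp (Rv S Φ z)
    change finrank ℂ (perp (Rv S Φ z)) + finrank ℂ (⊤ : Submodule ℂ (Unit → ℂ)) =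
      finrank ℂ (⊤ : Submodule ℂ (ι → ℂ))
    simp only [finrank_top, Module.finrank_fintype_fun_eq_card, Fintype.card_unique]
    omega
  · funext z u
    refine congrFun (eq_zero_of_off hS hsm hi p (regV_pi.1 hreg u) fun y hy => ?_) z
    obtain ⟨i, hi⟩ := h.off _ y.2 hy
    exact (mul_eq_zero.1 ((hg _ _ _).symm.trans ((congrFun (act0 _ τ y) i).symm.trans
      (congrFun (congrFun h0 y) i)))).resolve_left hi
  · obtain ⟨s, hs, h0, u, hu, e₁⟩ := h.dual_mid hS hsm hi (regV_of_Amb hσ) (mem_ker_act.1 hP.2)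
    refine ⟨s, hs, h0, fun z _ => u z, fun _ => trivial, regV_pi.2 fun _ => hu,
      funext fun z => funext fun i => ?_⟩
    exact (congrFun (act0 _ _ z) i).trans ((hg _ _ _).trans (e₁ z i))
  · obtain ⟨s, hs, h0, τ, hτ, e₁⟩ := h.dual_top hS hsm hi F (regV_of_Amb hσ) hP.1
      (m := j + n i₁) (by
        have : pr σ (t i₁) = ∑ k, (fun z => σ z k) * fun z => t i₁ z k := by
          funext z; simp [pr]
        rw [this]
        refine sum_mem fun k _ => ?_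
        convert mul_mem_Fn (hσ k) (ht i₁ k) using 2
        simp only [sdeg, Bun.ann, A, Finsupp.neg_apply]
        ring) ((dotProduct_comm _ _).trans hP.2)
    exact ⟨s, hs, h0, τ, fun _ => trivial, hτ, funext fun z => (act0 _ _ _).trans (e₁ z)⟩
  · rintro _ ⟨v, -, rfl⟩
    refine (dotProduct_comm _ _).trans ((F.pair_one p v).trans ?_)
    simp [h.zero]
  · by_contra hn
    push Not at hn
    refine h.t_notMem hS hsm hi F ?_
    rw [← perp_perp (Rv S Φ p.1)]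
    exact hn
  · have h1 : kc S (co e) (fun _ => ⊤) = A.amb.kl := (Bun.kl_eq_kc A.amb).symm
    have h2 : kc S (co e) (Rv S Φ) = A.kl := (Bun.kl_eq_kc A).symm
    have h3 : K.dual S A.amb.kl = A.ann.amb.kl :=
      (K.dual_kl _).trans (K3.dual_of_top fun _ _ => rfl)
    change A.ann.kl - (Bun.triv S _ _).kl + (Bun.triv S _ _).kl = _
    rw [kl_const, kl_const, h1, h2, map_add, map_sub, map_sub, h3, K.dual_kl, map_one, map_nsmul,
      K.dual_lbK, neg_neg, lbK_zero]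
    simp only [Fintype.card_unique, one_smul]
    ring
end SyzD

end Crest.Agent.N265.N
end
end

-- ▼ part N265/N/Dlt1
section

/-!
# Row 265, layer N, task N-DLT (part 1): forms that vanish at a point, `𝔪 / 𝔪²`
-/

set_option autoImplicit false
noncomputable section
open MvPolynomial Module

namespace Crest.Agent.N265.N
open Alg
variable {S : Spc} {b : ℕ}

/-- forms of degree `k` that vanish at `z`, as functions -/
def mFn (S : Spc) (b : ℕ) (k : ℤ) (z : S.pts) : Submodule ℂ (S.pts → ℂ) :=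
  Fn S b k ⊓ LinearMap.ker (LinearMap.proj z)
lemma mem_mFn {k : ℤ} {z : S.pts} {f : S.pts → ℂ} : f ∈ mFn S b k z ↔ f ∈ Fn S b k ∧ f z = 0 :=
  Iff.rfl
lemma pow_mem_Fn' {l : S.pts → ℂ} (hl : l ∈ Fn S b 1) (n : ℕ) : l ^ n ∈ Fn S b n := by
  simpa using pow_mem_Fn hl n
lemma exists_lin_one (hS : Base S b) (z : S.pts) : ∃ l ∈ Fn S b 1, l z = 1 := by
  obtain ⟨l, hl, h⟩ := exists_lin_ne hS {z}
  exact ⟨(l z)⁻¹ • l, Submodule.smul_mem _ _ hl, inv_mul_cancel₀ (h z (by simp))⟩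
lemma sub_mem_mFn {z : S.pts} {l f : S.pts → ℂ} (hl : l ∈ Fn S b 1) (h1 : l z = 1) {n : ℕ}
    (hf : f ∈ Fn S b n) : f - f z • l ^ n ∈ mFn S b n z :=
  ⟨sub_mem hf (Submodule.smul_mem _ _ (pow_mem_Fn' hl n)), by
    change f z - f z * l z ^ n = 0
    rw [h1, one_pow, mul_one, sub_self]⟩
lemma mul_mem_mFn {z : S.pts} {m n : ℤ} {g f : S.pts → ℂ} (hg : g ∈ Fn S b m) (hf : f ∈ mFn S b n z) :
    g * f ∈ mFn S b (m + n) z := ⟨mul_mem_Fn hg hf.1, mul_eq_zero_of_right _ hf.2⟩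
lemma sub_pow_mem (hS : Base S b) {z : S.pts} {l : S.pts → ℂ} (hl : l ∈ Fn S b 1) (h1 : l z = 1)
    (k : ℕ) : ∀ f ∈ Fn S b k, f - f z • l ^ k ∈ mFn S b 1 z * Fn S b (k - 1) := by
  induction k with
  | zero =>
    intro f hf
    obtain ⟨c, rfl⟩ := Fn_zero hS hf
    rw [show (fun _ => c) - c • l ^ 0 = (0 : S.pts → ℂ) from funext fun _ => by simp]
    exact zero_mem _
  | succ k ih =>
    intro f hf
    rw [Nat.cast_succ] at hf
    rw [Nat.cast_succ, add_sub_cancel_right]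
    have hf' := Fn_succ hS (Nat.cast_nonneg k) hf
    clear hf
    induction hf' using Submodule.span_induction with
    | zero => simp
    | add f g _ _ h h' => rw [Pi.add_apply, add_smul, add_sub_add_comm]; exact add_mem h h'
    | smul c f _ h =>
      rw [Pi.smul_apply, smul_assoc, ← smul_sub]; exact Submodule.smul_mem _ c h
    | mem f hf =>
      obtain ⟨g, hg, h, hh, rfl⟩ := hf
      have e : g * h - (g * h) z • l ^ (k + 1) =
          (g - g z • l ^ 1) * h + g z • (l * (h - h z • l ^ k)) := by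
        funext y; simp only [Pi.sub_apply, Pi.add_apply, Pi.mul_apply, Pi.smul_apply,
          Pi.pow_apply, smul_eq_mul]; ring
      rw [e]
      refine add_mem (Submodule.mul_mem_mul (sub_mem_mFn (n := 1) hl h1 hg) hh)
        (Submodule.smul_mem _ _ ?_)
      refine Submodule.mul_induction_on (ih h hh) (fun v hv w hw => ?_) fun v w hv hw => ?_
      · rw [mul_left_comm]
        exact Submodule.mul_mem_mul hv (by simpa using mul_mem_Fn hl hw)
      · rw [mul_add]; exact add_mem hv hw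
theorem mFn_succ (hS : Base S b) (z : S.pts) (k : ℕ) :
    mFn S b 1 z * Fn S b k = mFn S b (k + 1 : ℕ) z := by
  refine le_antisymm (Submodule.mul_le.2 fun v hv g hg => ?_) fun f hf => ?_
  · rw [mul_comm, Nat.cast_succ]; exact mul_mem_mFn hg hv
  · obtain ⟨l, hl, h1⟩ := exists_lin_one hS z
    have := sub_pow_mem hS hl h1 (k + 1) f hf.1
    rwa [(mem_mFn.1 hf).2, zero_smul, sub_zero, Nat.cast_succ, add_sub_cancel_right] at this

/-- homogeneous form of `LocGen` -/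
lemma LocGen.hom (hS : Base S b) {p : S.pts} {d m : ℤ} {x y f : S.pts → ℂ} (h : LocGen S b p x y)
    (hx : x ∈ Fn S b d) (hy : y ∈ Fn S b d) (hf : f ∈ Fn S b m) (h0 : f p = 0) :
    ∃ n : ℕ, ∃ r ∈ Fn S b n, ∃ a ∈ Fn S b (m + n + -d), ∃ c ∈ Fn S b (m + n + -d),
      r p ≠ 0 ∧ r * f = a * x + c * y := by
  obtain ⟨r, hr, a, ha, c, hc, h1, e⟩ := h m f hf h0
  let φ : (S.pts → Fin 2 → ℂ) →ₗ[ℂ] (S.pts → Unit → ℂ) :=
    { toFun := fun σ z _ => σ z 0 * x z + σ z 1 * y z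
      map_add' := fun σ τ => by funext z u; simp only [Pi.add_apply]; ring
      map_smul' := fun t σ => by
        funext z u; simp only [Pi.smul_apply, smul_eq_mul, RingHom.id_apply]; ring }
  have G : GSub S b (fun _ : Unit => 0) fun j => (Amb S b (fun _ : Fin 2 => -d) j).map φ :=
    gsub_Amb.map φ (fun g σ => by
      funext z u
      change g z * σ z 0 * x z + g z * σ z 1 * y z = g z * (σ z 0 * x z + σ z 1 * y z)
      ring) fun j σ hσ _ => by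
      have := add_mem (mul_mem_Fn (hσ 0) hx) (mul_mem_Fn (hσ 1) hy)
      rw [neg_add_cancel_right] at this
      rw [add_zero]; exact this
  obtain ⟨n, g, hg, h2, τ, hτ, e'⟩ := G.exists_hom hS (j := m) (σ := fun z _ => f z)
    (fun _ => by rw [add_zero]; exact hf) hr h1 (by
      rw [← Submodule.map_iSup]
      refine ⟨fun z => ![a z, c z], D0.reg_mem_iSup hS _ (regV_pi.2 fun i => ?_),
        funext fun z => funext fun _ => (congrFun e z).symm⟩
      fin_cases i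
      exacts [ha, hc])
  obtain ⟨n, rfl⟩ : ∃ n' : ℕ, n = n' := Int.eq_ofNat_of_zero_le (not_lt.1 fun hn => h2 (by
    rw [Fn_neg hn] at hg
    rw [(Submodule.mem_bot ℂ).1 hg]; rfl))
  exact ⟨n, g, hg, _, hτ 0, _, hτ 1, h2, funext fun z => (congrFun (congrFun e' z) ()).symm⟩

/-- `𝔪 / 𝔪²` in high degree has the basis `l^k x`, `l^k y` -/
theorem exists_two_fn (hS : Base S b) (hsm : S.Sm 3) (hi : S.Irred) (z : S.pts) :
    ∃ k₀ : ℕ, ∀ k ≥ k₀,
      finrank ℂ (mFn S b 1 z * mFn S b k z : Submodule ℂ _) + 2 = finrank ℂ (mFn S b (k + 1 : ℕ) z) := by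
  classical
  obtain ⟨x, hx, y, hy, hx0, hy0, -, hg⟩ := exists_locGen hS hsm z le_rfl
  obtain ⟨l, hl, h1⟩ := exists_lin_one hS z
  let φ : ℕ → ℂ × ℂ →ₗ[ℂ] (S.pts → ℂ) := fun k =>
    (LinearMap.toSpanSingleton ℂ _ (l ^ k * x)).coprod (LinearMap.toSpanSingleton ℂ _ (l ^ k * y))
  have hφ : ∀ k α β, φ k (α, β) = α • (l ^ k * x) + β • (l ^ k * y) := fun _ _ _ => rfl
  have key : ∀ v ∈ mFn S b 1 z, ∃ n : ℕ, ∀ k ≥ n,
      l ^ k * v ∈ (⊤ : Submodule ℂ _).map (φ k) ⊔ mFn S b 1 z * mFn S b k z := fun v hv => by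
    obtain ⟨n, r, hr, a, ha, c, hc, h0, e⟩ := hg.hom hS hx hy hv.1 hv.2
    rw [show 1 + (n : ℤ) + -1 = n by ring] at ha hc
    refine ⟨n, fun k hk => ?_⟩
    obtain ⟨m, rfl⟩ := Nat.exists_eq_add_of_le' hk
    have hm : ∀ g ∈ Fn S b n, l ^ m * (g - g z • l ^ n) ∈ mFn S b (m + n : ℕ) z := fun g hg => by
      rw [Nat.cast_add]; exact mul_mem_mFn (pow_mem_Fn' hl m) (sub_mem_mFn hl h1 hg)
    rw [← Submodule.smul_mem_iff _ h0, show r z • (l ^ (m + n) * v) = φ (m + n) (a z, c z) +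
      (x * (l ^ m * (a - a z • l ^ n)) + y * (l ^ m * (c - c z • l ^ n)) -
        v * (l ^ m * (r - r z • l ^ n))) from funext fun w => by
      have := congrFun e w
      simp only [hφ, Pi.sub_apply, Pi.add_apply, Pi.mul_apply, Pi.smul_apply, Pi.pow_apply,
        smul_eq_mul] at this ⊢
      linear_combination l w ^ m * this]
    exact Submodule.add_mem_sup ⟨_, trivial, rfl⟩ (sub_mem (add_mem
      (Submodule.mul_mem_mul ⟨hx, hx0⟩ (hm a ha)) (Submodule.mul_mem_mul ⟨hy, hy0⟩ (hm c hc)))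
      (Submodule.mul_mem_mul hv (hm r hr)))
  have fd : ∀ k, FiniteDimensional ℂ (mFn S b k z) := fun k =>
    Submodule.finiteDimensional_of_le inf_le_left
  obtain ⟨s, hs⟩ := Module.Finite.iff_fg.1 (fd 1)
  choose! n hn using key
  refine ⟨s.sup n, fun k hk => ?_⟩
  have hle : mFn S b 1 z * mFn S b k z ≤ mFn S b (k + 1 : ℕ) z :=
    (mul_le_mul_right (inf_le_left : mFn S b k z ≤ _) _).trans (mFn_succ hS z k).le
  have e1 : (⊤ : Submodule ℂ _).map (φ k) ⊔ mFn S b 1 z * mFn S b k z = mFn S b (k + 1 : ℕ) z := by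
    refine le_antisymm (sup_le ?_ hle) ((mFn_succ hS z k).ge.trans
      (Submodule.mul_le.2 fun v hv g hg => ?_))
    · rintro _ ⟨⟨α, β⟩, -, rfl⟩
      rw [hφ, Nat.cast_succ]
      exact add_mem (Submodule.smul_mem _ _ (mul_mem_mFn (pow_mem_Fn' hl k) ⟨hx, hx0⟩))
        (Submodule.smul_mem _ _ (mul_mem_mFn (pow_mem_Fn' hl k) ⟨hy, hy0⟩))
    · have h2 : mFn S b 1 z ≤ Submodule.comap (LinearMap.mulLeft ℂ (l ^ k))
          ((⊤ : Submodule ℂ _).map (φ k) ⊔ mFn S b 1 z * mFn S b k z) :=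
        hs.ge.trans (Submodule.span_le.2 fun w hw =>
          hn w (hs.le (Submodule.subset_span hw)) k ((Finset.le_sup hw).trans hk))
      rw [show v * g = g z • (l ^ k * v) + v * (g - g z • l ^ k) by
        rw [mul_sub, mul_smul_comm, mul_comm v (l ^ k), add_sub_cancel]]
      exact add_mem (Submodule.smul_mem _ _ (h2 hv))
        (Submodule.mem_sup_right (Submodule.mul_mem_mul hv (sub_mem_mFn hl h1 hg)))
  have loc : ∀ w ∈ mFn S b 1 z * mFn S b k z, ∃ r ∈ S.fn, ∃ a ∈ S.fn, ∃ c ∈ S.fn,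
      r z ≠ 0 ∧ a z = 0 ∧ c z = 0 ∧ r * w = a * x + c * y := fun w hw => by
    refine Submodule.mul_induction_on hw (fun v hv g hg' => ?_) ?_
    · obtain ⟨r, hr, a, ha, c, hc, h0, e⟩ := hg 1 v hv.1 hv.2
      exact ⟨r, hr, a * g, mul_mem ha (Fn_le hg'.1), c * g, mul_mem hc (Fn_le hg'.1), h0,
        mul_eq_zero_of_right _ hg'.2, mul_eq_zero_of_right _ hg'.2, by linear_combination g * e⟩
    · rintro w w' ⟨r, hr, a, ha, c, hc, h0, ha0, hc0, e⟩ ⟨r', hr', a', ha', c', hc', h0', ha0', hc0', e'⟩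
      exact ⟨r * r', mul_mem hr hr', r' * a + r * a', add_mem (mul_mem hr' ha) (mul_mem hr ha'),
        r' * c + r * c', add_mem (mul_mem hr' hc) (mul_mem hr hc'), mul_ne_zero h0 h0',
        by simp [ha0, ha0'], by simp [hc0, hc0'], by linear_combination r' * e + r * e'⟩
  have e2 : ⊤ ⊓ (mFn S b 1 z * mFn S b k z).comap (φ k) = ⊥ := eq_bot_iff.2 fun ⟨α, β⟩ hw => by
    obtain ⟨r, hr, a, ha, c, hc, h0, ha0, hc0, e⟩ := loc _ hw.2
    have hk' := Fn_le (pow_mem_Fn' hl k)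
    obtain ⟨t, -, u, -, ht, e₁, e₂⟩ := hg.koszul hS hsm hi hx hy hx0 hy0
      (a := α • (r * l ^ k) - a) (c := c - β • (r * l ^ k))
      (sub_mem (Subalgebra.smul_mem _ (mul_mem hr hk') α) ha)
      (sub_mem hc (Subalgebra.smul_mem _ (mul_mem hr hk') β)) (funext fun w => by
        have := congrFun e w
        simp only [hφ, Pi.sub_apply, Pi.add_apply, Pi.mul_apply, Pi.smul_apply, Pi.pow_apply,
          smul_eq_mul] at this ⊢
        linear_combination this)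
    have e₃ := congrFun e₁ z
    have e₄ := congrFun e₂ z
    simp [hx0, hy0, ha0, hc0, h1, ht, h0] at e₃ e₄
    simp [e₃, e₄]
  have : FiniteDimensional ℂ (mFn S b 1 z * mFn S b k z : Submodule ℂ _) :=
    Submodule.finiteDimensional_of_le hle
  have h3 := Submodule.finrank_sup_add_finrank_inf_eq ((⊤ : Submodule ℂ _).map (φ k))
    (mFn S b 1 z * mFn S b k z)
  have h4 : (⊤ : Submodule ℂ _).map (φ k) ⊓ (mFn S b 1 z * mFn S b k z) = ⊥ :=
    eq_bot_iff.2 fun _ ⟨⟨t, _, e⟩, hw⟩ => by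
      have : t = 0 := e2.le ⟨trivial, Submodule.mem_comap.2 (e ▸ hw)⟩
      rw [← e, this, map_zero]
      exact zero_mem _
  have h5 : Function.Injective (φ k) := (injective_iff_map_eq_zero _).2 fun t ht =>
    e2.le ⟨trivial, Submodule.mem_comap.2 (ht ▸ zero_mem _)⟩
  rw [e1, h4, finrank_bot, Submodule.map_top, LinearMap.finrank_range_of_inj h5] at h3
  simp only [finrank_prod, finrank_self] at h3
  omega

/-! ### linear algebra -/
namespace DL
open TensorProduct _root_.Crest.Agent.N265.Pow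
variable {A M : Type} [AddCommGroup A] [Module ℂ A] [AddCommGroup M] [Module ℂ M]
lemma exists_basis_sub [FiniteDimensional ℂ M] (P : Submodule ℂ M) :
    ∃ n, Nonempty (Basis (Fin n) ℂ P) := ⟨_, ⟨finBasis ℂ P⟩⟩
lemma exists_basis (M : Type) [AddCommGroup M] [Module ℂ M] [FiniteDimensional ℂ M] :
    ∃ n, Nonempty (Basis (Fin n) ℂ M) := ⟨_, ⟨finBasis ℂ M⟩⟩
lemma exists_basis_pair [FiniteDimensional ℂ M] (P : Submodule ℂ M) {x y : P}
    (h : LinearIndependent ℂ ![x, y]) : ∃ (n : ℕ) (β : Basis (Fin n) ℂ P) (i j : Fin n),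
      i ≠ j ∧ β i = x ∧ β j = y := by
  let β := Basis.extend h.linearIndepOn_id
  have := FiniteDimensional.fintypeBasisIndex β
  have hx := Basis.subset_extend h.linearIndepOn_id ⟨0, rfl⟩
  have hy := Basis.subset_extend h.linearIndepOn_id ⟨1, rfl⟩
  refine ⟨_, β.reindex (Fintype.equivFin _), Fintype.equivFin _ ⟨_, hx⟩, Fintype.equivFin _ ⟨_, hy⟩,
    fun e => ?_, by simp [β], by simp [β]⟩
  exact zero_ne_one (h.injective (congrArg Subtype.val ((Fintype.equivFin _).injective e)))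
lemma exists_proj (P : Submodule ℂ M) : ∃ e : M →ₗ[ℂ] M, (∀ v, e v ∈ P) ∧ ∀ v ∈ P, e v = v := by
  obtain ⟨π, h⟩ := (LinearMap.id : P →ₗ[ℂ] P).exists_extend
  exact ⟨P.subtype ∘ₗ π, fun v => (π v).2, fun v hv =>
    congrArg Subtype.val (LinearMap.congr_fun h ⟨v, hv⟩)⟩
lemma exists_coord {ι : Type} [Fintype ι] {P : Submodule ℂ M} (β : Basis ι ℂ P) :
    ∃ c : M →ₗ[ℂ] (ι → ℂ), (∀ v ∈ P, ∑ i, c v i • (β i).1 = v) ∧
      ∀ a : ι → ℂ, c (∑ i, a i • (β i).1) = a := by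
  obtain ⟨c, h⟩ := β.equivFun.toLinearMap.exists_extend
  have h' : ∀ v : P, c v.1 = β.equivFun v := LinearMap.congr_fun h
  refine ⟨c, fun v hv => ?_, fun a => ?_⟩
  · have := congrArg P.subtype (β.sum_equivFun ⟨v, hv⟩)
    rw [h' ⟨v, hv⟩]
    simpa only [map_sum, map_smul, Submodule.subtype_apply] using this
  · have := h' (β.equivFun.symm a)
    rw [LinearEquiv.apply_symm_apply, Basis.equivFun_symm_apply] at this
    simpa only [AddSubmonoidClass.coe_finsetSum, Submodule.coe_smul] using this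
/-- `l ⊗ l' ⊗ f ↦ (ε l • l' - ε l' • l) ⊗ e f` -/
def kz (e : M →ₗ[ℂ] M) (ε : A →ₗ[ℂ] ℂ) : A ⊗[ℂ] (A ⊗[ℂ] M) →ₗ[ℂ] A ⊗[ℂ] M :=
  e.lTensor A ∘ₗ ((TensorProduct.lid ℂ _).toLinearMap ∘ₗ ε.rTensor _ -
    ((TensorProduct.lid ℂ M).toLinearMap ∘ₗ ε.rTensor M).lTensor A)
variable {e : M →ₗ[ℂ] M} {ε : A →ₗ[ℂ] ℂ} {Q : Submodule ℂ M}
lemma kz_tmul (l l' : A) (f : M) :
    kz e ε (l ⊗ₜ (l' ⊗ₜ f)) = ε l • (l' ⊗ₜ e f) - ε l' • (l ⊗ₜ e f) := by simp [kz]
lemma kz_ind {P : A ⊗[ℂ] (A ⊗[ℂ] M) → Prop} (h0 : P 0) (ha : ∀ s t, P s → P t → P (s + t))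
    (h : ∀ l l' f, P (l ⊗ₜ (l' ⊗ₜ f))) (w : A ⊗[ℂ] (A ⊗[ℂ] M)) : P w := by
  induction w using TensorProduct.induction_on with
  | zero => exact h0
  | add s t hs ht => exact ha s t hs ht
  | tmul l t =>
    induction t using TensorProduct.induction_on with
    | zero => rwa [tmul_zero]
    | add s t hs ht => rw [tmul_add]; exact ha _ _ hs ht
    | tmul l' f => exact h l l' f
lemma kz_mem (he : ∀ f, e f ∈ Q) (w : A ⊗[ℂ] (A ⊗[ℂ] M)) :
    kz e ε w ∈ tens (LinearMap.ker ε) Q := by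
  induction w using kz_ind with
  | h0 => rw [map_zero]; exact zero_mem _
  | ha s t hs ht => rw [map_add]; exact add_mem hs ht
  | h l l' f =>
    rw [kz_tmul, smul_tmul', smul_tmul', ← sub_tmul]
    exact tmul_mem (by simp [mul_comm]) (he f)
lemma kz_id (he : ∀ f ∈ Q, e f = f) (l : A) {t : A ⊗[ℂ] M} (ht : t ∈ tens (LinearMap.ker ε) Q) :
    kz e ε (l ⊗ₜ t) = ε l • t :=
  tens_eqOn (f := kz e ε ∘ₗ TensorProduct.mk ℂ _ _ l) (g := LinearMap.lsmul ℂ _ (ε l))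
    (fun v hv f hf => by simp [kz_tmul, he f hf, LinearMap.mem_ker.1 hv]) ht
lemma kz_smul (c : ℂ) (w : A ⊗[ℂ] (A ⊗[ℂ] M)) : kz e (c • ε) w = c • kz e ε w := by
  induction w using kz_ind with
  | h0 => simp
  | ha s t hs ht => rw [map_add, map_add, hs, ht, smul_add]
  | h l l' f => simp [kz_tmul, smul_sub, mul_smul]
lemma regM_kz {T : Type} {𝒜 : Subalgebra ℂ (T → ℂ)} {ε : T → A →ₗ[ℂ] ℂ} (h : RegM 𝒜 ε) :
    RegM 𝒜 fun x => kz e (ε x) := fun w => by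
  induction w using kz_ind with
  | h0 => simpa using RegV.zero
  | ha s t hs ht => simpa only [map_add] using hs.add ht
  | h l l' f =>
    simpa only [kz_tmul] using ((RegV.const _).smul (regV_scalar.1 (h l))).sub
      ((RegV.const _).smul (regV_scalar.1 (h l')))
lemma isAB_unshift {X : Spc} {V : GV} {d : D} {L : Pt → Submodule ℂ V.V}
    (h : IsAB X (V.shift d) L) (hV : V.In X.B) : IsAB X V L :=
  ⟨hV, h.alg, fun x hx => (Submodule.map_smul _ _ _ (chi_ne d)).symm.trans (h.eqv x hx)⟩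
end DL

end Crest.Agent.N265.N
end
end

-- ▼ part N265/N/Val
section

/-!
# Row 265, layer N, task N-VAL: sections of `O(m)` on the surface `Sg` as functions on the cone
-/

set_option autoImplicit false
noncomputable section
open MvPolynomial Module

namespace Crest.Agent.N265.N
open Crest.Agent.R274.SkDefs_474 Crest.Agent.R274.SnapB_99 Br
variable (Sg : Surf) (b : ℕ)

theorem base_S : Base (Sg.S b) b :=
  ⟨rfl, Sg.S_ttriv b, fun z hz => ((Sg.S_sm b z hz).2).le⟩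
/-- `H⁰(O(m))` inside the function field -/
abbrev SA (m : ℕ) : Submodule ℂ Sg.F := Sec Sg.V.T (m • Sg.V.h)
theorem exists_evS (m : ℕ) : ∃ ev : SA Sg m →ₗ[ℂ] ((Sg.S b).pts → ℂ), ∀ (f : SA Sg m) (r : R),
    Hmg (m • eB b) r → aeval (Sg.T b) r = f.1 → ∀ z, ev f z = eval z.1 r := by
  choose ρ h1 _ h2 using fun f : SA Sg m => Sg.exists_hmg b f.2
  have key : ∀ (f : SA Sg m) (r : R), Hmg (m • eB b) r → aeval (Sg.T b) r = f.1 →
      ∀ z : (Sg.S b).pts, eval z.1 (ρ f) = eval z.1 r := fun f r hr e z => by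
    have := (Sg.mem_I_hmg ((h1 f).sub hr)).2 (by rw [map_sub, h2, e, sub_self]) z.1 z.2
    rwa [map_sub, sub_eq_zero] at this
  refine ⟨{ toFun := fun f z => eval z.1 (ρ f), map_add' := fun f g => funext fun z => ?_
            map_smul' := fun c f => funext fun z => ?_ }, key⟩
  · rw [key (f + g) _ ((h1 f).add (h1 g)) (by rw [map_add, h2, h2]; rfl), map_add]; rfl
  · rw [key (c • f) (C c * ρ f) (by simpa using (Hmg.C c).mul (h1 f))
      (by rw [map_mul, h2, aeval_C, ← Algebra.smul_def]; rfl), map_mul, eval_C]; rfl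
/-- the value of a section at the points of the cone -/
def evS (m : ℕ) : SA Sg m →ₗ[ℂ] ((Sg.S b).pts → ℂ) := (exists_evS Sg b m).choose
theorem evS_spec {m : ℕ} (f : SA Sg m) {r : R} (hr : Hmg (m • eB b) r)
    (e : aeval (Sg.T b) r = f.1) (z : (Sg.S b).pts) : evS Sg b m f z = eval z.1 r :=
  (exists_evS Sg b m).choose_spec f r hr e z
theorem isSecM_evS (m : ℕ) : IsSecM (Sg.S b) b m (evS Sg b m) := by
  refine ⟨(injective_iff_map_eq_zero _).2 fun f hf => ?_, le_antisymm ?_ ?_⟩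
  · obtain ⟨r, hr, -, e⟩ := Sg.exists_hmg b f.2
    refine Subtype.ext (e.symm.trans ((Sg.mem_I_hmg hr).1 fun z hz => ?_))
    exact (evS_spec Sg b f hr e ⟨z, hz⟩).symm.trans (congrFun hf _)
  · rintro _ ⟨f, rfl⟩
    obtain ⟨r, hr, -, e⟩ := Sg.exists_hmg b f.2
    exact ⟨r, by rwa [natCast_zsmul], evS_spec Sg b f hr e⟩
  · intro f hf
    obtain ⟨r, hr, e⟩ := mem_Fn.1 hf
    rw [natCast_zsmul] at hr
    refine ⟨⟨_, Sg.aeval_mem b hr⟩, _root_.funext fun z => ?_⟩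
    rw [e z]
    exact evS_spec Sg b _ hr rfl z
instance (m : ℕ) : FiniteDimensional ℂ (SA Sg m) :=
  have : FiniteDimensional ℂ (LinearMap.range (evS Sg 0 m)) := by
    rw [(isSecM_evS Sg 0 m).range]; infer_instance
  (LinearEquiv.ofInjective _ (isSecM_evS Sg 0 m).inj).symm.finiteDimensional
theorem SA_mul {m n : ℕ} {f g : Sg.F} (hf : f ∈ SA Sg m) (hg : g ∈ SA Sg n) :
    f * g ∈ SA Sg (m + n) := by
  obtain ⟨p, hp, rfl⟩ := (Sg.gen m f).1 hf
  obtain ⟨q, hq, rfl⟩ := (Sg.gen n g).1 hg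
  exact (Sg.gen _ _).2 ⟨p * q, hp.mul hq, map_mul _ _ _⟩
theorem one_mem_SA : (1 : Sg.F) ∈ SA Sg 0 :=
  (Sg.gen 0 1).2 ⟨1, isHomogeneous_one _ _, map_one _⟩
theorem SA_succ (m : ℕ) : SA Sg (m + 1) = SA Sg 1 * SA Sg m := by
  refine le_antisymm (fun f hf => ?_)
    (Submodule.mul_le.2 fun f hf g hg => add_comm 1 m ▸ SA_mul Sg hf hg)
  obtain ⟨p, hp, rfl⟩ := (Sg.gen _ f).1 hf
  have h1 : aeval Sg.t ((m + 1) • p) ∈ SA Sg 1 * SA Sg m := by
    rw [← hp.sum_X_mul_pderiv, map_sum]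
    refine sum_mem fun i _ => ?_
    rw [map_mul]
    exact Submodule.mul_mem_mul ((Sg.gen _ _).2 ⟨_, isHomogeneous_X _ _, rfl⟩)
      ((Sg.gen _ _).2 ⟨_, hp.pderiv, rfl⟩)
  rw [map_nsmul, ← Nat.cast_smul_eq_nsmul ℂ] at h1
  exact (Submodule.smul_mem_iff _ (Nat.cast_ne_zero.2 m.succ_ne_zero)).1 h1
theorem evS_mul {m n k : ℕ} (f : SA Sg m) (g : SA Sg n) (h : SA Sg k) (hk : k = m + n)
    (e : h.1 = f.1 * g.1) : evS Sg b k h = evS Sg b m f * evS Sg b n g := by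
  subst hk
  obtain ⟨r, hr, -, e1⟩ := Sg.exists_hmg b f.2
  obtain ⟨s, hs, -, e2⟩ := Sg.exists_hmg b g.2
  funext z
  rw [Pi.mul_apply, evS_spec Sg b f hr e1, evS_spec Sg b g hs e2, ← map_mul]
  exact evS_spec Sg b h (add_smul m n (eB b) ▸ hr.mul hs) (by rw [map_mul, e1, e2, e]) z
/-- evaluation at a point, extended by zero outside the cone -/
def evP (m : ℕ) (z : Pt) : SA Sg m →ₗ[ℂ] ℂ := by
  classical exact if h : z ∈ (Sg.S b).pts then LinearMap.proj ⟨z, h⟩ ∘ₗ evS Sg b m else 0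
theorem evP_eq (m : ℕ) (z : (Sg.S b).pts) :
    evP Sg b m z.1 = LinearMap.proj z ∘ₗ evS Sg b m := by simp [evP, z.2]
/-- evaluation is a map `H⁰(O(m)) ⊗ O → O(m)` -/
theorem isRM_evP (m : ℕ) :
    IsRM (Sg.S b) (GV.triv (SA Sg m)) (GV.line (m • eB b)) (evP Sg b m) := by
  refine IsRM.mk' (fun f => ?_) fun x hx f => ?_
  · obtain ⟨r, hr, -, e⟩ := Sg.exists_hmg b f.2
    refine Alg.regV_scalar.2 ⟨r, fun z => ?_⟩
    exact (LinearMap.congr_fun (evP_eq Sg b m z) f).trans (evS_spec Sg b f hr e z)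
  · obtain ⟨r, hr, -, e⟩ := Sg.exists_hmg b f.2
    rw [evP_eq Sg b m ⟨x, hx⟩, evP_eq Sg b m ⟨_, (Sg.S b).inv x hx⟩]
    refine (evS_spec Sg b f hr e _).trans ((hr.eval_gpt x).trans ?_)
    exact congrArg (chi _ * ·) (evS_spec Sg b f hr e ⟨x, hx⟩).symm
theorem evP_surj (m : ℕ) {z : Pt} (hz : z ∈ (Sg.S b).pts) : Function.Surjective (evP Sg b m z) := by
  obtain ⟨v, hv, h0⟩ := (Sg.S b).rel z hz b (Finset.mem_singleton_self b)
  have hr : Hmg (m • eB b) (X v ^ m) := vdeg_eq ⟨hv, Sg.S_ttriv b z hz v h0⟩ ▸ (Hmg.X v).pow m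
  have e : evP Sg b m z ⟨_, Sg.aeval_mem b hr⟩ = z v ^ m := by
    rw [evP_eq Sg b m ⟨z, hz⟩]
    exact (evS_spec Sg b _ hr rfl _).trans (by simp)
  intro c
  refine ⟨(c / z v ^ m) • ⟨_, Sg.aeval_mem b hr⟩, ?_⟩
  rw [map_smul, e, smul_eq_mul, div_mul_cancel₀ _ (pow_ne_zero _ h0)]

end Crest.Agent.N265.N
end
end

-- ▼ part N265/N/Dlt

/-!
# Row 265, layer N, task N-DLT: the class of a point of `Sg.S b` through `𝒱 ⊗ 𝔪_k → 𝔪_(k+1) → O`
-/

set_option autoImplicit false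
noncomputable section
open MvPolynomial Module TensorProduct

namespace Crest.Agent.N265.N
open Alg GV Br _root_.Crest.Agent.N265.Pow
variable (Sg : Surf) (b : ℕ)

/-- forms of degree `k` that vanish at `z` -/
def mP (k : ℕ) (z : Pt) : Submodule ℂ (SA Sg k) := LinearMap.ker (evP Sg b k z)
/-- multiplication of sections -/
def mulA (m n : ℕ) : SA Sg m →ₗ[ℂ] SA Sg n →ₗ[ℂ] SA Sg (n + m) :=
  LinearMap.mk₂ ℂ (fun f g => ⟨f.1 * g.1, by rw [add_comm]; exact SA_mul Sg f.2 g.2⟩)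
    (fun _ _ _ => Subtype.ext (add_mul _ _ _)) (fun _ _ _ => Subtype.ext (smul_mul_assoc _ _ _))
    (fun _ _ _ => Subtype.ext (mul_add _ _ _)) (fun _ _ _ => Subtype.ext (mul_smul_comm _ _ _))
@[simp] lemma mulA_val {m n : ℕ} (f : SA Sg m) (g : SA Sg n) : (mulA Sg m n f g).1 = f.1 * g.1 := rfl
/-- `A₁ ⊗ A_k → A_(k+1)` -/
def muA (k : ℕ) : SA Sg 1 ⊗[ℂ] SA Sg k →ₗ[ℂ] SA Sg (k + 1) := TensorProduct.lift (mulA Sg 1 k)
/-- `A₁ ⊗ A_k` -/
abbrev A1A (k : ℕ) : GV := (triv (SA Sg 1)).tens (triv (SA Sg k))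
lemma nsmul_eB_mem (k : ℕ) : k • eB b ∈ DS (Sg.S b).B :=
  nsmul_mem (eB_mem (Finset.mem_singleton_self b)) k
lemma isAB_map_evP (k : ℕ) : IsAB (Sg.S b) (line (k • eB b)) fun z =>
    (⊤ : Submodule ℂ (SA Sg k)).map (evP Sg b k z) :=
  (IsAB.top (in_line (nsmul_eB_mem Sg b k))).congr fun _ hz =>
    ((Submodule.map_top _).trans (LinearMap.range_eq_top.2 (evP_surj Sg b k hz))).symm
theorem isAB_mP (k : ℕ) : IsAB (Sg.S b) (triv (SA Sg k)) (mP Sg b k) :=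
  ((IsAB.top (in_triv _)).ker_of_map (isRM_evP Sg b k) (isAB_map_evP Sg b k)).congr
    fun _ _ => top_inf_eq _
theorem finrank_mP (k : ℕ) {z : Pt} (hz : z ∈ (Sg.S b).pts) :
    finrank ℂ (mP Sg b k z) + 1 = finrank ℂ (SA Sg k) := by
  have := LinearMap.finrank_range_add_finrank_ker (evP Sg b k z)
  rwa [LinearMap.range_eq_top.2 (evP_surj Sg b k hz), finrank_top, finrank_self, add_comm] at this
lemma evP_apply (m : ℕ) (z : (Sg.S b).pts) (f : SA Sg m) : evP Sg b m z.1 f = evS Sg b m f z :=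
  LinearMap.congr_fun (evP_eq Sg b m z) f
lemma mem_mP {m : ℕ} {z : (Sg.S b).pts} {f : SA Sg m} :
    f ∈ mP Sg b m z.1 ↔ evS Sg b m f z = 0 := by rw [← evP_apply]; rfl
lemma evS_mem {m : ℕ} (f : SA Sg m) : evS Sg b m f ∈ Fn (Sg.S b) b m :=
  (isSecM_evS Sg b m).range.le ⟨f, rfl⟩
lemma evS_fn {m : ℕ} (f : SA Sg m) : evS Sg b m f ∈ (Sg.S b).fn := Fn_le (evS_mem Sg b f)
lemma exists_evS_eq {m : ℕ} {f : (Sg.S b).pts → ℂ} (h : f ∈ Fn (Sg.S b) b m) :
    ∃ g : SA Sg m, evS Sg b m g = f := (isSecM_evS Sg b m).range.ge h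
lemma evS_mulA {m n : ℕ} (f : SA Sg m) (g : SA Sg n) :
    evS Sg b (n + m) (mulA Sg m n f g) = evS Sg b m f * evS Sg b n g :=
  evS_mul Sg b f g _ (add_comm _ _) rfl
@[simp] lemma muA_tmul {k : ℕ} (f : SA Sg 1) (g : SA Sg k) :
    muA Sg k (f ⊗ₜ g) = mulA Sg 1 k f g := rfl
lemma map_mP (m : ℕ) (z : (Sg.S b).pts) :
    (mP Sg b m z.1).map (evS Sg b m) = mFn (Sg.S b) b m z := by
  refine le_antisymm ?_ fun f hf => ?_
  · rintro _ ⟨f, hf, rfl⟩
    exact ⟨evS_mem Sg b f, (mem_mP Sg b).1 hf⟩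
  · obtain ⟨g, rfl⟩ := exists_evS_eq Sg b hf.1
    exact ⟨g, (mem_mP Sg b).2 hf.2, rfl⟩
lemma map_muA (k : ℕ) (P : Submodule ℂ (SA Sg 1)) (Q : Submodule ℂ (SA Sg k)) :
    ((tens P Q).map (muA Sg k)).map (evS Sg b (k + 1)) =
      P.map (evS Sg b 1) * Q.map (evS Sg b k) := by
  refine le_antisymm ?_ (Submodule.mul_le.2 ?_)
  · rw [← Submodule.map_comp, Submodule.map_le_iff_le_comap, tens_le]
    intro v hv w hw
    rw [Submodule.mem_comap, LinearMap.comp_apply, muA_tmul, evS_mulA]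
    exact Submodule.mul_mem_mul ⟨v, hv, rfl⟩ ⟨w, hw, rfl⟩
  · rintro _ ⟨v, hv, rfl⟩ _ ⟨w, hw, rfl⟩
    exact ⟨_, ⟨_, tmul_mem hv hw, rfl⟩, evS_mulA Sg b v w⟩
lemma finrank_map_evS {m : ℕ} (P : Submodule ℂ (SA Sg m)) :
    finrank ℂ (P.map (evS Sg b m)) = finrank ℂ P :=
  (Submodule.equivMapOfInjective _ (isSecM_evS Sg b m).inj P).finrank_eq.symm
/-- `V_z · A_k = 𝔪_(z, k+1)` -/
theorem map_muA_top (k : ℕ) {z : Pt} (hz : z ∈ (Sg.S b).pts) :
    (tens (mP Sg b 1 z) ⊤).map (muA Sg k) = mP Sg b (k + 1) z := by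
  refine Submodule.map_injective_of_injective (isSecM_evS Sg b (k + 1)).inj ?_
  rw [map_muA, map_mP Sg b 1 ⟨z, hz⟩, map_mP Sg b (k + 1) ⟨z, hz⟩, Submodule.map_top,
    (isSecM_evS Sg b k).range]
  exact mFn_succ (base_S Sg b) _ k
/-- `𝔪 / 𝔪²` has dimension two (large `k`: `exists_locGen`, or the generators of `S.I` have
degree `≤ k + 1` and their differentials cut out the tangent space) -/
theorem exists_two (z : (Sg.S b).pts) : ∃ k₀ : ℕ, ∀ k ≥ k₀,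
    finrank ℂ ((tens (mP Sg b 1 z.1) (mP Sg b k z.1)).map (muA Sg k)) + 2 =
      finrank ℂ (mP Sg b (k + 1) z.1) := by
  obtain ⟨k₀, h⟩ := exists_two_fn (base_S Sg b) (Sg.S_sm b) (Sg.S_irred b) z
  refine ⟨k₀, fun k hk => ?_⟩
  rw [← finrank_map_evS Sg b, ← finrank_map_evS Sg b (mP Sg b (k + 1) z.1), map_muA, map_mP,
    map_mP, map_mP]
  exact h k hk

/-- the values at `z` of the regular sections of `𝒱 ⊗ 𝔪_(p,k)` that are killed by multiplication -/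
def RR (k : ℕ) (p : Pt) : Pt → Submodule ℂ (A1A Sg k).V :=
  vals (Sg.S b) (regS _ _ ⊓ secs _ (fun z => tens (mP Sg b 1 z) (mP Sg b k p)) ⊓
    secs _ fun _ => LinearMap.ker (muA Sg k))
lemma RR_le (k : ℕ) (p : Pt) {z : Pt} (hz : z ∈ (Sg.S b).pts) :
    RR Sg b k p z ≤ tens (mP Sg b 1 z) (mP Sg b k p) ⊓ LinearMap.ker (muA Sg k) := fun v hv => by
  obtain ⟨σ, hσ, rfl⟩ := (mem_vals (z := ⟨z, hz⟩)).1 hv
  exact ⟨hσ.1.2 ⟨z, hz⟩, hσ.2 ⟨z, hz⟩⟩
/-- the class of `𝔪_p (k + 1)` -/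
def Pcl (k : ℕ) (p : Pt) : K (Sg.S b) :=
  (finrank ℂ (mP Sg b (k + 1) p) : K (Sg.S b)) -
    (kc _ (A1A Sg k) (fun z => tens (mP Sg b 1 z) (mP Sg b k p)) - kc _ (A1A Sg k) (RR Sg b k p))
/-- `k` is large enough for the point `p` -/
structure DltOK (k : ℕ) (p : (Sg.S b).pts) : Prop where
  pos : 1 ≤ k
  ab : IsAB (Sg.S b) (A1A Sg k) (RR Sg b k p.1)
  rk : ∀ z ∈ (Sg.S b).pts, finrank ℂ (RR Sg b k p.1 z) + finrank ℂ (mP Sg b (k + 1) p.1) =
    finrank ℂ (tens (mP Sg b 1 z) (mP Sg b k p.1)) + 1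
  two : finrank ℂ ((tens (mP Sg b 1 p.1) (mP Sg b k p.1)).map (muA Sg k)) + 2 =
    finrank ℂ (mP Sg b (k + 1) p.1)
  res : ∃ ρ ρ' : PtRes (Sg.S b) b p, (∀ i, ρ.C₀.deg i = 0) ∧ ρ'.cls = K.dual _ ρ.cls ∧
    ρ.cls = 1 - lbK _ (-((k + 1 : ℕ) • eB b)) * Pcl Sg b k p.1

namespace DL
variable {Sg b}
/-- `𝔪_(p, n)` inside the function field -/
def MM (n : ℕ) (p : (Sg.S b).pts) : Submodule ℂ Sg.F := (mP Sg b n p.1).map (SA Sg n).subtype
lemma mul_MM {p : (Sg.S b).pts} {i n k : ℕ} (hk : k = n + i) {g f : Sg.F} (hg : g ∈ SA Sg i)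
    (hf : f ∈ MM n p) : g * f ∈ MM k p := by
  obtain ⟨f, hf, rfl⟩ := hf
  subst hk
  refine ⟨mulA Sg i n ⟨g, hg⟩ f, (mem_mP Sg b).2 ?_, rfl⟩
  rw [evS_mulA, Pi.mul_apply, (mem_mP Sg b).1 hf, mul_zero]
lemma pow_mem_SA (l : SA Sg 1) (n : ℕ) : l.1 ^ n ∈ SA Sg n := by
  induction n with
  | zero => rw [pow_zero]; exact one_mem_SA Sg
  | succ n ih => rw [pow_succ]; exact SA_mul Sg ih l.2
lemma exists_const (g : SA Sg 0) : ∃ c : ℂ, g.1 = algebraMap ℂ _ c ∧ ∀ y, evS Sg b 0 g y = c := by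
  obtain ⟨c, hc⟩ := Fn_zero (base_S Sg b) (evS_mem Sg b g)
  have h0 : Hmg (0 • eB b) (C c : R) := by simpa using Hmg.C c
  have : g = ⟨_, Sg.aeval_mem b h0⟩ := (isSecM_evS Sg b 0).inj
    (hc.trans (funext fun y => ((evS_spec Sg b _ h0 rfl y).trans (eval_C _)).symm))
  exact ⟨c, by rw [this]; exact aeval_C _ _, congrFun hc⟩
lemma muA_surj (k : ℕ) : Function.Surjective (muA Sg k) := fun f => by
  have : SA Sg 1 * SA Sg k ≤ (LinearMap.range (muA Sg k)).map (SA Sg (k + 1)).subtype :=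
    Submodule.mul_le.2 fun g hg h hh => ⟨_, ⟨⟨g, hg⟩ ⊗ₜ ⟨h, hh⟩, rfl⟩, rfl⟩
  obtain ⟨_, ⟨t, rfl⟩, e⟩ := this ((SA_succ Sg k).le f.2)
  exact ⟨t, Subtype.ext e⟩
/-- the images of the regular sections of `𝒱 ⊗ 𝔪_(p,k)` -/
def TT (k : ℕ) (p : (Sg.S b).pts) : Submodule ℂ ((Sg.S b).pts → Sg.F) :=
  (regS _ _ ⊓ secs _ fun z => tens (mP Sg b 1 z) (mP Sg b k p.1)).map
    (((SA Sg (k + 1)).subtype ∘ₗ muA Sg k).compLeft _)
variable {k : ℕ} {p : (Sg.S b).pts}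
lemma smul_TT {f : (Sg.S b).pts → ℂ} (hf : f ∈ (Sg.S b).fn) {φ : (Sg.S b).pts → Sg.F}
    (h : φ ∈ TT k p) : (fun y => f y • φ y) ∈ TT k p := by
  obtain ⟨τ, hτ, rfl⟩ := h
  exact ⟨fun y => f y • τ y, ⟨RegV.smul (s := τ) hf hτ.1, fun y => Submodule.smul_mem _ _ (hτ.2 y)⟩,
    funext fun y => map_smul ((SA Sg (k + 1)).subtype ∘ₗ muA Sg k) (f y) (τ y)⟩
lemma rel1 (l g : SA Sg 1) {f : Sg.F} (hf : f ∈ MM k p) :
    (fun y => evS Sg b 1 l y • (g.1 * f) - evS Sg b 1 g y • (l.1 * f)) ∈ TT k p := by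
  obtain ⟨f, hf, rfl⟩ := hf
  refine ⟨fun y => (evS Sg b 1 l y • g - evS Sg b 1 g y • l) ⊗ₜ f, ⟨?_, fun y =>
    tmul_mem ((mem_mP Sg b).2 ?_) hf⟩, funext fun y => ?_⟩
  · exact (((RegV.const g).smul (evS_fn Sg b l)).sub ((RegV.const l).smul (evS_fn Sg b g))).map
      ((TensorProduct.mk ℂ _ _).flip f)
  · simp [mul_comm]
  · change (evS Sg b 1 l y • g.1 - evS Sg b 1 g y • l.1) * f.1 = _
    simp [sub_mul]
lemma rel (l : SA Sg 1) (i : ℕ) : ∀ n, n + i = k + 1 → ∀ (g : SA Sg i), ∀ f ∈ MM n p,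
    (fun y => evS Sg b 1 l y ^ i • (g.1 * f) - evS Sg b i g y • (l.1 ^ i * f)) ∈ TT k p := by
  induction i with
  | zero =>
    intro n _ g f _
    obtain ⟨c, h1, h2⟩ := exists_const (b := b) g
    convert zero_mem (TT k p) using 1
    funext y
    simp [h1, h2, Algebra.smul_def]
  | succ i ih =>
    intro n hn g f hf
    obtain ⟨t, rfl⟩ := muA_surj i g
    induction t using TensorProduct.induction_on with
    | zero => convert zero_mem (TT k p) using 1; funext y; simp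
    | add s t hs ht =>
      convert add_mem hs ht using 1
      funext y
      simp only [map_add, Submodule.coe_add, Pi.add_apply, add_mul, smul_add, add_smul]
      abel
    | tmul g g' =>
      convert add_mem (smul_TT (pow_mem (evS_fn Sg b l) i)
        (rel1 l g (mul_MM (k := k) (by omega) g'.2 hf))) (smul_TT (evS_fn Sg b g)
          (ih (n + 1) (by omega) g' _ (mul_MM rfl l.2 hf))) using 1
      funext y
      simp only [muA_tmul, evS_mulA, mulA_val, Pi.add_apply, Pi.mul_apply, Pi.pow_apply,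
        Algebra.smul_def, map_mul, map_pow]
      ring
section
variable {ι : Type} [Fintype ι] (v : Basis ι ℂ (mP Sg b 1 p.1))
/-- `s ↦ ∑ s_i ⊗ [a v_i]` -/
def Psi (a : Sg.F) : ((Sg.S b).pts → ι → ℂ) →ₗ[ℂ] ((Sg.S b).pts → Sg.F) :=
  (Fintype.linearCombination ℂ fun i => a * (v i).1.1).compLeft _
/-- `s ↦ ∑ s_i v_i` -/
def Lm : ((Sg.S b).pts → ι → ℂ) →ₗ[ℂ] ((Sg.S b).pts → ℂ) where
  toFun s y := ∑ i, s y i * evS Sg b 1 (v i).1 y
  map_add' s t := by funext y; simp [add_mul, Finset.sum_add_distrib]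
  map_smul' c s := by funext y; simp [Finset.mul_sum, mul_assoc]
lemma Psi_apply (a : Sg.F) (s : (Sg.S b).pts → ι → ℂ) (y : (Sg.S b).pts) :
    Psi v a s y = ∑ i, s y i • (a * (v i).1.1) := rfl
lemma Lm_apply (s : (Sg.S b).pts → ι → ℂ) (y : (Sg.S b).pts) :
    Lm v s y = ∑ i, s y i * evS Sg b 1 (v i).1 y := rfl
/-- a syzygy of degree at most `k` is killed -/
lemma Psi_syz (l : SA Sg 1) {d : ℤ} (hd : d ≤ k) {t : (Sg.S b).pts → ι → ℂ}
    (ht : t ∈ Amb (Sg.S b) b (fun _ => 0) d) (h0 : Lm v t = 0) : Psi v (l.1 ^ k) t ∈ TT k p := by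
  rcases lt_or_ge d 0 with h | h
  · have : t = 0 := funext fun y => funext fun i => congrFun
      ((Submodule.mem_bot ℂ).1 ((Fn_neg ((add_zero d).trans_lt h)).le (ht i))) y
    rw [this, map_zero]; exact zero_mem _
  obtain ⟨n, rfl⟩ := Int.eq_ofNat_of_zero_le h
  obtain ⟨m, rfl⟩ := Nat.exists_eq_add_of_le (Int.ofNat_le.1 hd)
  choose g hg using fun i => exists_evS_eq Sg b (m := n) (add_zero (n : ℤ) ▸ ht i)
  have h1 : ∑ i, mulA Sg n 1 (g i) (v i).1 = 0 := (isSecM_evS Sg b _).inj (by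
    rw [map_sum, map_zero, ← h0]
    funext y
    simp only [Finset.sum_apply, evS_mulA, hg, Lm_apply, Pi.mul_apply])
  have h2 : ∑ i, (g i).1 * (v i).1.1 = 0 := by simpa using congrArg Subtype.val h1
  have h3 := neg_mem (sum_mem (t := Finset.univ) fun i _ => rel (k := n + m) l n (1 + m) (by omega)
    (g i) _ (mul_MM rfl (pow_mem_SA l m) ⟨(v i).1, (v i).2, rfl⟩))
  convert h3 using 1
  funext y
  simp only [Psi_apply, Pi.neg_apply, Finset.sum_apply, Finset.sum_sub_distrib, hg,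
    Submodule.subtype_apply, ← Finset.smul_sum, mul_left_comm (g _).1, ← Finset.mul_sum, h2,
    mul_zero, smul_zero, zero_sub, neg_neg, pow_add, mul_assoc]
lemma exists_dec (l : SA Sg 1) (j : ℕ) {σ : SA Sg (k + 1) ⊗[ℂ] SA Sg j}
    (hσ : σ ∈ tens (mP Sg b (k + 1) p.1) ⊤) : ∃ s ∈ Amb (Sg.S b) b (fun _ : ι => 0) (j + k : ℕ),
      Lm v s = evS Sg b _ (TensorProduct.lift (mulA Sg (k + 1) j) σ) ∧
      (fun y => evS Sg b 1 l y ^ k • (evT _ (evP Sg b j y.1) σ).1) - Psi v (l.1 ^ k) s ∈ TT k p := by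
  let U : Submodule ℂ (SA Sg (k + 1) ⊗[ℂ] SA Sg j) :=
    { carrier := {σ | ∃ s ∈ Amb (Sg.S b) b (fun _ : ι => 0) (j + k : ℕ),
        Lm v s = evS Sg b _ (TensorProduct.lift (mulA Sg (k + 1) j) σ) ∧
        (fun y => evS Sg b 1 l y ^ k • (evT _ (evP Sg b j y.1) σ).1) - Psi v (l.1 ^ k) s ∈ TT k p}
      zero_mem' := ⟨0, zero_mem _, by simp, by
        convert zero_mem (TT k p) using 1; funext y; simp⟩
      add_mem' := by
        rintro σ σ' ⟨s, h1, h2, h3⟩ ⟨s', h1', h2', h3'⟩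
        refine ⟨s + s', add_mem h1 h1', by simp only [map_add, h2, h2'], ?_⟩
        convert add_mem h3 h3' using 1
        funext y
        simp only [map_add, Submodule.coe_add, Pi.add_apply, Pi.sub_apply, smul_add]
        abel
      smul_mem' := by
        rintro c σ ⟨s, h1, h2, h3⟩
        refine ⟨c • s, Submodule.smul_mem _ _ h1, by simp only [map_smul, h2], ?_⟩
        convert Submodule.smul_mem _ c h3 using 1
        funext y
        simp only [map_smul, Submodule.coe_smul, Pi.smul_apply, Pi.sub_apply, smul_sub,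
          smul_comm c] }
  refine (tens_le (N := U)).2 (fun f hf h _ => ?_) hσ
  rw [← map_muA_top Sg b k p.2] at hf
  refine (Submodule.map_le_iff_le_comap.2 (tens_le.2 fun w hw g _ => ?_) :
    _ ≤ U.comap ((TensorProduct.mk ℂ _ _).flip h)) hf
  have e : ∑ i, v.repr ⟨w, hw⟩ i • (v i).1 = w := by
    have := congrArg (mP Sg b 1 p.1).subtype (v.sum_repr ⟨w, hw⟩)
    simpa only [map_sum, map_smul, Submodule.subtype_apply] using this
  refine ⟨fun y i => v.repr ⟨w, hw⟩ i * (evS Sg b j h y * evS Sg b k g y), fun i => ?_, ?_, ?_⟩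
  · rw [add_zero, Nat.cast_add]
    exact Submodule.smul_mem _ _ (mul_mem_Fn (evS_mem Sg b h) (evS_mem Sg b g))
  · funext y
    change _ = evS Sg b _ (mulA Sg (k + 1) j (mulA Sg 1 k w g) h) y
    rw [evS_mulA, evS_mulA, Lm_apply]
    conv_rhs => rw [← e]
    simp only [map_sum, map_smul, Pi.mul_apply, Finset.sum_apply, Pi.smul_apply, smul_eq_mul,
      Finset.sum_mul]
    exact Finset.sum_congr rfl fun i _ => by ring
  · convert smul_TT (evS_fn Sg b h) (rel l k 1 (add_comm _ _) g w.1 ⟨w, hw, rfl⟩) using 1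
    funext y
    have e' : ∑ i, v.repr ⟨w, hw⟩ i • (v i).1.1 = w.1 := by simpa using congrArg Subtype.val e
    change evS Sg b 1 l y ^ k • (evT _ (evP Sg b j y.1) (mulA Sg 1 k w g ⊗ₜ h)).1 - _ = _
    rw [evT_tmul, evP_apply, Psi_apply, Submodule.coe_smul, mulA_val, smul_sub, smul_comm,
      mul_comm w.1]
    congr 1
    conv_rhs => rw [← e']
    simp only [Finset.mul_sum, Finset.smul_sum, mul_smul_comm, smul_smul]
    exact Finset.sum_congr rfl fun i _ => by rw [mul_comm (v.repr _ i), mul_assoc]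
end
end DL
open DL

/-- The key step. Let `Q` be `𝔪_(k+1) ⊗ O_z` modulo the image of `𝒱 ⊗ 𝔪_k`, `l(z) ≠ 0`. In `Q` one has
`[g f ⊗ 1] = [l^j f ⊗ g / l^j]` for `g ∈ A_j`, `f ∈ 𝔪_(k+1-j)`. Hence `Q` is a quotient of
`V_p ⊗ O_z` by all syzygies of `V_p` with coefficients of degree `≤ k`; these generate all syzygies
for large `k` (`GSub.fg`). Stated for homogeneous `σ`, twisted by `l ^ n`. -/
theorem exists_syz_onto (p : (Sg.S b).pts) : ∃ k₀ : ℕ, ∀ k ≥ k₀, ∀ z : (Sg.S b).pts,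
    ∀ (j : ℕ) (σ : SA Sg (k + 1) ⊗[ℂ] SA Sg j), σ ∈ tens (mP Sg b (k + 1) p.1) ⊤ →
      TensorProduct.lift (mulA Sg (k + 1) j) σ = 0 →
      ∃ r ∈ (Sg.S b).fn, r z ≠ 0 ∧ ∃ τ : (Sg.S b).pts → (A1A Sg k).V, RegV (Sg.S b).fn τ ∧
        ∀ y, τ y ∈ tens (mP Sg b 1 y.1) (mP Sg b k p.1) ∧
          muA Sg k (τ y) = r y • evT _ (evP Sg b j y.1) σ := by
  obtain ⟨_, ⟨v⟩⟩ := exists_basis_sub (mP Sg b 1 p.1)
  obtain ⟨n, d, t, ht, hg⟩ := ((gsub_Amb (a := fun _ => 0)).inf_const (LinearMap.ker (Lm v))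
    fun f _ s hs => funext fun y => by
      have := congrFun (LinearMap.mem_ker.1 hs) y
      rw [Lm_apply] at this ⊢
      simp only [Pi.smul_apply', Pi.smul_apply, smul_eq_mul, mul_assoc, ← Finset.mul_sum, this,
        Pi.zero_apply, mul_zero]).fg (base_S Sg b)
  refine ⟨Finset.univ.sup fun c => (d c).toNat, fun k hk z j σ hσ h0 => ?_⟩
  obtain ⟨l', hl', h1⟩ := exists_lin_one (base_S Sg b) z
  obtain ⟨l, rfl⟩ := exists_evS_eq Sg b (m := 1) hl'
  obtain ⟨s, hs, e, hT⟩ := exists_dec v l j hσ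
  rw [h0, map_zero] at e
  have h2 : Psi v (l.1 ^ k) s ∈ TT k p := by
    refine (Submodule.span_le (p := (TT k p).comap (Psi v (l.1 ^ k)))).2 ?_ (hg _ ⟨hs, e⟩)
    rintro _ ⟨c, f, hf, rfl⟩
    have hc : (d c).toNat ≤ k :=
      (Finset.le_sup (f := fun c => (d c).toNat) (Finset.mem_univ c)).trans hk
    convert smul_TT (Fn_le hf) (Psi_syz v l (k := k) (by omega) (ht c).1 (ht c).2) using 1
    refine iff_of_eq (congrArg (· ∈ TT k p) (funext fun y => ?_))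
    simp only [Psi_apply, Pi.smul_apply', Pi.smul_apply, smul_eq_mul, Finset.smul_sum, smul_smul]
  obtain ⟨τ, hτ, e'⟩ := add_mem hT h2
  rw [sub_add_cancel] at e'
  exact ⟨evS Sg b 1 l ^ k, pow_mem (evS_fn Sg b l) k, by simp [h1], τ, hτ.1,
    fun y => ⟨hτ.2 y, Subtype.ext (congrFun e' y)⟩⟩
/-- `SyzD` for `g` = a basis of `𝔪_(p,k+1)` containing local parameters and `Φ` = multiplication
composed with a generating matrix of `𝒱 ⊗ 𝔪_(p,k)` twisted by `O(-k-1)` -/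
theorem exists_dltOK (p : (Sg.S b).pts) : ∃ k₀ : ℕ, ∀ k ≥ k₀, DltOK Sg b k p := by
  classical
  have hS := base_S Sg b
  have hsm := Sg.S_sm b
  have hi := Sg.S_irred b
  obtain ⟨k₁, h₁⟩ := exists_two Sg b p
  obtain ⟨k₂, h₂⟩ := exists_syz_onto Sg b p
  refine ⟨max (max k₁ k₂) 1, fun k hk => ?_⟩
  obtain ⟨x, hx, y, hy, hx0, hy0, hxy, hg⟩ := exists_locGen hS hsm p (d := (k + 1 : ℕ)) (by omega)
  obtain ⟨x, rfl⟩ := exists_evS_eq Sg b hx
  obtain ⟨y, rfl⟩ := exists_evS_eq Sg b hy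
  obtain ⟨n, β, i₁, i₂, h12, e₁, e₂⟩ := exists_basis_pair (mP Sg b (k + 1) p.1)
    (x := ⟨x, (mem_mP Sg b).2 hx0⟩) (y := ⟨y, (mem_mP Sg b).2 hy0⟩)
    (.of_comp (evS Sg b (k + 1) ∘ₗ (mP Sg b (k + 1) p.1).subtype) (by
      convert hxy using 1; funext i; fin_cases i <;> rfl))
  obtain ⟨c, hc, hc'⟩ := exists_coord β
  obtain ⟨e, he, he'⟩ := exists_proj (mP Sg b k p.1)
  obtain ⟨m, ⟨B⟩⟩ := exists_basis (SA Sg 1 ⊗[ℂ] (SA Sg 1 ⊗[ℂ] SA Sg k))
  choose g hg1 _ hg2 using fun i => Sg.exists_hmg b (β i).1.2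
  have hg3 : ∀ i (z : (Sg.S b).pts), eval z.1 (g i) = evS Sg b _ (β i).1 z := fun i z =>
    (evS_spec Sg b _ (hg1 i) (hg2 i) z).symm
  let δ : D := -(((k + 1 : ℕ) : ℤ) • eB b)
  have hδ : δ ∈ DS (Sg.S b).B := neg_mem (zsmul_mem (eB_mem (Finset.mem_singleton_self b)) _)
  have hδ' : δ - 1 • eB b ∈ DS (Sg.S b).B := sub_mem hδ (nsmul_eB_mem Sg b 1)
  let ψ : Pt → (Fin m → ℂ) →ₗ[ℂ] (A1A Sg k).V := fun z =>
    kz e (evP Sg b 1 z) ∘ₗ B.equivFun.symm.toLinearMap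
  have hψ : IsRM (Sg.S b) (co fun _ : Fin m => δ - 1 • eB b) ((A1A Sg k).shift δ) ψ := by
    refine IsRM.mk' ((regM_kz (isRM_evP Sg b 1).reg).comp_const _) fun z hz v => ?_
    have h1 : evP Sg b 1 (gpt z) = chi (1 • eB b) • evP Sg b 1 z :=
      LinearMap.ext fun f => (isRM_evP Sg b 1).eqv_apply hz f
    change kz e (evP Sg b 1 (gpt z)) (B.equivFun.symm (chi (δ - 1 • eB b) • v)) =
      chi δ • TensorProduct.congr (LinearEquiv.refl ℂ _) (LinearEquiv.refl ℂ _)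
        (kz e (evP Sg b 1 z) (B.equivFun.symm v))
    rw [h1, kz_smul, map_smul, map_smul, smul_smul, ← chi_add, add_sub_cancel, congr_refl_refl,
      LinearEquiv.refl_apply]
  have hψT : ∀ z v, ψ z v ∈ tens (mP Sg b 1 z) (mP Sg b k p.1) := fun z v => kz_mem he _
  have hψl : ∀ (z : (Sg.S b).pts) (l : SA Sg 1), ∀ t ∈ tens (mP Sg b 1 z.1) (mP Sg b k p.1),
      ψ z.1 (B.equivFun (l ⊗ₜ t)) = evS Sg b 1 l z • t := fun z l t ht => by
    rw [← evP_apply, ← kz_id he' l ht]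
    exact congrArg (kz e _) (B.equivFun.symm_apply_apply _)
  have hl : ∀ z : (Sg.S b).pts, ∃ l : SA Sg 1, evS Sg b 1 l z = 1 := fun z => by
    obtain ⟨l, hl⟩ := evP_surj Sg b 1 z.2 1
    exact ⟨l, (evP_apply Sg b 1 z l).symm.trans hl⟩
  have hμ : ∀ z, ∀ t ∈ tens (mP Sg b 1 z) (mP Sg b k p.1), muA Sg k t ∈ mP Sg b (k + 1) p.1 :=
    fun z => (tens_le (N := (mP Sg b (k + 1) p.1).comap (muA Sg k))).2 fun l _ f hf =>
      (mem_mP Sg b).2 (by rw [muA_tmul, evS_mulA, Pi.mul_apply, (mem_mP Sg b).1 hf, mul_zero])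
  obtain ⟨Φ, hΦ, hΦ'⟩ := exists_mhmg (X := Sg.S b) (a := fun _ : Fin m => δ - 1 • eB b)
    (b := fun _ : Fin n => δ) isEqv_top (φ := fun z => (c ∘ₗ muA Sg k) ∘ₗ ψ z.1)
    ((RegM.const _).comp hψ.reg) fun z v _ => by
      have := hψ.eqv_apply z.2 v
      change c (muA Sg k (ψ (gpt z.1) (gd _ v))) = chi δ • c (muA Sg k (ψ z.1 v))
      rw [← map_smul, ← map_smul]
      refine congrArg (fun t => c (muA Sg k t)) (this.trans ?_)
      exact congrArg (chi δ • ·) (LinearEquiv.congr_fun congr_refl_refl (ψ z.1 v))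
  replace hΦ' : ∀ (z : (Sg.S b).pts) v, mev z.1 Φ v = c (muA Sg k (ψ z.1 v)) := fun z v =>
    hΦ' z v trivial
  have hgc : ∀ (z : (Sg.S b).pts), ∀ f ∈ mP Sg b (k + 1) p.1,
      ∑ i, eval z.1 (g i) * c f i = evS Sg b _ f z := fun z f hf => by
    conv_rhs => rw [← hc f hf]
    simp only [map_sum, map_smul, Finset.sum_apply, Pi.smul_apply, smul_eq_mul, hg3, mul_comm]
  have H : SyzD (Sg.S b) b p (k + 1 : ℕ) (fun (_ : Unit) i => g i) (fun _ => δ - 1 • eB b) Φ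
      i₁ i₂ := by
    refine ⟨fun _ i => by simpa only [zero_sub, neg_neg, natCast_zsmul] using hg1 i,
      fun _ => ⟨hδ', by simp [δ, eB]⟩, hΦ, fun z hz v => funext fun _ => ?_,
      fun i => (hg3 i p).trans ((mem_mP Sg b).1 (β i).2), fun z hz ho => ?_, h12, ?_,
      fun z j σ hσ h0 => ?_⟩
    · rw [hΦ' ⟨z, hz⟩]
      refine (hgc ⟨z, hz⟩ _ (hμ z _ (hψT z v))).trans ((mem_mP Sg b (z := ⟨z, hz⟩)).1 ?_)
      exact (map_muA_top Sg b k hz).le ⟨_, tens_mono le_rfl le_top (hψT z v), rfl⟩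
    · obtain ⟨u, hu⟩ := D0.exists_ne hS p
      obtain ⟨w, hw⟩ : ∃ w, p.1 u * z w ≠ p.1 w * z u :=
        not_forall.1 fun h => ho _ (D0.smul_of_minors hu h)
      obtain ⟨v, hv⟩ := exists_evS_eq Sg b (m := 1) (sub_mem
        (Submodule.smul_mem _ (p.1 u) (X_mem_Fn hS w)) (Submodule.smul_mem _ (p.1 w) (X_mem_Fn hS u)))
      obtain ⟨f, hf⟩ := evP_surj Sg b k hz 1
      by_contra hn
      push Not at hn
      have := hgc ⟨z, hz⟩ (mulA Sg 1 k v f) ((mem_mP Sg b).2 (by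
        rw [evS_mulA, Pi.mul_apply, hv]; simp [mul_comm]))
      rw [evS_mulA, Pi.mul_apply, hv, ← evP_apply, hf] at this
      simp only [hn, zero_mul, Finset.sum_const_zero, mul_one] at this
      exact hw (sub_eq_zero.1 this.symm)
    · rw [funext (hg3 i₁), funext (hg3 i₂), e₁, e₂]; exact hg
    · rcases lt_or_ge (j + -((k + 1 : ℕ) : ℤ)) 0 with h | h
      · have : σ = 0 := funext fun y => funext fun i => congrFun
          ((Submodule.mem_bot ℂ).1 ((Fn_neg h).le (hσ i))) y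
        exact ⟨1, one_mem _, one_ne_zero, 0, zero_mem _, RegV.zero, by simp [this]⟩
      obtain ⟨j', hj⟩ := Int.eq_ofNat_of_zero_le h
      choose a ha using fun i => exists_evS_eq Sg b (m := j') (hj ▸ hσ i)
      obtain ⟨r, hr, hr0, τ, hτ, h3⟩ := h₂ k (by omega) z j' (∑ i, (β i).1 ⊗ₜ a i)
        (sum_mem fun i _ => tmul_mem (β i).2 trivial) ((isSecM_evS Sg b _).inj (funext fun y => by
          have := congrFun (D0.mem_ker_act.1 h0 y) ()
          rw [mev_apply] at this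
          simpa only [map_sum, lift.tmul, evS_mulA, Finset.sum_apply, Pi.mul_apply, ha, ← hg3,
            map_zero, Pi.zero_apply] using this))
      obtain ⟨l, hl1⟩ := hl z
      refine ⟨evS Sg b 1 l * r, mul_mem (evS_fn Sg b l) hr, by simpa [hl1] using hr0,
        fun y => B.equivFun (l ⊗ₜ τ y), fun _ => trivial,
        hτ.map (B.equivFun.toLinearMap ∘ₗ TensorProduct.mk ℂ _ _ l), funext fun y => ?_⟩
      rw [D0.act0, hΦ', hψl y l _ (h3 y).1, map_smul, (h3 y).2, map_sum, smul_smul, map_smul]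
      simp only [evT_tmul, evP_apply, ha, hc']
      rfl
  have hT : IsAB (Sg.S b) (A1A Sg k) fun z => tens (mP Sg b 1 z) (mP Sg b k p.1) :=
    (isAB_mP Sg b 1).tens (IsAB.const (in_triv _) (Submodule.map_id _))
  have hrg : ∀ z ∈ (Sg.S b).pts, (⊤ : Submodule ℂ _).map (ψ z) =
      tens (mP Sg b 1 z) (mP Sg b k p.1) := fun z hz => by
    refine le_antisymm (by rintro _ ⟨v, -, rfl⟩; exact hψT z v) fun t ht => ?_
    obtain ⟨l, hl1⟩ := hl ⟨z, hz⟩
    exact ⟨_, trivial, (hψl ⟨z, hz⟩ l t ht).trans (by rw [hl1, one_smul])⟩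
  have htop := IsAB.top (X := Sg.S b) (in_co (deg := fun _ : Fin m => δ - 1 • eB b) fun _ => hδ')
  have hM := (hT.shift hδ).congr fun z hz => (hrg z hz).symm
  have hK := htop.ker_of_map hψ hM
  have hker : ∀ z ∈ (Sg.S b).pts, SyzD.Rv (Sg.S b) Φ z ⊓ LinearMap.ker (ψ z) =
      ⊤ ⊓ LinearMap.ker (ψ z) := fun z hz => by
    refine le_antisymm (inf_le_inf_right _ le_top) fun v hv => ⟨?_, hv.2⟩
    obtain ⟨σ, h1, h2, h3⟩ := hK.gen ⟨z, hz⟩ v hv
    exact (SyzD.mem_Rv (z := ⟨z, hz⟩)).2 ⟨σ, ⟨h1, fun y => by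
      rw [hΦ', LinearMap.mem_ker.1 (h2 y).2, map_zero, map_zero]⟩, h3⟩
  have hmap : ∀ z ∈ (Sg.S b).pts, (SyzD.Rv (Sg.S b) Φ z).map (ψ z) = RR Sg b k p.1 z := by
    intro z hz
    refine le_antisymm ?_ fun t ht => ?_
    · rintro _ ⟨v, hv, rfl⟩
      obtain ⟨ρ, ⟨h1, h2⟩, rfl⟩ := (SyzD.mem_Rv (z := ⟨z, hz⟩)).1 hv
      refine (mem_vals (z := ⟨z, hz⟩)).2 ⟨fun y => ψ y.1 (ρ y), ⟨⟨hψ.reg.apply h1,
        fun y => hψT _ _⟩, fun y => ?_⟩, rfl⟩
      rw [LinearMap.mem_ker, ← hc _ (hμ _ _ (hψT y.1 (ρ y))), ← hΦ', h2]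
      simp
    · obtain ⟨τ, ⟨⟨h1, h2⟩, h3⟩, rfl⟩ := (mem_vals (z := ⟨z, hz⟩)).1 ht
      obtain ⟨l, hl1⟩ := hl ⟨z, hz⟩
      refine ⟨_, (SyzD.mem_Rv (z := ⟨z, hz⟩)).2 ⟨fun y => B.equivFun (l ⊗ₜ τ y),
        ⟨RegV.map (s := τ) (B.equivFun.toLinearMap ∘ₗ TensorProduct.mk ℂ _ _ l) h1, fun y => ?_⟩,
        rfl⟩, (hψl ⟨z, hz⟩ l _ (h2 _)).trans (by rw [hl1, one_smul])⟩
      rw [hΦ', hψl y l _ (h2 y), map_smul, LinearMap.mem_ker.1 (h3 y), smul_zero, map_zero]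
  have hRv := H.isAB_Rv hS hsm hi
  have hR' := hRv.map_of_ker (hT.shift hδ).hin hψ (hK.congr fun z hz => (hker z hz).symm)
  have hR : IsAB (Sg.S b) (A1A Sg k) (RR Sg b k p.1) := isAB_unshift (hR'.congr hmap) hT.hin
  have hn : finrank ℂ (mP Sg b (k + 1) p.1) = Fintype.card (Fin n) := finrank_eq_card_basis β
  refine ⟨by omega, hR, fun z hz => ?_, h₁ k (by omega), ?_⟩
  · have a1 := H.finrank_Rv hS hsm hi hz
    have a2 := Alg.finrank_map_add_inf_ker (SyzD.Rv (Sg.S b) Φ z) (ψ z)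
    have a3 := Alg.finrank_map_add_inf_ker (⊤ : Submodule ℂ (Fin m → ℂ)) (ψ z)
    rw [hmap z hz, hker z hz] at a2
    rw [hrg z hz, finrank_top, Module.finrank_fintype_fun_eq_card] at a3
    have key : ∀ a b c d e f g : ℕ, a + b = c + 1 → d + e = a → f + e = c → g = b →
        d + g = f + 1 := by omega
    exact key _ _ _ _ _ _ _ a1 a2 a3 hn
  · obtain ⟨ρ, h0, e0⟩ := H.exists_res hS hsm hi
    obtain ⟨ρ', e0'⟩ := H.exists_dual hS hsm hi
    refine ⟨ρ, ρ', h0, by rw [e0, e0'], ?_⟩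
    have a2 := (kc_map hRv hψ hR').trans (congrArg₂ (· + ·) (kc_congr hker)
      ((kc_congr (V := (A1A Sg k).shift δ) hmap).trans (kc_shift hR hδ)))
    have a3 := (kc_map htop hψ hM).trans (congrArg (_ + ·)
      ((kc_congr (V := (A1A Sg k).shift δ) hrg).trans (kc_shift hT hδ)))
    rw [e0, a2, a3, Pcl, hn, nsmul_eq_mul, ← natCast_zsmul (eB b) (k + 1)]
    change 1 - _ * lbK _ δ + _ = 1 - lbK _ δ * _
    ring

end Crest.Agent.N265.N
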