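import Mathlib
import Crest.Agent.N265.N.Fn
import Crest.Agent.N265.N.Locex

-- ▼ part N265/N/FHF
section

/-!
# Finitely many Hilbert functions in a family

For homogeneous vectors `g c` with entries in `A[τ]`, `A` noetherian, the Hilbert functions of the
submodules generated by the specialisations `φ (g c)`, `φ : A →+* k`, form a finite set.
-/

set_option autoImplicit false
noncomputable section
open MvPolynomial

namespace Crest.Agent.N265.N

variable {τ ι κ : Type*}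

/-- the degree `j` piece of the submodule generated by the `g c` (of degree `d c`) -/
def piece {A : Type*} [CommRing A] (g : κ → ι → MvPolynomial τ A) (d : κ → ℤ) (j : ℤ) :
    Submodule A (ι → MvPolynomial τ A) :=
  Submodule.span A {v | ∃ c ν, ((Finsupp.degree ν : ℕ) : ℤ) + d c = j ∧
    v = (monomial ν 1 : MvPolynomial τ A) • g c}

/-- specialisation of a vector -/
def vmap {A k : Type*} [CommRing A] [CommRing k] (φ : A →+* k) (v : ι → MvPolynomial τ A) :
    ι → MvPolynomial τ k := fun i => map φ (v i)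

section basic
variable {A k : Type*} [CommRing A] [CommRing k] (φ : A →+* k)

lemma vmap_add (v w : ι → MvPolynomial τ A) : vmap φ (v + w) = vmap φ v + vmap φ w := by
  funext i; simp [vmap]
lemma vmap_sub (v w : ι → MvPolynomial τ A) : vmap φ (v - w) = vmap φ v - vmap φ w := by
  funext i; simp [vmap]
lemma vmap_smul (a : A) (v : ι → MvPolynomial τ A) : vmap φ (a • v) = φ a • vmap φ v := by
  funext i; simp [vmap, MvPolynomial.smul_eq_C_mul]
lemma vmap_mon (ν : τ →₀ ℕ) (v : ι → MvPolynomial τ A) :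
    vmap φ ((monomial ν 1 : MvPolynomial τ A) • v)
      = (monomial ν 1 : MvPolynomial τ k) • vmap φ v := by
  funext i; simp [vmap, map_monomial]
lemma vmap_zero : vmap φ (0 : ι → MvPolynomial τ A) = 0 := by funext i; simp [vmap]
lemma vmap_vmap {k' : Type*} [CommRing k'] (ψ : k →+* k') (v : ι → MvPolynomial τ A) :
    vmap ψ (vmap φ v) = vmap (ψ.comp φ) v := by funext i; simp [vmap, map_map]

lemma vmap_mem_piece (g : κ → ι → MvPolynomial τ A) (d : κ → ℤ) (j : ℤ)
    {v : ι → MvPolynomial τ A} (hv : v ∈ piece g d j) :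
    vmap φ v ∈ piece (fun c => vmap φ (g c)) d j := by
  induction hv using Submodule.span_induction with
  | mem v hv =>
    obtain ⟨c, ν, h, rfl⟩ := hv
    exact Submodule.subset_span ⟨c, ν, h, vmap_mon φ ν _⟩
  | zero => rw [vmap_zero]; exact zero_mem _
  | add v w _ _ hv hw => rw [vmap_add]; exact add_mem hv hw
  | smul a v _ hv => rw [vmap_smul]; exact Submodule.smul_mem _ _ hv

lemma mon_mem_piece (g : κ → ι → MvPolynomial τ A) (d : κ → ℤ) (j : ℤ) (ν : τ →₀ ℕ)
    {v : ι → MvPolynomial τ A} (hv : v ∈ piece g d j) :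
    (monomial ν 1 : MvPolynomial τ A) • v ∈ piece g d (j + (Finsupp.degree ν : ℕ)) := by
  induction hv using Submodule.span_induction with
  | mem v hv =>
    obtain ⟨c, μ, h, rfl⟩ := hv
    refine Submodule.subset_span ⟨c, ν + μ, ?_, ?_⟩
    · rw [map_add]; push_cast; omega
    · rw [smul_smul, monomial_mul, one_mul]
  | zero => rw [smul_zero]; exact zero_mem _
  | add v w _ _ hv hw => rw [smul_add]; exact add_mem hv hw
  | smul a v _ hv => rw [smul_comm]; exact Submodule.smul_mem _ _ hv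

lemma deg_of_mem_piece (g : κ → ι → MvPolynomial τ A) (d : κ → ℤ) (a : ι → ℤ)
    (hg : ∀ c i μ, coeff μ (g c i) ≠ 0 → ((Finsupp.degree μ : ℕ) : ℤ) = d c + a i) (j : ℤ)
    {v : ι → MvPolynomial τ A} (hv : v ∈ piece g d j) :
    ∀ i μ, coeff μ (v i) ≠ 0 → ((Finsupp.degree μ : ℕ) : ℤ) = j + a i := by
  classical
  induction hv using Submodule.span_induction with
  | mem v hv =>
    obtain ⟨c, ν, h, rfl⟩ := hv
    intro i μ hμ
    simp only [Pi.smul_apply, smul_eq_mul, coeff_monomial_mul'] at hμ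
    split_ifs at hμ with hle
    · have h1 := hg c i (μ - ν) (by simpa using hμ)
      have h2 : μ = ν + (μ - ν) := (add_tsub_cancel_of_le hle).symm
      rw [h2, map_add]; push_cast; omega
    · exact absurd rfl hμ
  | zero => intro i μ h; simp at h
  | add v w _ _ hv hw =>
    intro i μ h
    by_cases h1 : coeff μ (v i) = 0
    · exact hw i μ (by simpa [h1] using h)
    · exact hv i μ h1
  | smul b v _ hv =>
    intro i μ h
    refine hv i μ fun h1 => h ?_
    simp [h1]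

end basic

section lead
variable [LinearOrder ι] (m : MonomialOrder τ)

/-- position-over-term key -/
def key (ω : ι × (τ →₀ ℕ)) : ι ×ₗ m.syn := toLex (ω.1, m.toSyn ω.2)

omit [LinearOrder ι] in
lemma key_inj : Function.Injective (key (ι := ι) m) := by
  rintro ⟨i, μ⟩ ⟨i', μ'⟩ h
  simp only [key, EmbeddingLike.apply_eq_iff_eq, Prod.mk.injEq] at h
  exact Prod.ext h.1 h.2

lemma key_lt_shift {i i' : ι} {μ μ' ν : τ →₀ ℕ} (h : key m (i, ν + μ) < key m (i', ν + μ')) :
    key m (i, μ) < key m (i', μ') := by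
  simp only [key, Prod.Lex.toLex_lt_toLex, map_add] at *
  rcases h with h | ⟨h1, h2⟩
  · exact Or.inl h
  · exact Or.inr ⟨h1, lt_of_add_lt_add_left h2⟩

/-- `ω` is the leading position of `v` -/
def IsLead {A : Type*} [CommRing A] (v : ι → MvPolynomial τ A) (ω : ι × (τ →₀ ℕ)) : Prop :=
  coeff ω.2 (v ω.1) ≠ 0 ∧ ∀ ω' : ι × (τ →₀ ℕ), key m ω < key m ω' → coeff ω'.2 (v ω'.1) = 0

lemma exists_lead [Finite ι] {A : Type*} [CommRing A] {v : ι → MvPolynomial τ A} (hv : v ≠ 0) :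
    ∃ ω, IsLead m v ω := by
  have hfin : {ω : ι × (τ →₀ ℕ) | coeff ω.2 (v ω.1) ≠ 0}.Finite := by
    refine (Set.finite_iUnion fun i : ι =>
      ((v i).support.finite_toSet.image fun μ => (i, μ))).subset ?_
    rintro ⟨i, μ⟩ h
    exact Set.mem_iUnion.2 ⟨i, μ, by simpa using h, rfl⟩
  have hne : {ω : ι × (τ →₀ ℕ) | coeff ω.2 (v ω.1) ≠ 0}.Nonempty := by
    by_contra h
    apply hv
    funext i; ext μ
    by_contra h'
    exact h ⟨(i, μ), by simpa using h'⟩
  obtain ⟨ω, hω, hmax⟩ := Set.exists_max_image _ (key m) hfin hne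
  exact ⟨ω, hω, fun ω' h => by
    by_contra h'
    exact absurd (hmax ω' h') (not_le.2 h)⟩

lemma IsLead.shift {A : Type*} [CommRing A] {v : ι → MvPolynomial τ A} {i : ι} {μ : τ →₀ ℕ}
    (h : IsLead m v (i, μ)) (ν : τ →₀ ℕ) :
    IsLead m ((monomial ν 1 : MvPolynomial τ A) • v) (i, ν + μ) ∧
      coeff (ν + μ) (((monomial ν 1 : MvPolynomial τ A) • v) i) = coeff μ (v i) := by
  classical
  have e : coeff (ν + μ) (((monomial ν 1 : MvPolynomial τ A) • v) i) = coeff μ (v i) := by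
    simp [coeff_monomial_mul]
  refine ⟨⟨by simpa [e] using h.1, ?_⟩, e⟩
  rintro ⟨i', μ'⟩ hlt
  simp only [Pi.smul_apply, smul_eq_mul, coeff_monomial_mul']
  split_ifs with hle
  · have h2 : μ' = ν + (μ' - ν) := (add_tsub_cancel_of_le hle).symm
    rw [h2] at hlt
    have := h.2 (i', μ' - ν) (key_lt_shift m hlt)
    simpa using congrArg (fun t => (1 : A) * t) this
  · rfl

lemma linearIndependent_of_lead {k : Type*} [Field k] {T : Set (ι × (τ →₀ ℕ))}
    (w : T → ι → MvPolynomial τ k) (hw : ∀ t, IsLead m (w t) t.1) : LinearIndependent k w := by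
  classical
  rw [linearIndependent_iff']
  intro s
  induction s using Finset.induction_on_max_value (fun t : T => key m t.1) with
  | empty => intro _ _ i hi; simp at hi
  | insert t s ht hmax ih =>
    intro c hc
    rw [Finset.sum_insert ht] at hc
    have h0 : c t = 0 := by
      have := congrArg (fun v : ι → MvPolynomial τ k => coeff t.1.2 (v t.1.1)) hc
      simp only [Pi.add_apply, Pi.smul_apply, coeff_add, coeff_smul, Finset.sum_apply, coeff_sum,
        Pi.zero_apply, coeff_zero, smul_eq_mul] at this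
      rw [Finset.sum_eq_zero, add_zero] at this
      · exact (mul_eq_zero.1 this).resolve_right (hw t).1
      · intro u hu
        have hlt : key m u.1 < key m t.1 := lt_of_le_of_ne (hmax u hu) fun e =>
          ht (by rw [← Subtype.ext (key_inj m e)]; exact hu)
        rw [(hw u).2 _ hlt, mul_zero]
    rw [h0, zero_smul, zero_add] at hc
    intro i hi
    rcases Finset.mem_insert.1 hi with rfl | hi
    · exact h0
    · exact ih c hc i hi

include m in
/-- generic constancy of the Hilbert function over a domain -/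
theorem generic_hf [Finite ι] [Finite τ] {A : Type*} [CommRing A] [IsDomain A]
    (g : κ → ι → MvPolynomial τ A) (d : κ → ℤ) (a : ι → ℤ)
    (hg : ∀ c i μ, coeff μ (g c i) ≠ 0 → ((Finsupp.degree μ : ℕ) : ℤ) = d c + a i)
    (k : Type*) [Field k] :
    ∃ f : A, f ≠ 0 ∧ ∃ h : ℤ → ℕ, ∀ φ : A →+* k, φ f ≠ 0 →
      ∀ j, Module.finrank k (piece (fun c => vmap φ (g c)) d j) = h j := by
  classical
  -- leading positions
  let In : ι → (τ →₀ ℕ) → Prop := fun i μ => ∃ j, ∃ v ∈ piece g d j, IsLead m v (i, μ)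
  have hfin : ∀ i, {μ | Minimal (In i) μ}.Finite := fun i =>
    (setOfPred_minimal_antichain _).finite_of_partiallyWellOrderedOn
      (Set.isPWO_of_wellQuasiOrderedLE _)
  have hT : {ω : ι × (τ →₀ ℕ) | Minimal (In ω.1) ω.2}.Finite := by
    refine (Set.finite_iUnion fun i : ι => (hfin i).image fun μ => (i, μ)).subset ?_
    rintro ⟨i, μ⟩ h
    exact Set.mem_iUnion.2 ⟨i, μ, h, rfl⟩
  have hw : ∀ ω : ι × (τ →₀ ℕ), ∃ (j : ℤ) (v : ι → MvPolynomial τ A),
      In ω.1 ω.2 → v ∈ piece g d j ∧ IsLead m v ω := by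
    intro ω
    by_cases h : In ω.1 ω.2
    · obtain ⟨j, v, h1, h2⟩ := h
      exact ⟨j, v, fun _ => ⟨h1, h2⟩⟩
    · exact ⟨0, 0, fun h' => absurd h' h⟩
  choose jj w hw using hw
  let f : A := ∏ ω ∈ hT.toFinset, coeff ω.2 (w ω ω.1)
  have hf : f ≠ 0 := Finset.prod_ne_zero_iff.2 fun ω hω =>
    (hw ω (hT.mem_toFinset.1 hω).prop).2.1
  let Tj : ℤ → Set (ι × (τ →₀ ℕ)) := fun j => {ω | ∃ v ∈ piece g d j, IsLead m v ω}
  refine ⟨f, hf, fun j => Nat.card (Tj j), fun φ hφ j => ?_⟩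
  -- good representatives
  have hrep : ∀ t : Tj j, ∃ v ∈ piece g d j, IsLead m v t.1 ∧ φ (coeff t.1.2 (v t.1.1)) ≠ 0 := by
    rintro ⟨⟨i, μ⟩, v, hv, hl⟩
    obtain ⟨μ₀, hle, hmin⟩ := exists_minimal_le_of_wellFoundedLT (In i) μ ⟨j, v, hv, hl⟩
    obtain ⟨h1, h2⟩ := hw (i, μ₀) hmin.prop
    have e : μ = (μ - μ₀) + μ₀ := (tsub_add_cancel_of_le hle).symm
    obtain ⟨h3, h4⟩ := h2.shift m (μ - μ₀)
    rw [← e] at h3 h4
    have h5 := mon_mem_piece g d _ (μ - μ₀) h1
    have d1 := deg_of_mem_piece g d a hg _ h5 i μ h3.1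
    have d2 := deg_of_mem_piece g d a hg _ hv i μ hl.1
    have e2 : jj (i, μ₀) + (Finsupp.degree (μ - μ₀) : ℕ) = j := by omega
    rw [e2] at h5
    refine ⟨_, h5, h3, ?_⟩
    rw [h4]
    intro h0
    apply hφ
    simp only [f, map_prod]
    exact Finset.prod_eq_zero (hT.mem_toFinset.2 (show (i, μ₀) ∈ _ from hmin)) h0
  choose u hu1 hu2 hu3 using hrep
  have hlead : ∀ t : Tj j, IsLead m (vmap φ (u t)) t.1 := fun t =>
    ⟨by simpa [vmap, coeff_map] using hu3 t, fun ω' h => by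
      simp [vmap, coeff_map, (hu2 t).2 ω' h]⟩
  have hli := linearIndependent_of_lead m _ hlead
  have hspan : ∀ (b : ι ×ₗ m.syn) (v : ι → MvPolynomial τ A), v ∈ piece g d j →
      (∀ ω, IsLead m v ω → key m ω = b) →
      vmap φ v ∈ Submodule.span k (Set.range fun t => vmap φ (u t)) := by
    intro b
    induction b using WellFoundedLT.induction with
    | ind b ih =>
      intro v hv hb
      by_cases h0 : v = 0
      · rw [h0, vmap_zero]; exact zero_mem _
      obtain ⟨ω, hω⟩ := exists_lead m h0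
      let t : Tj j := ⟨ω, v, hv, hω⟩
      let v' := coeff ω.2 (u t ω.1) • v - coeff ω.2 (v ω.1) • u t
      have hv' : v' ∈ piece g d j :=
        sub_mem (Submodule.smul_mem _ _ hv) (Submodule.smul_mem _ _ (hu1 t))
      have hm : vmap φ v' ∈ Submodule.span k (Set.range fun t => vmap φ (u t)) := by
        by_cases h1 : v' = 0
        · rw [h1, vmap_zero]; exact zero_mem _
        obtain ⟨ω', hω'⟩ := exists_lead m h1
        refine ih (key m ω') ?_ v' hv' fun ω'' h'' => ?_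
        · rw [← hb ω hω]
          rcases lt_trichotomy (key m ω') (key m ω) with h | h | h
          · exact h
          · exfalso
            apply hω'.1
            rw [key_inj m h]
            simp [v', mul_comm]
          · exfalso
            apply hω'.1
            have := (hu2 t).2 ω' h
            simp [v', hω.2 ω' h, this]
        · rcases lt_trichotomy (key m ω'') (key m ω') with h | h | h
          · exact absurd (h''.2 _ h) hω'.1
          · exact h
          · exact absurd (hω'.2 _ h) h''.1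
      have e : vmap φ v = (φ (coeff ω.2 (u t ω.1)))⁻¹ •
          (vmap φ v' + φ (coeff ω.2 (v ω.1)) • vmap φ (u t)) := by
        simp only [v', vmap_sub, vmap_smul, sub_add_cancel, smul_smul]
        rw [inv_mul_cancel₀ (hu3 t), one_smul]
      rw [e]
      exact Submodule.smul_mem _ _ (add_mem hm
        (Submodule.smul_mem _ _ (Submodule.subset_span ⟨t, rfl⟩)))
  have heq : piece (fun c => vmap φ (g c)) d j
      = Submodule.span k (Set.range fun t => vmap φ (u t)) := by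
    apply le_antisymm
    · refine Submodule.span_le.2 ?_
      rintro _ ⟨c, ν, h, rfl⟩
      rw [← vmap_mon]
      have hv : (monomial ν 1 : MvPolynomial τ A) • g c ∈ piece g d j :=
        Submodule.subset_span ⟨c, ν, h, rfl⟩
      by_cases h0 : (monomial ν 1 : MvPolynomial τ A) • g c = 0
      · rw [h0, vmap_zero]; exact zero_mem _
      obtain ⟨ω, hω⟩ := exists_lead m h0
      refine hspan (key m ω) _ hv fun ω'' h'' => ?_
      rcases lt_trichotomy (key m ω'') (key m ω) with h | h | h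
      · exact absurd (h''.2 _ h) hω.1
      · exact h
      · exact absurd (hω.2 _ h) h''.1
    · refine Submodule.span_le.2 ?_
      rintro _ ⟨t, rfl⟩
      exact vmap_mem_piece φ g d j (hu1 t)
  rw [heq, Module.finrank_eq_nat_card_basis (Module.Basis.span hli)]

end lead

/-- **Finitely many Hilbert functions.** -/
theorem fhf [Finite ι] [Finite τ] {A : Type*} [CommRing A] [IsNoetherianRing A]
    (g : κ → ι → MvPolynomial τ A) (d : κ → ℤ) (a : ι → ℤ)
    (hg : ∀ c i μ, coeff μ (g c i) ≠ 0 → ((Finsupp.degree μ : ℕ) : ℤ) = d c + a i)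
    (k : Type*) [Field k] :
    {h : ℤ → ℕ | ∃ φ : A →+* k,
      h = fun j => Module.finrank k (piece (fun c => vmap φ (g c)) d j)}.Finite := by
  classical
  let _ : LinearOrder ι := linearOrderOfSTO WellOrderingRel
  let _ : LinearOrder τ := linearOrderOfSTO WellOrderingRel
  have _ : WellFoundedGT τ := Finite.to_wellFoundedGT
  let m : MonomialOrder τ := MonomialOrder.lex
  let P : Ideal A → Prop := fun I => {h : ℤ → ℕ | ∃ φ : A →+* k, (∀ x ∈ I, φ x = 0) ∧
      h = fun j => Module.finrank k (piece (fun c => vmap φ (g c)) d j)}.Finite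
  have key : ∀ I : Ideal A, P I := by
    intro I
    induction I using IsNoetherian.induction with
    | hgt I ih =>
      have hsup : ∀ x, x ∉ I → P (I ⊔ Ideal.span {x}) := fun x hx =>
        ih _ (lt_of_le_of_ne le_sup_left fun e =>
          hx (e ▸ Ideal.mem_sup_right (Ideal.mem_span_singleton_self x)))
      have hkill : ∀ (φ : A →+* k) x, (∀ y ∈ I, φ y = 0) → φ x = 0 →
          ∀ y ∈ I ⊔ Ideal.span {x}, φ y = 0 := fun φ x h1 h2 y hy => by
        have : I ⊔ Ideal.span {x} ≤ RingHom.ker φ :=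
          sup_le h1 (Ideal.span_le.2 (by simpa using h2))
        exact this hy
      by_cases hp : Ideal.IsPrime I
      · obtain ⟨f, hf, h, hh⟩ := generic_hf m (fun c => vmap (Ideal.Quotient.mk I) (g c)) d a
          (fun c i μ h => hg c i μ fun h0 => h (by simp [vmap, coeff_map, h0])) k
        obtain ⟨f, rfl⟩ := Ideal.Quotient.mk_surjective f
        have hfI : f ∉ I := fun h => hf (Ideal.Quotient.eq_zero_iff_mem.2 h)
        refine ((hsup f hfI).insert h).subset ?_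
        rintro _ ⟨φ, hφ, rfl⟩
        by_cases h0 : φ f = 0
        · exact Or.inr ⟨φ, hkill φ f hφ h0, rfl⟩
        · left
          funext j
          have := hh (Ideal.Quotient.lift I φ hφ) (by simpa using h0) j
          have e : (Ideal.Quotient.lift I φ hφ).comp (Ideal.Quotient.mk I) = φ := by
            ext x; simp
          have e2 : (fun c => vmap (Ideal.Quotient.lift I φ hφ) (vmap (Ideal.Quotient.mk I) (g c)))
              = fun c => vmap φ (g c) := by
            funext c; rw [vmap_vmap, e]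
          rw [e2] at this
          exact this
      · by_cases ht : I = ⊤
        · refine Set.finite_empty.subset ?_
          rintro _ ⟨φ, hφ, rfl⟩
          exact one_ne_zero ((map_one φ).symm.trans (hφ 1 (ht ▸ Submodule.mem_top)))
        · obtain ⟨x, hx, y, hy, hxy⟩ := (Ideal.not_isPrime_iff.1 hp).resolve_left ht
          refine ((hsup x hx).union (hsup y hy)).subset ?_
          rintro _ ⟨φ, hφ, rfl⟩
          have := hφ _ hxy
          rw [map_mul, mul_eq_zero] at this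
          rcases this with h | h
          · exact Or.inl ⟨φ, hkill φ x hφ h, rfl⟩
          · exact Or.inr ⟨φ, hkill φ y hφ h, rfl⟩
  refine (key ⊥).subset ?_
  rintro _ ⟨φ, rfl⟩
  exact ⟨φ, fun x hx => by rw [(Submodule.mem_bot A).1 hx, map_zero], rfl⟩

end Crest.Agent.N265.N
end
end

-- ▼ part N265/N/Unif
section

/-!
# Row 265, layer N, task N-UNIF: finitely many Hilbert functions, uniform bounds
-/

set_option autoImplicit false
noncomputable section
open MvPolynomial Module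

namespace Crest.Agent.N265.N
variable {S X Y : Spc} {b : ℕ} {ι κ : Type} [Fintype ι] [Fintype κ]

/-- up to a uniform bound there are only finitely many functions `h x` -/
def FinEv (X : Spc) (h : Pt → ℤ → ℤ) : Prop :=
  ∃ (j₀ : ℤ) (T : Finset (ℤ → ℤ)), ∀ x ∈ X.pts, ∃ t ∈ T, ∀ j ≥ j₀, h x j = t j

namespace FinEv
variable {h h' : Pt → ℤ → ℤ}
lemma of_finite (H : (h '' X.pts).Finite) : FinEv X h :=
  ⟨0, H.toFinset, fun x hx => ⟨h x, H.mem_toFinset.2 ⟨x, hx, rfl⟩, fun _ _ => rfl⟩⟩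
lemma const (t : ℤ → ℤ) : FinEv X fun _ => t :=
  ⟨0, {t}, fun _ _ => ⟨t, Finset.mem_singleton_self t, fun _ _ => rfl⟩⟩
lemma of_lc {f : Pt → ℤ} (H : X.LC f) : FinEv X fun x _ => f x :=
  of_finite (H.comp fun n (_ : ℤ) => n).finite_range
lemma op₂ (φ : ℤ → ℤ → ℤ) (H : FinEv X h) (H' : FinEv X h') :
    FinEv X fun x j => φ (h x j) (h' x j) := by
  classical
  obtain ⟨j₀, T, H⟩ := H
  obtain ⟨j₁, T', H'⟩ := H'
  refine ⟨max j₀ j₁, (T ×ˢ T').image fun p j => φ (p.1 j) (p.2 j), fun x hx => ?_⟩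
  obtain ⟨t, ht, e⟩ := H x hx
  obtain ⟨t', ht', e'⟩ := H' x hx
  refine ⟨_, Finset.mem_image.2 ⟨(t, t'), Finset.mem_product.2 ⟨ht, ht'⟩, rfl⟩, fun j hj => ?_⟩
  simp only [e j (le_of_max_le_left hj), e' j (le_of_max_le_right hj)]
lemma add (H : FinEv X h) (H' : FinEv X h') : FinEv X fun x j => h x j + h' x j :=
  H.op₂ (· + ·) H'
lemma sub (H : FinEv X h) (H' : FinEv X h') : FinEv X fun x j => h x j - h' x j :=
  H.op₂ (· - ·) H'
lemma shift (H : FinEv X h) (k : ℤ) : FinEv X fun x j => h x (j + k) := by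
  classical
  obtain ⟨j₀, T, H⟩ := H
  refine ⟨j₀ - k, T.image fun t j => t (j + k), fun x hx => ?_⟩
  obtain ⟨t, ht, e⟩ := H x hx
  exact ⟨_, Finset.mem_image.2 ⟨t, ht, rfl⟩, fun j hj => e _ (by omega)⟩
lemma congr (H : FinEv X h) {j₀ : ℤ} (e : ∀ x ∈ X.pts, ∀ j ≥ j₀, h x j = h' x j) : FinEv X h' := by
  obtain ⟨j₁, T, H⟩ := H
  refine ⟨max j₀ j₁, T, fun x hx => ?_⟩
  obtain ⟨t, ht, e'⟩ := H x hx
  exact ⟨t, ht, fun j hj => by
    rw [← e x hx j (le_of_max_le_left hj), e' j (le_of_max_le_right hj)]⟩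
lemma pull (H : FinEv X h) (p : Proj Y X) : FinEv Y fun y => h (restr X.B y) := by
  obtain ⟨j₁, T, H⟩ := H
  exact ⟨j₁, T, fun y hy => H _ (p.map y hy)⟩
/-- pointwise eventual vanishing is uniform -/
theorem unif (H : FinEv X h) (h0 : ∀ x ∈ X.pts, ∃ j₀ : ℤ, ∀ j ≥ j₀, h x j = 0) :
    ∃ j₀ : ℤ, ∀ x ∈ X.pts, ∀ j ≥ j₀, h x j = 0 := by
  classical
  obtain ⟨j₁, T, H⟩ := H
  have hb : ∀ t : ℤ → ℤ, ∃ n : ℤ, (∃ m : ℤ, ∀ j ≥ m, t j = 0) → ∀ j ≥ n, t j = 0 := fun t => by
    by_cases ht : ∃ m : ℤ, ∀ j ≥ m, t j = 0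
    · exact ⟨ht.choose, fun _ => ht.choose_spec⟩
    · exact ⟨0, fun h => absurd h ht⟩
  choose n hn using hb
  obtain ⟨N, hN⟩ := (T.image n).bddAbove
  refine ⟨max j₁ N, fun x hx j hj => ?_⟩
  obtain ⟨t, ht, e⟩ := H x hx
  obtain ⟨m, hm⟩ := h0 x hx
  rw [e j (le_of_max_le_left hj)]
  refine hn t ⟨max j₁ m, fun i hi => ?_⟩ j
    ((hN (Finset.mem_coe.2 (Finset.mem_image_of_mem n ht))).trans (le_of_max_le_right hj))
  rw [← e i (le_of_max_le_left hi), hm i (le_of_max_le_right hi)]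
end FinEv

/-- pointwise eventual equality of nested finite-dimensional families is uniform -/
theorem unif_eq {M : Type} [AddCommGroup M] [Module ℂ M] {P Q : Pt → ℤ → Submodule ℂ M}
    (hfd : ∀ x ∈ X.pts, ∀ j, FiniteDimensional ℂ (Q x j))
    (hP : FinEv X fun x j => finrank ℂ (P x j)) (hQ : FinEv X fun x j => finrank ℂ (Q x j))
    (hle : ∀ x ∈ X.pts, ∀ j, P x j ≤ Q x j) (h : ∀ x ∈ X.pts, ∃ j₀ : ℤ, ∀ j ≥ j₀, Q x j ≤ P x j) :
    ∃ j₀ : ℤ, ∀ j ≥ j₀, ∀ x ∈ X.pts, P x j = Q x j := by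
  obtain ⟨j₀, H⟩ := (hP.sub hQ).unif fun x hx => by
    obtain ⟨m, hm⟩ := h x hx
    exact ⟨m, fun j hj => by rw [le_antisymm (hle x hx j) (hm j hj), sub_self]⟩
  refine ⟨j₀, fun j hj x hx => ?_⟩
  have := hfd x hx j
  refine Submodule.eq_of_le_of_finrank_eq (hle x hx j) ?_
  have := H x hx j hj
  omega

lemma finrank_map_add_inf_ker {M M' : Type} [AddCommGroup M] [Module ℂ M] [AddCommGroup M']
    [Module ℂ M'] (f : M →ₗ[ℂ] M') (P : Submodule ℂ M) [FiniteDimensional ℂ P] :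
    finrank ℂ (P.map f) + finrank ℂ (P ⊓ LinearMap.ker f : Submodule ℂ M) = finrank ℂ P := by
  rw [← (f.domRestrict P).finrank_range_add_finrank_ker, LinearMap.range_domRestrict,
    LinearMap.ker_domRestrict, ← Submodule.finrank_map_subtype_eq, Submodule.map_comap_subtype]

section theta
variable {A : Type} [CommRing A] [Algebra ℂ A] (V : Finset Var)
open Classical in
/-- keep the variables of `V`, evaluate the other ones at `ρ` -/
def theta (ρ : Var → A) : R →ₐ[ℂ] MvPolynomial V A :=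
  aeval fun v => if h : v ∈ V then MvPolynomial.X ⟨v, h⟩ else C (ρ v)
lemma weight_one {τ : Type} (μ : τ →₀ ℕ) :
    Finsupp.weight (fun _ => (1 : ℤ)) μ = ((Finsupp.degree μ : ℕ) : ℤ) := by
  induction μ using Finsupp.induction_linear with
  | zero => simp
  | add s t hs ht => simp [hs, ht]
  | single v n => simp [Finsupp.weight_single]
lemma theta_deg (hV : ∀ v ∈ V, v.1 = b) {ρ : Var → A} (hρ : ∀ v : Var, v.1 = b → ρ v = 0) {d : D}
    {r : R} (h : Hmg d r) (μ : V →₀ ℕ) (hμ : coeff μ (theta V ρ r) ≠ 0) :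
    ((Finsupp.degree μ : ℕ) : ℤ) = d (some b) := by
  rw [← weight_one]
  suffices H : IsWeightedHomogeneous (fun _ => (1 : ℤ)) (theta V ρ r) (d (some b)) from H hμ
  rw [r.as_sum, map_sum]
  refine IsWeightedHomogeneous.sum _ _ _ fun m hm => ?_
  rw [← hmg_iff.1 h (mem_support_iff.1 hm), weight_some, theta, aeval_monomial, Finsupp.prod]
  refine IsWeightedHomogeneous.C_mul (IsWeightedHomogeneous.prod _ _ _ fun v _ => ?_) _
  have : IsWeightedHomogeneous (fun _ => (1 : ℤ))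
      (if h : v ∈ V then MvPolynomial.X ⟨v, h⟩ else C (ρ v) : MvPolynomial V A)
      (if v.1 = b then 1 else 0) := by
    by_cases h1 : v ∈ V
    · rw [dif_pos h1, if_pos (hV v h1)]; exact isWeightedHomogeneous_X _ _ _
    · rw [dif_neg h1]
      split_ifs with h2
      · rw [hρ v h2, C_0]; exact isWeightedHomogeneous_zero _ _ _
      · exact isWeightedHomogeneous_C _ _
  convert this.pow (m v) using 1
  split_ifs <;> simp
lemma map_theta (φ : A →ₐ[ℂ] ℂ) (ρ : Var → A) (r : R) :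
    map (φ : A →+* ℂ) (theta V ρ r) = theta V (fun v => φ (ρ v)) r := by
  induction r using MvPolynomial.induction_on with
  | C c => simp [theta]
  | add p q hp hq => simp only [map_add, hp, hq]
  | mul_X p v hp =>
    simp only [map_mul, hp]
    by_cases h : v ∈ V <;> simp [theta, h]
lemma eval_theta {x x' z : Pt} (h1 : ∀ v ∈ V, x v = 0) (h2 : ∀ v ∉ V, z v = 0)
    (h3 : ∀ v ∉ V, x' v = x v) (r : R) :
    eval (fun v : V => z v.1) (theta V x' r) = eval (x + z) r := by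
  induction r using MvPolynomial.induction_on with
  | C c => simp [theta]
  | add p q hp hq => simp only [map_add, hp, hq]
  | mul_X p v hp =>
    simp only [map_mul, hp]
    by_cases h : v ∈ V
    · simp [theta, h, h1 v h]
    · simp [theta, h, h2 v h, h3 v h]
/-- polynomial vectors as functions on the cone -/
def evU (S : Spc) (κ : Type) : (κ → MvPolynomial V ℂ) →ₗ[ℂ] (S.pts → κ → ℂ) where
  toFun p z k := eval (fun v : V => z.1 v.1) (p k)
  map_add' p q := by funext z k; simp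
  map_smul' c p := by funext z k; simp
/-- vectors of degree `j` -/
def degP (κ : Type) (c : κ → ℤ) (j : ℤ) : Submodule ℂ (κ → MvPolynomial V ℂ) where
  carrier := {p | ∀ k μ, coeff μ (p k) ≠ 0 → ((Finsupp.degree μ : ℕ) : ℤ) = j + c k}
  add_mem' := by
    intro p q hp hq k μ h
    by_cases h1 : coeff μ (p k) = 0
    · exact hq k μ (by simpa [h1] using h)
    · exact hp k μ h1
  zero_mem' := by intro k μ h; simp at h
  smul_mem' := by
    intro a p hp k μ h
    exact hp k μ fun h1 => h (by simp [h1])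
instance (c : κ → ℤ) (j : ℤ) : FiniteDimensional ℂ (degP V κ c j) := by
  have : ∀ k, FiniteDimensional ℂ (homogeneousSubmodule V ℂ (j + c k).toNat) := fun k =>
    Module.Finite.iff_fg.2 (homogeneousSubmodule_fg _ _ _)
  refine Module.Finite.of_injective (N := ∀ k, homogeneousSubmodule V ℂ (j + c k).toNat)
    (LinearMap.pi fun k => LinearMap.codRestrict _ ((LinearMap.proj k).comp (degP V κ c j).subtype)
      fun p μ hμ => ?_) fun p q h => Subtype.ext (funext fun k => congrArg Subtype.val (congrFun h k))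
  have := p.2 k μ hμ
  have e : Finsupp.weight 1 μ = Finsupp.degree μ := by rw [Finsupp.degree_eq_weight_one]; rfl
  omega
lemma mon_mem_Fn (hS : Base S b) (ν : V →₀ ℕ) :
    (fun z : S.pts => eval (fun v : V => z.1 v.1) (monomial ν (1 : ℂ))) ∈
      Fn S b ((Finsupp.degree ν : ℕ) : ℤ) := by
  induction ν using Finsupp.induction_linear with
  | zero => simp only [monomial_zero', map_one, map_zero, Nat.cast_zero]; exact one_mem_Fn
  | add s t hs ht =>
    convert mul_mem_Fn hs ht using 1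
    · simp
    · funext z; rw [Pi.mul_apply, ← map_mul, monomial_mul, one_mul]
  | single v n =>
    convert pow_mem_Fn (X_mem_Fn hS v.1) n using 1
    · simp
    · funext z; simp [← X_pow_eq_monomial]
end theta

/-- **Finitely many rank functions.** Apply `fhf` over `A = R ⧸ X.I`, `τ` = the variables of `S`,
to the columns of `Φ` together with the vectors `q • e_i`, `q` running through homogeneous
generators of the ideal of `S` in `ℂ[τ]`; the map `ℂ[τ]^κ → (S.pts → κ → ℂ)` sends the piece of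
degree `j` onto the image and its kernel on the piece is the (constant) piece of the `q • e_i`. -/
theorem finite_rank (hS : Base S b) (hb : b ∉ X.B) {a : ι → D} {c : κ → D} {Φ : Matrix κ ι R}
    (hΦ : MHmg a c Φ) :
    ((fun x (j : ℤ) => (finrank ℂ ((Amb S b (sdeg b a) j).map (act S x Φ)) : ℤ)) '' X.pts).Finite := by
  classical
  obtain ⟨V, hV, hV'⟩ := S.fin
  obtain ⟨W, hW, hW'⟩ := X.fin
  have hVb : ∀ v ∈ V, v.1 = b := fun v hv => by simpa [hS.B] using hV v hv
  let A := MvPolynomial W ℂ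
  let ρ : Var → A := fun v => if h : v ∈ W then MvPolynomial.X ⟨v, h⟩ else 0
  have hρ : ∀ v : Var, v.1 = b → ρ v = 0 := fun v hv => dif_neg fun h => hb (hv ▸ hW v h)
  let K : ℤ → Submodule ℂ (κ → MvPolynomial V ℂ) := fun j =>
    degP V κ (sdeg b c) j ⊓ LinearMap.ker (evU V S κ)
  let g : ι ⊕ (Σ j, K j) → κ → MvPolynomial V A :=
    Sum.elim (fun i k => theta V ρ (Φ k i)) fun p => vmap (algebraMap ℂ A) p.2.1
  let d : ι ⊕ (Σ j, K j) → ℤ := Sum.elim (fun i => -sdeg b a i) fun p => p.1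
  have hg : ∀ t k μ, coeff μ (g t k) ≠ 0 → ((Finsupp.degree μ : ℕ) : ℤ) = d t + sdeg b c k := by
    rintro (i | p) k μ h
    · rw [theta_deg V hVb hρ (hΦ k i) μ h]; simp [d, sdeg]; ring
    · exact p.2.2.1 k μ fun h0 => h (by simp [g, vmap, coeff_map, h0])
  refine ((fhf g d (sdeg b c) hg ℂ).image
    fun h j => (h j : ℤ) - finrank ℂ (K j)).subset ?_
  rintro _ ⟨x, hx, rfl⟩
  let φ : A →ₐ[ℂ] ℂ := aeval fun v : W => x v.1
  refine ⟨_, ⟨φ, rfl⟩, funext fun j => ?_⟩
  have hx0 : ∀ v ∈ V, x v = 0 := fun v hv => zero_of_mem hb hx v (hVb v hv)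
  have hφ : ∀ v, φ (ρ v) = x v := fun v => by
    by_cases h : v ∈ W
    · simp only [φ, ρ, dif_pos h]; exact aeval_X _ _
    · simp [ρ, h, hW' x hx v h]
  have e1 : ∀ i, vmap (φ : A →+* ℂ) (g (.inl i)) = fun k => theta V x (Φ k i) := fun i => by
    funext k; simp only [vmap, g, Sum.elim_inl, map_theta, hφ]
  have e2 : ∀ p, vmap (φ : A →+* ℂ) (g (.inr p)) = p.2.1 := fun p => by
    funext k
    simp only [g, Sum.elim_inr, vmap_vmap, AlgHom.comp_algebraMap]
    exact map_id _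
  have e3 : ∀ (p : MvPolynomial V ℂ) i, evU V S κ (p • fun k => theta V x (Φ k i)) =
      act S x Φ fun z => Pi.single i (eval (fun v : V => z.1 v.1) p) := fun p i => by
    funext z k
    simp [evU, act_apply, mev, eval_theta V hx0 (hV' z.1 z.2) fun _ _ => rfl, mul_comm]
  set P := piece (fun t => vmap (φ : A →+* ℂ) (g t)) d j with hP
  have hle : P ≤ degP V κ (sdeg b c) j := fun v hv =>
    deg_of_mem_piece _ d _ (fun t k μ h => hg t k μ fun h0 => h (by simp [vmap, coeff_map, h0])) j hv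
  have hK : P ⊓ LinearMap.ker (evU V S κ) = K j := by
    refine le_antisymm (inf_le_inf_right _ hle) fun v hv => ⟨?_, hv.2⟩
    exact Submodule.subset_span ⟨.inr ⟨j, v, hv⟩, 0, by simp [d], by simp [e2]⟩
  have hI : P.map (evU V S κ) = (Amb S b (sdeg b a) j).map (act S x Φ) := by
    apply le_antisymm
    · rw [Submodule.map_le_iff_le_comap]
      refine Submodule.span_le.2 ?_
      rintro _ ⟨i | p, ν, h, rfl⟩
      · simp only [e1, SetLike.mem_coe, Submodule.mem_comap, e3]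
        refine Submodule.mem_map_of_mem fun i' => ?_
        by_cases hi : i' = i
        · subst hi
          simp only [Pi.single_eq_same]
          convert mon_mem_Fn V hS ν using 2
          simp only [d, Sum.elim_inl] at h
          omega
        · simp only [Pi.single_eq_of_ne hi]; exact zero_mem _
      · simp only [e2, SetLike.mem_coe, Submodule.mem_comap]
        convert Submodule.zero_mem _
        funext z k
        have : eval (fun v : V => z.1 v.1) (p.2.1 k) = 0 := congrFun (congrFun p.2.2.2 z) k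
        simp [evU, this]
    · rintro _ ⟨σ, hσ, rfl⟩
      have : σ = ∑ i, fun z => Pi.single i (σ z i) := by
        funext z; simp [Finset.sum_apply, Finset.univ_sum_single]
      rw [this, map_sum]
      refine Submodule.sum_mem _ fun i _ => ?_
      obtain ⟨r, hr, er⟩ := mem_Fn.1 (hσ i)
      refine ⟨theta V (0 : Pt) r • fun k => theta V x (Φ k i), ?_, ?_⟩
      · rw [(theta V (0 : Pt) r).as_sum, Finset.sum_smul]
        refine Submodule.sum_mem _ fun ν hν => ?_
        rw [← mul_one (coeff ν _), ← smul_eq_mul, ← smul_monomial, smul_assoc]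
        refine Submodule.smul_mem _ _ (Submodule.subset_span ⟨.inl i, ν, ?_, by simp only [e1]⟩)
        rw [theta_deg V hVb (fun _ _ => rfl) hr ν (mem_support_iff.1 hν)]
        simp [d, eB]
      · rw [e3]
        congr 1
        funext z
        rw [eval_theta V (x := 0) (fun _ _ => rfl) (hV' z.1 z.2) (fun _ _ => rfl), zero_add]
        exact congrArg _ (er z).symm
  have : FiniteDimensional ℂ P := Submodule.finiteDimensional_of_le hle
  have := finrank_map_add_inf_ker (evU V S κ) P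
  simp only
  rw [← hI, ← hK]
  change (finrank ℂ P : ℤ) - _ = _
  omega
theorem finEv_rank (hS : Base S b) (hb : b ∉ X.B) {a : ι → D} {c : κ → D} {Φ : Matrix κ ι R}
    (hΦ : MHmg a c Φ) :
    FinEv X fun x j => finrank ℂ ((Amb S b (sdeg b a) j).map (act S x Φ)) :=
  .of_finite (finite_rank hS hb hΦ)
theorem finEv_ker (hS : Base S b) (hb : b ∉ X.B) {a : ι → D} {c : κ → D} {Φ : Matrix κ ι R}
    (hΦ : MHmg a c Φ) : FinEv X fun x j =>
      finrank ℂ (Amb S b (sdeg b a) j ⊓ LinearMap.ker (act S x Φ) : Submodule ℂ _) :=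
  ((FinEv.const fun j => finrank ℂ (Amb S b (sdeg b a) j)).sub (finEv_rank hS hb hΦ)).congr
    (j₀ := 0) fun x _ j _ => by
      have := finrank_map_add_inf_ker (act S x Φ) (Amb S b (sdeg b a) j)
      omega

end Crest.Agent.N265.N
end
end

-- ▼ part N265/N/Gam

/-!
# Row 265, layer N, task N-GAM: sections `Γ_j(E)` of a bundle on `X × S` along `S`
-/

set_option autoImplicit false
set_option backward.isDefEq.respectTransparency false
set_option linter.unusedSectionVars false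
noncomputable section
open MvPolynomial Module

namespace Crest.Agent.N265.N
open Alg GV
variable {S X Y : Spc} {b : ℕ} {ι κ : Type} [Fintype ι] [Fintype κ]

/-- sections of degree `j` of `E` over `{x} × S` -/
def gam (E : Bun (X.fib S)) (b : ℕ) (j : ℤ) (x : Pt) : Submodule ℂ (S.pts → E.ι → ℂ) :=
  Amb S b (sdeg b E.deg) j ⊓ secs S fun z => E.L (x + z)
lemma gsub_gam (E : Bun (X.fib S)) (x : Pt) : GSub S b (sdeg b E.deg) fun j => gam E b j x :=
  gsub_Amb.inf_secs _
instance (E : Bun (X.fib S)) (j : ℤ) (x : Pt) : FiniteDimensional ℂ (gam E b j x) :=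
  Submodule.finiteDimensional_of_le inf_le_left

/-- homogeneous elements of `P` are near `z` images of regular sections of `L` -/
def LocOnto (S : Spc) (b : ℕ) (x : Pt) (L : Pt → Submodule ℂ (ι → ℂ)) (c : κ → ℤ)
    (P : Submodule ℂ (S.pts → κ → ℂ)) (f : Matrix κ ι R) (z : S.pts) : Prop :=
  ∀ j, ∀ σ ∈ Amb S b c j, σ ∈ P → ∃ r ∈ S.fn, r z ≠ 0 ∧
    ∃ τ ∈ secs S L, RegV S.fn τ ∧ act S x f τ = r • σ

lemma finrank_map_add_ker {M N : Type} [AddCommGroup M] [Module ℂ M] [AddCommGroup N] [Module ℂ N]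
    (U : Submodule ℂ M) [FiniteDimensional ℂ U] (φ : M →ₗ[ℂ] N) :
    finrank ℂ (U.map φ) + finrank ℂ (U ⊓ LinearMap.ker φ : Submodule ℂ M) = finrank ℂ U := by
  have h := LinearMap.finrank_range_add_finrank_ker (φ.domRestrict U)
  rwa [LinearMap.range_domRestrict, LinearMap.ker_domRestrict, ← Submodule.finrank_map_subtype_eq,
    Submodule.map_comap_subtype] at h
lemma smul_mem_secs {M : Type} [AddCommGroup M] [Module ℂ M] {L : Pt → Submodule ℂ M}
    {σ : S.pts → M} (h : σ ∈ secs S L) (r : S.pts → ℂ) : r • σ ∈ secs S L :=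
  fun z => Submodule.smul_mem _ (r z) (h z)

section
variable (hS : Base S b) (hb : b ∉ X.B)
include hS hb

lemma gsub_gam_map {E : Bun (X.fib S)} {c : κ → D} {f : Matrix κ E.ι R} (hf : MHmg E.deg c f)
    {x : Pt} (hx : x ∈ X.pts) : GSub S b (sdeg b c) fun j => (gam E b j x).map (act S x f) :=
  (gsub_gam E x).map _ (act_smul x f) fun _ _ h => act_mem_Amb hS hf (zero_of_mem hb hx) h
lemma act_mem_iSup {E : Bun (X.fib S)} (f : Matrix κ E.ι R) {x : Pt} (hx : x ∈ X.pts)
    {τ : S.pts → E.ι → ℂ} (h : τ ∈ secs S fun z => E.L (x + z)) (hτ : RegV S.fn τ) :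
    act S x f τ ∈ ⨆ j, (gam E b j x).map (act S x f) := by
  rw [← Submodule.map_iSup]
  exact ⟨τ, mem_iSup_secs hS (fibre_eqv hS hb E hx) hτ h, rfl⟩
/-- `LocOnto` only depends on the line through `z` (`mem_iSup_secs`, `GSub.exists_hom`) -/
lemma LocOnto.smul {E : Bun (X.fib S)} {c : κ → D} {f : Matrix κ E.ι R} (hf : MHmg E.deg c f)
    {x : Pt} (hx : x ∈ X.pts) {P : Submodule ℂ (S.pts → κ → ℂ)} {z z' : S.pts} {a : ℂ}
    (h : LocOnto S b x (fun z => E.L (x + z)) (sdeg b c) P f z) (e : z'.1 = a • z.1) :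
    LocOnto S b x (fun z => E.L (x + z)) (sdeg b c) P f z' := by
  intro j σ hσ hP
  obtain ⟨r, hr, h0, τ, h1, h2, h3⟩ := h j σ hσ hP
  obtain ⟨m, g, hg, hg0, τ', hτ', e'⟩ := (gsub_gam_map hS hb hf hx).exists_hom hS hσ hr h0
    (h3 ▸ act_mem_iSup hS hb f hx h1 h2)
  refine ⟨g, Fn_le hg, ?_, τ', hτ'.2, regV_of_Amb hτ'.1, e'⟩
  rw [Fn_smul hS hg e]
  refine mul_ne_zero (zpow_ne_zero _ fun ha => ?_) hg0
  obtain ⟨v, -, hv⟩ := S.rel _ z'.2 b (by simp [hS.B])
  simp [e, ha] at hv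
/-- `IsAlg.exists_homotopy` -/
lemma locOnto_of_exact {A B C : Bun (X.fib S)} (f : Matrix B.ι A.ι R) (g : Matrix C.ι B.ι R)
    (h : ∀ y ∈ (X.fib S).pts, (A.L y).map (mev y f) ≤ B.L y ⊓ LinearMap.ker (mev y g) ∧
      (B.L y).map (mev y g) ≤ C.L y) {x : Pt} (hx : x ∈ X.pts) {z : S.pts}
    (he : (A.L (x + z.1)).map (mev (x + z.1) f) =
      B.L (x + z.1) ⊓ LinearMap.ker (mev (x + z.1) g)) :
    LocOnto S b x (fun z => A.L (x + z)) (sdeg b B.deg)
      (secs S (fun z => B.L (x + z)) ⊓ LinearMap.ker (act S x g)) f z := by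
  obtain ⟨r, H, H', hr, hH⟩ := A.alg.exists_homotopy B.alg C.alg f g (fun y hy => (h y hy).1)
    (fun y hy => (h y hy).2) (hS.add_mem hb hx z.2) he
  intro j σ hσ hP
  refine ⟨_, eval_add_mem_fn x r, hr, act S x H σ, fun w => (hH _ (hS.add_mem hb hx w.2)).1 _,
    regV_act x H (regV_of_Amb hσ), funext fun w => ?_⟩
  have := (hH _ (hS.add_mem hb hx w.2)).2.2 _ (hP.1 w)
  rwa [show mev (x + w.1) g (σ w) = 0 from congrFun hP.2 w, map_zero, add_zero] at this
/-- `IsAlg.exists_sect` -/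
lemma locOnto_of_surj {A B : Bun (X.fib S)} (f : Matrix B.ι A.ι R)
    (h : ∀ y ∈ (X.fib S).pts, (A.L y).map (mev y f) ≤ B.L y) {x : Pt} (hx : x ∈ X.pts) {z : S.pts}
    (he : (A.L (x + z.1)).map (mev (x + z.1) f) = B.L (x + z.1)) :
    LocOnto S b x (fun z => A.L (x + z)) (sdeg b B.deg) (secs S fun z => B.L (x + z)) f z := by
  obtain ⟨r, H, hr, hH⟩ := A.alg.exists_sect B.alg f h (hS.add_mem hb hx z.2) he
  intro j σ hσ hP
  exact ⟨_, eval_add_mem_fn x r, hr, act S x H σ, fun w => (hH _ (hS.add_mem hb hx w.2)).1 _,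
    regV_act x H (regV_of_Amb hσ), funext fun w => (hH _ (hS.add_mem hb hx w.2)).2 _ (hP w)⟩
/-- for one `x` (`GSub.le_of_local`) -/
lemma gam_onto_at {E : Bun (X.fib S)} {c : κ → D} {f : Matrix κ E.ι R} (hf : MHmg E.deg c f)
    {x : Pt} (hx : x ∈ X.pts) {P : Submodule ℂ (S.pts → κ → ℂ)}
    (hP : ∀ r ∈ S.fn, ∀ σ ∈ P, r • σ ∈ P)
    (hl : ∀ z, LocOnto S b x (fun z => E.L (x + z)) (sdeg b c) P f z) :
    ∃ j₀ : ℤ, ∀ j ≥ j₀, Amb S b (sdeg b c) j ⊓ P ≤ (gam E b j x).map (act S x f) :=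
  (gsub_Amb.inf_const P hP).le_of_local hS (gsub_gam_map hS hb hf hx) fun j σ hσ z => by
    obtain ⟨r, hr, h0, τ, h1, h2, h3⟩ := hl z j σ hσ.1 hσ.2
    exact ⟨r, hr, h0, h3 ▸ act_mem_iSup hS hb f hx h1 h2⟩
lemma exists_cog (E : Bun (X.fib S)) : ∃ (n : ℕ) (e : Fin n → D) (Φ : Matrix (Fin n) E.ι R),
    (∀ i, e i ∈ DS (X.fib S).B) ∧ MHmg E.deg e Φ ∧
      ∀ x ∈ X.pts, LinearMap.ker (act S x Φ) = secs S fun z => E.L (x + z) := by
  obtain ⟨n, e, Φ, he, hΦ, h⟩ := E.alg.cogen.exists_hmg E.eqv E.hdeg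
  refine ⟨n, e, Φ, he, hΦ, fun x hx => Submodule.ext fun σ => funext_iff.trans
    (forall_congr' fun z => ?_)⟩
  change _ ↔ σ z ∈ E.L (x + z.1)
  rw [← h _ (hS.add_mem hb hx z.2)]
  rfl
/-- stack a cogenerating matrix (`Cogen.exists_hmg`) on `g`; `finEv_ker` -/
lemma finEv_gam_ker (E : Bun (X.fib S)) {c : κ → D} {g : Matrix κ E.ι R} (hg : MHmg E.deg c g) :
    FinEv X fun x j =>
      finrank ℂ (gam E b j x ⊓ LinearMap.ker (act S x g) : Submodule ℂ _) := by
  obtain ⟨n, e, Φ, -, hΦ, h⟩ := exists_cog hS hb E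
  have hΘ : MHmg E.deg (Sum.elim e c) (Matrix.fromRows Φ g) := by
    rintro (j | j) i
    exacts [hΦ j i, hg j i]
  refine (finEv_ker hS hb hΘ).congr (j₀ := 0) fun x hx j _ => ?_
  have : LinearMap.ker (act S x (Matrix.fromRows Φ g)) =
      LinearMap.ker (act S x Φ) ⊓ LinearMap.ker (act S x g) := by
    refine Submodule.ext fun σ => ⟨fun h0 => ⟨funext fun z => funext fun i => ?_,
      funext fun z => funext fun i => ?_⟩, fun h0 => funext fun z => funext ?_⟩
    · exact congrFun (congrFun h0 z) (Sum.inl i)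
    · exact congrFun (congrFun h0 z) (Sum.inr i)
    · rintro (i | i)
      exacts [congrFun (congrFun h0.1 z) i, congrFun (congrFun h0.2 z) i]
  rw [this, h x hx, ← inf_assoc, gam]
lemma finEv_gam (E : Bun (X.fib S)) : FinEv X fun x j => finrank ℂ (gam E b j x) := by
  obtain ⟨n, e, Φ, -, hΦ, h⟩ := exists_cog hS hb E
  exact (finEv_ker hS hb hΦ).congr (j₀ := 0) fun x hx j _ => by rw [h x hx, gam]
/-- rank-nullity -/
lemma finEv_gam_map (E : Bun (X.fib S)) {c : κ → D} {f : Matrix κ E.ι R} (hf : MHmg E.deg c f) :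
    FinEv X fun x j => finrank ℂ ((gam E b j x).map (act S x f)) :=
  ((finEv_gam hS hb E).sub (finEv_gam_ker hS hb E hf)).congr (j₀ := 0) fun x _ j _ => by
    have := finrank_map_add_ker (gam E b j x) (act S x f)
    omega
/-- **uniform exactness** -/
theorem gam_onto {E : Bun (X.fib S)} {c : κ → D} {f : Matrix κ E.ι R} (hf : MHmg E.deg c f)
    {P : Pt → Submodule ℂ (S.pts → κ → ℂ)}
    (hP : ∀ x ∈ X.pts, ∀ r ∈ S.fn, ∀ σ ∈ P x, r • σ ∈ P x)
    (hm : ∀ x ∈ X.pts, ∀ τ ∈ secs S (fun z => E.L (x + z)), RegV S.fn τ → act S x f τ ∈ P x)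
    (hl : ∀ x ∈ X.pts, ∀ z, LocOnto S b x (fun z => E.L (x + z)) (sdeg b c) (P x) f z)
    (hfin : FinEv X fun x j => finrank ℂ (Amb S b (sdeg b c) j ⊓ P x : Submodule ℂ _)) :
    ∃ j₀ : ℤ, ∀ j ≥ j₀, ∀ x ∈ X.pts,
      (gam E b j x).map (act S x f) = Amb S b (sdeg b c) j ⊓ P x :=
  unif_eq (fun _ _ _ => Submodule.finiteDimensional_of_le inf_le_left) (finEv_gam_map hS hb E hf)
    hfin (fun x hx j => le_inf ((gsub_gam_map hS hb hf hx).le j) (by
      rintro _ ⟨τ, hτ, rfl⟩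
      exact hm x hx τ hτ.2 (regV_of_Amb hτ.1)))
    fun x hx => gam_onto_at hS hb hf hx (hP x hx) (hl x hx)
theorem gam_exact {A B C : Bun (X.fib S)} {f : Matrix B.ι A.ι R} {g : Matrix C.ι B.ι R}
    (hf : MHmg A.deg B.deg f) (hg : MHmg B.deg C.deg g)
    (h : ∀ y ∈ (X.fib S).pts, (A.L y).map (mev y f) = B.L y ⊓ LinearMap.ker (mev y g) ∧
      (B.L y).map (mev y g) ≤ C.L y) : ∃ j₀ : ℤ, ∀ j ≥ j₀, ∀ x ∈ X.pts,
      (gam A b j x).map (act S x f) = gam B b j x ⊓ LinearMap.ker (act S x g) := by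
  have := gam_onto hS hb hf
    (P := fun x => secs S (fun z => B.L (x + z)) ⊓ LinearMap.ker (act S x g))
    (fun x _ r _ σ hσ => ⟨smul_mem_secs hσ.1 r, (act_smul x g r σ).trans (by
      rw [show act S x g σ = 0 from hσ.2, smul_zero])⟩)
    (fun x hx τ hτ _ => ⟨fun z => ((h _ (hS.add_mem hb hx z.2)).1.le ⟨_, hτ z, rfl⟩).1,
      funext fun z => ((h _ (hS.add_mem hb hx z.2)).1.le ⟨_, hτ z, rfl⟩).2⟩)
    (fun x hx z => locOnto_of_exact hS hb f g (fun y hy => ⟨(h y hy).1.le, (h y hy).2⟩) hx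
      (h _ (hS.add_mem hb hx z.2)).1)
    ((finEv_gam_ker hS hb B hg).congr (j₀ := 0) fun x _ j _ => by rw [← inf_assoc, gam])
  simpa only [← inf_assoc, gam] using this
theorem gam_surj {A B : Bun (X.fib S)} {f : Matrix B.ι A.ι R} (hf : MHmg A.deg B.deg f)
    (h : ∀ y ∈ (X.fib S).pts, (A.L y).map (mev y f) = B.L y) : ∃ j₀ : ℤ, ∀ j ≥ j₀, ∀ x ∈ X.pts,
      (gam A b j x).map (act S x f) = gam B b j x :=
  gam_onto hS hb hf (P := fun x => secs S fun z => B.L (x + z))
    (fun _ _ r _ _ hσ => smul_mem_secs hσ r)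
    (fun _ hx _ hτ _ z => (h _ (hS.add_mem hb hx z.2)).le ⟨_, hτ z, rfl⟩)
    (fun _ hx z => locOnto_of_surj hS hb f (fun y hy => (h y hy).le) hx
      (h _ (hS.add_mem hb hx z.2))) (finEv_gam hS hb B)
/-- evaluation at a point of `S` is onto (columns of a generating matrix times `l ^ k`) -/
theorem gam_eval_surj (E : Bun (X.fib S)) (p : S.pts) : ∃ j₀ : ℤ, ∀ j ≥ j₀, ∀ x ∈ X.pts,
    (gam E b j x).map (LinearMap.proj p) = E.L (x + p.1) := by
  obtain ⟨n, e, Φ, -, hΦ, h⟩ := E.alg.gen.exists_hmg E.eqv E.hdeg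
  obtain ⟨l, hl, hp⟩ := exists_lin_ne hS {p}
  have hp := hp p (Finset.mem_singleton_self p)
  obtain ⟨N, hN⟩ := (Set.finite_range fun i => -sdeg b e i).bddAbove
  refine ⟨N, fun j hj x hx => le_antisymm ?_ fun v hv => ?_⟩
  · rintro _ ⟨σ, hσ, rfl⟩
    exact hσ.2 p
  obtain ⟨w, rfl⟩ := (h _ (hS.add_mem hb hx p.2)).ge hv
  let σ : S.pts → Fin n → ℂ := fun z i => w i * (l z / l p) ^ (j + sdeg b e i).toNat
  have hσ : σ ∈ Amb S b (sdeg b e) j := fun i => by
    have h1 := (Fn S b _).smul_mem (w i)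
      (pow_mem_Fn ((Fn S b 1).smul_mem (l p)⁻¹ hl) (j + sdeg b e i).toNat)
    have h2 : -sdeg b e i ≤ N := hN ⟨i, rfl⟩
    rw [mul_one, Int.toNat_of_nonneg (by omega)] at h1
    convert h1 using 1
    funext z
    simp [σ, div_eq_inv_mul]
  refine ⟨act S x Φ σ, ⟨act_mem_Amb hS hΦ (zero_of_mem hb hx) hσ, fun z =>
    (h _ (hS.add_mem hb hx z.2)).le ⟨_, rfl⟩⟩, congrArg (mev (x + p.1) Φ) (funext fun i => ?_)⟩
  simp [σ, hp]
end

/-! ### as bundles on `X` -/

/-- the torus element of `X` on vector valued functions -/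
def gS (S : Spc) (d : ι → D) : (S.pts → ι → ℂ) ≃ₗ[ℂ] (S.pts → ι → ℂ) :=
  LinearEquiv.piCongrRight fun _ => gd d
lemma map_gS_Amb (d : ι → D) (a : ι → ℤ) (j : ℤ) :
    (Amb S b a j).map (gS S d).toLinearMap = Amb S b a j :=
  Submodule.eq_of_le_of_finrank_eq (by
    rintro _ ⟨σ, hσ, rfl⟩ i
    exact (Fn S b _).smul_mem (chi (d i)) (hσ i)) (LinearEquiv.finrank_map_eq _ _)
/-- `⊕ Γ(O(j + a i)) ⊗ O(dpr (deg i))` -/
abbrev AmbG (X S : Spc) (b : ℕ) (deg : ι → D) (j : ℤ) : GV :=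
  { V := Amb S b (sdeg b deg) j
    g := (gS S fun i => dpr X.B (deg i)).ofSubmodules _ _ (map_gS_Amb _ _ _) }
lemma AmbG_g (deg : ι → D) (j : ℤ) (σ : (AmbG X S b deg j).V) (z : S.pts) (i : ι) :
    ((AmbG X S b deg j).g σ).1 z i = chi (dpr X.B (deg i)) * σ.1 z i := rfl
lemma in_AmbG (deg : ι → D) (j : ℤ) : (AmbG X S b deg j).In X.B :=
  In.of_inj (W := GV.pi fun i => (GV.triv (Fn S b (j + sdeg b deg i))).shift (dpr X.B (deg i)))
    (in_pi fun _ => (in_triv _).shift (dpr_mem _ _))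
    (f := { toFun := fun σ i => ⟨fun z => σ.1 z i, σ.2 i⟩
            map_add' := fun _ _ => rfl
            map_smul' := fun _ _ => rfl }) (fun _ => rfl) fun _ _ h =>
    Subtype.ext (funext fun z => funext fun i => congrFun (congrArg Subtype.val (congrFun h i)) z)
/-- `Γ_j(E)` inside `AmbG` -/
def gamG (E : Bun (X.fib S)) (b : ℕ) (j : ℤ) (x : Pt) : Submodule ℂ (AmbG X S b E.deg j).V :=
  (gam E b j x).comap (Amb S b (sdeg b E.deg) j).subtype
lemma mem_gamG {E : Bun (X.fib S)} {j : ℤ} {x : Pt} {σ : (AmbG X S b E.deg j).V} :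
    σ ∈ gamG E b j x ↔ ∀ z : S.pts, σ.1 z ∈ E.L (x + z.1) := ⟨fun h => h.2, fun h => ⟨σ.2, h⟩⟩
/-- the class of `Γ_j(E)` -/
def gamK (E : Bun (X.fib S)) (b : ℕ) (j : ℤ) : K X := kc X (AmbG X S b E.deg j) (gamG E b j)

lemma pres_equiv {V W : GV} {L : Pt → Submodule ℂ V.V} {M : Pt → Submodule ℂ W.V} {A : Bun X}
    (h : Pres A V L) (e : V.V ≃ₗ[ℂ] W.V) (he : Deg0 V W e.toLinearMap)
    (hL : ∀ x ∈ X.pts, (L x).map e.toLinearMap = M x) : Pres A W M := by
  obtain ⟨β, h1, h2⟩ := h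
  refine ⟨β.map e, fun i => ((he (β i)).symm.trans ?_), fun x hx => ?_⟩
  · rw [h1, map_smul]; rfl
  · rw [h2 x hx, ← hL x hx, ← Submodule.map_comp]
    congr 1
    ext v i
    simp
/-- a constant isomorphism of ambient spaces does not change the class -/
lemma kc_equiv {V W : GV} {L : Pt → Submodule ℂ V.V} {M : Pt → Submodule ℂ W.V}
    (e : V.V ≃ₗ[ℂ] W.V) (he : Deg0 V W e.toLinearMap)
    (hL : ∀ x ∈ X.pts, ∀ v, v ∈ L x ↔ e v ∈ M x) : kc X V L = kc X W M := by
  by_cases h : ∃ A : Bun X, Pres A V L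
  · obtain ⟨A, h⟩ := h
    rw [← h.kl, ← (pres_equiv h e he (M := M) fun x hx => Submodule.ext fun w => by
      rw [Submodule.mem_map_equiv, hL x hx, LinearEquiv.apply_symm_apply]).kl]
  · have h' : ¬∃ A : Bun X, Pres A W M := fun ⟨A, hA⟩ => h ⟨A, pres_equiv hA e.symm
      (fun w => e.injective ((e.apply_symm_apply _).trans
        ((congrArg W.g (e.apply_symm_apply w)).symm.trans (he (e.symm w)).symm)))
      fun x hx => Submodule.ext fun v => by
        rw [Submodule.mem_map_equiv, hL x hx, LinearEquiv.symm_symm]⟩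
    rw [kc, kc, dif_neg h, dif_neg h']
/-- `ℂ^ι ⊗ Γ(⊕ O(a k)) → Γ(⊕ O(c (i, k)))` -/
def tensG {a : κ → ℤ} {c : ι × κ → ℤ} (h : ∀ p, c p = a p.2) (j : ℤ) :
    TensorProduct ℂ (ι → ℂ) (Amb S b a j) →ₗ[ℂ] Amb S b c j :=
  TensorProduct.lift (LinearMap.mk₂ ℂ (fun v σ => ⟨fun z p => v p.1 * σ.1 z p.2, fun p =>
      h p ▸ (Fn S b _).smul_mem (v p.1) (σ.2 p.2)⟩)
    (fun _ _ _ => Subtype.ext (funext fun _ => funext fun _ => add_mul _ _ _))
    (fun _ _ _ => Subtype.ext (funext fun _ => funext fun _ => mul_assoc _ _ _))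
    (fun _ _ _ => Subtype.ext (funext fun _ => funext fun _ => mul_add _ _ _))
    (fun _ _ _ => Subtype.ext (funext fun _ => funext fun _ => mul_left_comm _ _ _)))
lemma tensG_tmul {a : κ → ℤ} {c : ι × κ → ℤ} (h : ∀ p, c p = a p.2) (j : ℤ) (v : ι → ℂ)
    (σ : Amb S b a j) (z : S.pts) (p : ι × κ) :
    (tensG h j (v ⊗ₜ σ)).1 z p = v p.1 * σ.1 z p.2 := rfl
lemma deg0_tensG {d : ι → D} {e : κ → D} {c : ι × κ → D} (h : ∀ p, sdeg b c p = sdeg b e p.2)
    (hd : ∀ p, dpr X.B (c p) = d p.1 + dpr X.B (e p.2)) (j : ℤ) :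
    Deg0 ((co d).tens (AmbG X S b e j)) (AmbG X S b c j) (tensG h j) := by
  intro t
  induction t using TensorProduct.induction_on with
  | zero => simp
  | add s t hs ht => simp only [map_add, hs, ht]
  | tmul v σ =>
    apply Subtype.ext
    funext z p
    rw [AmbG_g, tensG_tmul, hd, chi_add]
    refine (tensG_tmul h j (gd d v) ((AmbG X S b e j).g σ) z p).trans ?_
    rw [AmbG_g]
    change chi (d p.1) * v p.1 * _ = _
    ring
/-- the `i`-th slice -/
def sliceG {a : κ → ℤ} {c : ι × κ → ℤ} (h : ∀ p, c p = a p.2) (j : ℤ) (i : ι) :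
    Amb S b c j →ₗ[ℂ] Amb S b a j where
  toFun τ := ⟨fun z k => τ.1 z (i, k), fun k => h (i, k) ▸ τ.2 (i, k)⟩
  map_add' _ _ := rfl
  map_smul' _ _ := rfl
lemma tensG_sum {a : κ → ℤ} {c : ι × κ → ℤ} (h : ∀ p, c p = a p.2) (j : ℤ) (v : ι → ι → ℂ)
    (τ : Amb S b c j) (H : ∀ z (p : ι × κ), ∑ i, v i p.1 * τ.1 z (i, p.2) = τ.1 z p) :
    tensG h j (∑ i, v i ⊗ₜ sliceG h j i τ) = τ := by
  apply Subtype.ext
  funext z p
  rw [map_sum, AddSubmonoidClass.coe_finsetSum, Finset.sum_apply, Finset.sum_apply]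
  exact H z p
lemma tensG_inj {a : κ → ℤ} {c : ι × κ → ℤ} (h : ∀ p, c p = a p.2) (j : ℤ) :
    Function.Injective (tensG (S := S) (b := b) h j) := by
  classical
  let r : Amb S b c j →ₗ[ℂ] TensorProduct ℂ (ι → ℂ) (Amb S b a j) :=
    ∑ i, TensorProduct.mk ℂ (ι → ℂ) _ (Pi.single i 1) ∘ₗ sliceG h j i
  refine Function.LeftInverse.injective (g := r) fun t => ?_
  induction t using TensorProduct.induction_on with
  | zero => simp
  | add s t hs ht => rw [map_add, map_add, hs, ht]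
  | tmul v σ =>
    have : ∀ i, sliceG h j i (tensG h j (v ⊗ₜ σ)) = v i • σ := fun _ => rfl
    simp only [r, LinearMap.coe_sum, Finset.sum_apply, LinearMap.comp_apply, this,
      TensorProduct.mk_apply, ← TensorProduct.smul_tmul, ← TensorProduct.sum_tmul]
    congr 1
    funext k
    simp [Pi.single_apply]

section
variable (hS : Base S b) (hb : b ∉ X.B)
/-- a degree zero matrix on sections -/
def actG {a : ι → D} {c : κ → D} {Φ : Matrix κ ι R} (hΦ : MHmg a c Φ) (j : ℤ) (x : Pt) :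
    (AmbG X S b a j).V →ₗ[ℂ] (AmbG X S b c j).V :=
  (act S (restr X.B x) Φ).restrict fun _ h =>
    act_mem_Amb hS hΦ (fun v hv => by simp [restr, hv, hb]) h
lemma actG_val {a : ι → D} {c : κ → D} {Φ : Matrix κ ι R} (hΦ : MHmg a c Φ) (j : ℤ) {x : Pt}
    (hx : x ∈ X.pts) (σ : (AmbG X S b a j).V) :
    (actG hS hb hΦ j x σ).1 = act S x Φ σ.1 := by
  change act S (restr X.B x) Φ σ.1 = _
  rw [X.restr_eq hx]
lemma isRM_actG {a : ι → D} {c : κ → D} (ha : ∀ i, a i ∈ DS (X.fib S).B)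
    (hc : ∀ i, c i ∈ DS (X.fib S).B) {Φ : Matrix κ ι R} (hΦ : MHmg a c Φ) (j : ℤ) :
    IsRM X (AmbG X S b a j) (AmbG X S b c j) (actG hS hb hΦ j) := by
  refine IsRM.mk' (fun σ => regV_of_eval _ fun z => regV_pi.2 fun k => ?_) fun x hx σ =>
    Subtype.ext (funext fun z => ?_)
  · have : (fun x : X.pts => (actG hS hb hΦ j x.1 σ).1 z k) =
        fun x => ∑ i, eval (z.1 + x.1) (Φ k i) * σ.1 z i := funext fun x => by
      rw [actG_val hS hb hΦ j x.2, act_apply, mev_apply, add_comm]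
    rw [this]
    exact fsum_mem _ fun i _ => fmul_mem (eval_add_mem_fn z.1 _) (const_mem _)
  · rw [actG_val hS hb hΦ j (X.inv x hx)]
    refine (mev_gpt_add hS hb ha hc hΦ hx z.2 (σ.1 z)).trans (funext fun k => ?_)
    rw [AmbG_g, actG_val hS hb hΦ j hx]
    rfl
lemma map_actG {E : Bun (X.fib S)} {c : κ → D} {Φ : Matrix κ E.ι R} (hΦ : MHmg E.deg c Φ) (j : ℤ)
    {x : Pt} (hx : x ∈ X.pts) : (gamG E b j x).map (actG hS hb hΦ j x) =
      ((gam E b j x).map (act S x Φ)).comap (Amb S b (sdeg b c) j).subtype :=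
  Submodule.ext fun _ => ⟨fun ⟨σ, hσ, e⟩ => ⟨σ.1, hσ, (actG_val hS hb hΦ j hx σ).symm.trans
    (congrArg Subtype.val e)⟩, fun ⟨σ, hσ, e⟩ =>
      ⟨⟨σ, hσ.1⟩, hσ, Subtype.ext ((actG_val hS hb hΦ j hx _).trans e)⟩⟩
lemma ker_actG {a : ι → D} {c : κ → D} {Φ : Matrix κ ι R} (hΦ : MHmg a c Φ) (j : ℤ)
    {x : Pt} (hx : x ∈ X.pts) : LinearMap.ker (actG hS hb hΦ j x) =
      (LinearMap.ker (act S x Φ)).comap (Amb S b (sdeg b a) j).subtype :=
  Submodule.ext fun σ => Subtype.ext_iff.trans (by rw [actG_val hS hb hΦ j hx]; rfl)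
include hS hb
lemma eqv_gamG (E : Bun (X.fib S)) (j : ℤ) : Eqv X (AmbG X S b E.deg j) (gamG E b j) :=
  Eqv.of_mem_iff fun _ hx σ => mem_gamG.trans ((forall_congr' fun z =>
    (fibre_gpt hS hb E hx z.2 (σ.1 z)).symm).trans mem_gamG.symm)
lemma cogA_gamG (E : Bun (X.fib S)) (j : ℤ) : CogA X (gamG E b j) := by
  obtain ⟨n, e, Φ, he, hΦ, h⟩ := exists_cog hS hb E
  refine (cogA_ker (isRM_actG hS hb E.hdeg he hΦ j).reg).congr fun x hx => ?_
  rw [ker_actG hS hb hΦ j hx, h x hx]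
  exact Submodule.ext fun σ => mem_gamG.symm
/-- kernel of a cogenerating matrix, image of a generating matrix (`gam_surj`) -/
theorem isAB_gamG (E : Bun (X.fib S)) :
    ∃ j₀ : ℤ, ∀ j ≥ j₀, IsAB X (AmbG X S b E.deg j) (gamG E b j) := by
  obtain ⟨n, e, Φ, he, hΦ, h⟩ := E.alg.gen.exists_hmg E.eqv E.hdeg
  obtain ⟨j₀, hj₀⟩ := gam_surj hS hb (A := Bun.triv (X.fib S) e he) (B := E) hΦ fun y hy =>
    (Submodule.map_top _).trans (h y hy)
  refine ⟨j₀, fun j hj => IsAB.of_gen_cog (in_AmbG _ _) (eqv_gamG hS hb E j)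
    (((IsAB.top (in_AmbG (S := S) (b := b) e j)).gen.map
      (isRM_actG hS hb he E.hdeg hΦ j).reg).congr fun x hx => ?_) (cogA_gamG hS hb E j)⟩
  have := map_actG hS hb (E := Bun.triv (X.fib S) e he) hΦ j hx
  rw [hj₀ j hj x hx, show gamG (Bun.triv (X.fib S) e he) b j x = ⊤ from
    eq_top_iff.2 fun _ _ => mem_gamG.2 fun _ => trivial] at this
  exact this
theorem gamK_ses {A B C : Bun (X.fib S)} (h : Bun.SES A B C) :
    ∃ j₀ : ℤ, ∀ j ≥ j₀, gamK B b j = gamK A b j + gamK C b j := by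
  obtain ⟨f, g, hf, hg, h⟩ := h
  obtain ⟨j₁, h₁⟩ := isAB_gamG hS hb A
  obtain ⟨j₂, h₂⟩ := isAB_gamG hS hb B
  obtain ⟨j₃, h₃⟩ := isAB_gamG hS hb C
  obtain ⟨j₄, h₄⟩ := gam_exact hS hb hf hg fun y hy => ⟨(h y hy).2.1, (h y hy).2.2.le⟩
  obtain ⟨j₅, h₅⟩ := gam_surj hS hb hg fun y hy => (h y hy).2.2
  refine ⟨max (max (max j₁ j₂) j₃) (max j₄ j₅), fun j hj => kc_ses (h₁ j (by omega))
    (h₂ j (by omega)) (h₃ j (by omega)) (isRM_actG hS hb A.hdeg B.hdeg hf j)
    (isRM_actG hS hb B.hdeg C.hdeg hg j) fun x hx => ⟨eq_bot_iff.2 fun σ hσ => ?_, ?_, ?_⟩⟩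
  · rw [ker_actG hS hb hf j hx] at hσ
    exact Subtype.ext (funext fun z => (h _ (hS.add_mem hb hx z.2)).1.le
      ⟨mem_gamG.1 hσ.1 z, congrFun hσ.2 z⟩)
  · rw [map_actG hS hb hf j hx, h₄ j (by omega) x hx, ker_actG hS hb hg j hx, Submodule.comap_inf,
      gamG]
  · rw [map_actG hS hb hg j hx, h₅ j (by omega) x hx, gamG]
theorem gamK_twist (E : Bun (X.fib S)) (j k : ℤ) :
    gamK (E.twist (k • eB b) (hS.eB_mem k)) b j = gamK E b (j + k) := by
  have h1 : sdeg b (E.twist (k • eB b) (hS.eB_mem k)).deg = fun i => sdeg b E.deg i + k :=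
    funext fun i => by simp [sdeg, Bun.twist, eB]
  have h2 : ∀ i, dpr X.B ((E.twist (k • eB b) (hS.eB_mem k)).deg i) = dpr X.B (E.deg i) := by
    intro i
    rw [hS.dpr_eq hb (Bun.hdeg _ i), hS.dpr_eq hb (E.hdeg i)]
    have := congrFun h1 i
    rw [sdeg] at this
    rw [this, add_smul]
    exact add_sub_add_right_eq_sub _ _ _
  have h3 : Amb S b (sdeg b (E.twist (k • eB b) (hS.eB_mem k)).deg) j =
      Amb S b (sdeg b E.deg) (j + k) := (congrArg (Amb S b · j) h1).trans (Amb_shift _ j k)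
  refine kc_equiv (V := AmbG X S b (E.twist (k • eB b) (hS.eB_mem k)).deg j)
    (W := AmbG X S b E.deg (j + k)) (LinearEquiv.ofEq _ _ h3) (fun σ => Subtype.ext ?_)
    fun x _ σ => mem_gamG.trans (Iff.trans ?_ mem_gamG.symm)
  · exact funext fun z => funext fun i => congrArg (chi · * σ.1 z i) (h2 i)
  · rfl
theorem gamK_tens (A : Bun X) (E : Bun (X.fib S)) {j : ℤ}
    (h : IsAB X (AmbG X S b E.deg j) (gamG E b j)) :
    gamK ((A.pull (Spc.fib_fst X S)).tens E) b j = A.kl * gamK E b j := by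
  let F := (A.pull (Spc.fib_fst X S)).tens E
  have hc : ∀ p : A.ι × E.ι, sdeg b F.deg p = sdeg b E.deg p.2 := fun p => by
    change A.deg p.1 (some b) + E.deg p.2 (some b) = E.deg p.2 (some b)
    rw [A.hdeg p.1 b hb, zero_add]
  have hd : Deg0 ((co A.deg).tens (AmbG X S b E.deg j)) (AmbG X S b F.deg j) (tensG hc j) :=
    deg0_tensG (c := fun p : A.ι × E.ι => A.deg p.1 + E.deg p.2) hc
      (fun p => by rw [map_add, dpr_of_mem (A.hdeg _)]) j
  have hi : ∀ x ∈ X.pts, Pow.tens (A.L x) (gamG E b j x) ⊓ LinearMap.ker (tensG hc j) = ⊥ :=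
    fun x _ => by rw [LinearMap.ker_eq_bot.2 (tensG_inj hc j), inf_bot_eq]
  have hL : ∀ x ∈ X.pts, ∀ (z : S.pts) (u : A.ι × E.ι → ℂ), u ∈ F.L (x + z.1) ↔
      (∀ k, (fun i => u (i, k)) ∈ A.L x) ∧ ∀ i, (fun k => u (i, k)) ∈ E.L (x + z.1) := by
    intro x hx z u
    refine Bun.mem_tens.trans ?_
    change (∀ k, (fun i => u (i, k)) ∈ A.L (restr X.B (x + z.1))) ∧ _ ↔ _
    rw [(Spc.add_mem_fib (hS.disj hb) hx z.2).2.1]
    rfl
  have he : ∀ x ∈ X.pts, (Pow.tens (A.L x) (gamG E b j x)).map (tensG hc j) = gamG F b j x := by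
    intro x hx
    refine le_antisymm (Submodule.map_le_iff_le_comap.2 (Pow.tens_le.2 fun v hv σ hσ =>
      mem_gamG.2 fun z => (hL x hx z _).2 ⟨fun k => ?_, fun i => ?_⟩)) fun τ hτ => ?_
    · convert (A.L x).smul_mem (σ.1 z k) hv using 1
      exact funext fun i => mul_comm _ _
    · exact (E.L _).smul_mem (v i) (mem_gamG.1 hσ z)
    · obtain ⟨P, hP, hP'⟩ := B0.exists_projM (A.L x)
      refine ⟨∑ i, (fun a => P a i) ⊗ₜ sliceG hc j i τ, sum_mem fun i _ => Pow.tmul_mem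
        (B0.col_mem hP i) (mem_gamG.2 fun z => ((hL x hx z _).1 (mem_gamG.1 hτ z)).2 i),
        tensG_sum hc j (fun i a => P a i) τ fun z p =>
          congrFun (hP' _ (((hL x hx z _).1 (mem_gamG.1 hτ z)).1 p.2)) p.1⟩
  have hT := A.isAB.tens h
  rw [A.kl_eq_kc, gamK, gamK, ← kc_tens A.isAB h]
  exact (kc_iso hT ((hT.map_of_inj (in_AmbG _ _) (IsRM.const hd) hi).congr he) (IsRM.const hd)
    fun x hx => ⟨hi x hx, he x hx⟩).symm
theorem gamK_pull (q : Proj Y X) (hY : b ∉ Y.B) (E : Bun (X.fib S)) {j : ℤ}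
    (h : IsAB X (AmbG X S b E.deg j) (gamG E b j)) :
    gamK (E.pull (q.fib_map S)) b j = K.pull q (gamK E b j) := by
  rw [gamK, gamK, kc_pull h q]
  have hd : ∀ i, dpr Y.B (E.deg i) = dpr X.B (E.deg i) := fun i =>
    (hS.dpr_eq hY ((E.pull (q.fib_map S)).hdeg i)).trans (hS.dpr_eq hb (E.hdeg i)).symm
  refine kc_equiv (V := AmbG Y S b E.deg j) (W := AmbG X S b E.deg j)
    (LinearEquiv.refl ℂ (Amb S b (sdeg b E.deg) j)) (fun σ => Subtype.ext (funext fun z =>
      funext fun i => congrArg (chi · * σ.1 z i) (hd i))) fun y hy σ =>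
    (mem_gamG (E := E.pull (q.fib_map S))).trans ((forall_congr' fun z => ?_).trans
      (mem_gamG (E := E) (σ := σ)).symm)
  have : restr (X.B ∪ S.B) (y + z.1) = restr X.B y + z.1 := by
    funext u
    by_cases h2 : u.1 ∈ S.B
    · have h3 : y u = 0 := zero_of_mem hY hy u (by simpa [hS.B] using h2)
      simp [restr, h2, h3]
    · have h3 : z.1 u = 0 := by_contra fun h0 => h2 (S.mem_B z.2 h0)
      simp [restr, h2, h3]
  change σ.1 z ∈ E.L (restr (X.B ∪ S.B) (y + z.1)) ↔ _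
  rw [this]
theorem gamK_line (j : ℤ) :
    gamK (Bun.line (X.fib S) 0) b j = (finrank ℂ (Fn S b j) : K X) := by
  have h0 : ∀ i, (Bun.line (X.fib S) 0).deg i = 0 := fun _ => map_zero (dpr (X.fib S).B)
  rw [gamK, kc_equiv (V := AmbG X S b (Bun.line (X.fib S) 0).deg j)
    (W := GV.triv (Amb S b (sdeg b (Bun.line (X.fib S) 0).deg) j))
    (L := gamG (Bun.line (X.fib S) 0) b j) (M := fun _ => ⊤) (LinearEquiv.refl ℂ _)
    (fun σ => Subtype.ext (funext fun z => funext fun i => (AmbG_g _ j σ z i).trans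
      (by rw [h0, map_zero, chi_zero, one_mul]; rfl)))
    fun x _ σ => ⟨fun _ => trivial, fun _ => mem_gamG.2 fun _ => trivial⟩, kc_triv,
    finrank_top, finrank_Amb]
  change ((∑ i : Unit, finrank ℂ (Fn S b (j + (Bun.line (X.fib S) 0).deg i (some b))) : ℕ) :
    K X) = _
  rw [Fintype.sum_unique, h0, Finsupp.zero_apply, add_zero]
end

end Crest.Agent.N265.N
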